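import Vale.Agent.P012.Defs

namespace Vale.Agent.P012
open Finset

/-- one greedy step: `a/B = 1/n + a₂/(B n)` with `a₂ < a`, `n = ⌈B/a⌉`. -/
lemma greedy_step (a B : ℕ) (ha : 1 ≤ a) (hB : 1 ≤ B) :
    ∃ n a₂ : ℕ, 1 ≤ n ∧ n ≤ B ∧ a₂ < a ∧ B ≤ a * n ∧
      (a : ℚ) / B - (a₂ : ℚ) / ((B * n : ℕ) : ℚ) = 1 / (n : ℚ) := by
  have hn : B ≤ a * ((B + a - 1) / a) := by
    have := Nat.div_add_mod (B + a - 1) a
    have h2 := Nat.mod_lt (B + a - 1) (by omega : 0 < a)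
    omega
  have hn2 : a * ((B + a - 1) / a) < B + a := by
    have := Nat.mul_div_le (B + a - 1) a
    omega
  set n := (B + a - 1) / a with hndef
  have hn1 : 1 ≤ n := by
    rcases Nat.eq_zero_or_pos n with h | h
    · rw [h] at hn; omega
    · exact h
  refine ⟨n, a * n - B, hn1, ?_, by omega, hn, ?_⟩
  · rw [hndef, Nat.div_le_iff_le_mul_add_pred (by omega)]
    have : B ≤ a * B := Nat.le_mul_of_pos_left B (by omega)
    omega
  · have hBq : (B : ℚ) ≠ 0 := by positivity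
    have hnq : (n : ℚ) ≠ 0 := by positivity
    rw [Nat.cast_sub hn]
    push_cast
    field_simp
    ring

lemma greedy_aux (b H : ℕ) : ∀ m t a₁ B₁ : ℕ, 1 ≤ a₁ → a₁ < b → b * 2 ^ 2 ^ t ≤ B₁ →
    B₁ ≤ H ^ 2 → Nat.log 2 (Nat.log 2 H) < t + m →
    ∃ a' B : ℕ, 1 ≤ B ∧ SumUF ((a₁ : ℚ) / B₁ - (a' : ℚ) / B) m ∧
      (a' = 0 ∨ (a' < b ∧ H ≤ B ∧ B ≤ H ^ 2)) := by
  intro m
  induction m with
  | zero =>
    intro t a₁ B₁ h1 h2 h3 h4 h5
    have h6 : Nat.log 2 H < 2 ^ t := Nat.lt_pow_of_log_lt (by norm_num) (by simpa using h5)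
    have h7 : H < 2 ^ 2 ^ t := Nat.lt_pow_of_log_lt (by norm_num) h6
    have hb1 : 1 ≤ b := by omega
    have h8 : 2 ^ 2 ^ t ≤ b * 2 ^ 2 ^ t := Nat.le_mul_of_pos_left _ hb1
    refine ⟨a₁, B₁, ?_, ?_, Or.inr ⟨h2, by omega, h4⟩⟩
    · have : 0 < 2 ^ 2 ^ t := by positivity
      omega
    · rw [sub_self]; exact SumUF.zero 0
  | succ m ih =>
    intro t a₁ B₁ h1 h2 h3 h4 h5
    have hb1 : 1 ≤ b := by omega
    have hB1 : 1 ≤ B₁ := by
      have h8 : 2 ^ 2 ^ t ≤ b * 2 ^ 2 ^ t := Nat.le_mul_of_pos_left _ hb1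
      have : 0 < 2 ^ 2 ^ t := by positivity
      omega
    by_cases hH : H ≤ B₁
    · refine ⟨a₁, B₁, hB1, ?_, Or.inr ⟨h2, hH, h4⟩⟩
      rw [sub_self]; exact SumUF.zero _
    · push Not at hH
      obtain ⟨n, a₂, hn1, hnB, ha2, hBn, heq⟩ := greedy_step a₁ B₁ h1 hB1
      by_cases ha20 : a₂ = 0
      · refine ⟨0, 1, le_refl _, ?_, Or.inl rfl⟩
        subst ha20
        have : (a₁ : ℚ) / B₁ - ((0 : ℕ) : ℚ) / ((1 : ℕ) : ℚ) = 1 / n := by
          rw [← heq]; simp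
        rw [this]
        exact (SumUF.unit n hn1).mono (by omega)
      · have hB2 : B₁ * n ≤ H ^ 2 := by
          calc B₁ * n ≤ B₁ * B₁ := Nat.mul_le_mul_left _ hnB
            _ ≤ H * H := Nat.mul_le_mul hH.le hH.le
            _ = H ^ 2 := by ring
        have hgrow : b * 2 ^ 2 ^ (t + 1) ≤ B₁ * n := by
          have e1 : b * (b * 2 ^ 2 ^ (t + 1)) ≤ b * (B₁ * n) := by
            calc b * (b * 2 ^ 2 ^ (t + 1)) = (b * 2 ^ 2 ^ t) * (b * 2 ^ 2 ^ t) := by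
                  rw [pow_succ 2 t, pow_mul]; ring
              _ ≤ B₁ * B₁ := Nat.mul_le_mul h3 h3
              _ ≤ B₁ * (a₁ * n) := Nat.mul_le_mul_left _ hBn
              _ = a₁ * (B₁ * n) := by ring
              _ ≤ b * (B₁ * n) := Nat.mul_le_mul_right _ h2.le
          exact Nat.le_of_mul_le_mul_left e1 hb1
        obtain ⟨a', B, hB, hs, hor⟩ := ih (t + 1) a₂ (B₁ * n) (by omega) (by omega) hgrow hB2
          (by omega)
        refine ⟨a', B, hB, ?_, hor⟩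
        have := (SumUF.unit n hn1).add hs
        have e : (1 : ℚ) / n + ((a₂ : ℚ) / ((B₁ * n : ℕ) : ℚ) - (a' : ℚ) / B) =
            (a₁ : ℚ) / B₁ - (a' : ℚ) / B := by
          rw [← heq]; ring
        rw [e] at this
        exact this.mono (by omega)

theorem greedy (a b H : ℕ) (ha : 1 ≤ a) (hab : a < b) (hbH : b ≤ H) :
    ∃ k a' B : ℕ, k ≤ Nat.log 2 (Nat.log 2 H) + 3 ∧ 1 ≤ B ∧
      SumUF ((a : ℚ) / b - (a' : ℚ) / B) k ∧ (a' = 0 ∨ (a' < b ∧ H ≤ B ∧ B ≤ H ^ 2)) := by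
  obtain ⟨n, a₂, hn1, hnB, ha2, hBn, heq⟩ := greedy_step a b ha (by omega)
  have hn2 : 2 ≤ n := by
    by_contra h
    have : n = 1 := by omega
    subst this
    omega
  by_cases ha20 : a₂ = 0
  · refine ⟨1, 0, 1, by omega, le_refl _, ?_, Or.inl rfl⟩
    subst ha20
    have : (a : ℚ) / b - ((0 : ℕ) : ℚ) / ((1 : ℕ) : ℚ) = 1 / n := by
      rw [← heq]; simp
    rw [this]
    exact SumUF.unit n hn1
  · obtain ⟨a', B, hB, hs, hor⟩ := greedy_aux b H (Nat.log 2 (Nat.log 2 H) + 1) 0 a₂ (b * n)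
      (by omega) (by omega) (by simpa using Nat.mul_le_mul_left b hn2)
      (by
        calc b * n ≤ b * b := Nat.mul_le_mul_left _ hnB
          _ ≤ H * H := Nat.mul_le_mul hbH hbH
          _ = H ^ 2 := by ring) (by omega)
    refine ⟨Nat.log 2 (Nat.log 2 H) + 3, a', B, le_refl _, hB, ?_, hor⟩
    have := (SumUF.unit n hn1).add hs
    have e : (1 : ℚ) / n + ((a₂ : ℚ) / ((b * n : ℕ) : ℚ) - (a' : ℚ) / B) =
        (a : ℚ) / b - (a' : ℚ) / B := by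
      rw [← heq]; ring
    rw [e] at this
    exact this.mono (by omega)

end Vale.Agent.P012
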