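import Vale.Agent.P012.Defs2

namespace Vale.Agent.P012
open Finset

theorem primes_lower : ∃ k₀ : ℕ, ∀ k ≥ k₀, 2 ^ k ≤ 2 * k * Nat.primeCounting (2 ^ k) := by
  refine ⟨4, fun k hk => ?_⟩
  have h := Chebyshev.pi_ge (2 ^ k)
  have hlog2 : 0 < Real.log 2 := Real.log_pos (by norm_num)
  have hk0 : (0 : ℝ) < k := by exact_mod_cast (by omega : 0 < k)
  push_cast at h
  rw [Real.log_pow, div_le_iff₀ (by positivity)] at h
  have h2 : Real.log ((2 : ℝ) ^ k + 1) ≤ (k + 1) * Real.log 2 := by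
    have : Real.log ((2 : ℝ) ^ k + 1) ≤ Real.log ((2 : ℝ) ^ (k + 1)) := by
      apply Real.log_le_log (by positivity)
      have : (1 : ℝ) ≤ 2 ^ k := one_le_pow₀ (by norm_num)
      rw [pow_succ]; linarith
    rw [Real.log_pow] at this
    push_cast at this
    exact this
  have h3 : (2 : ℝ) ^ k - (k + 1) ≤ (Nat.primeCounting (2 ^ k) : ℝ) * k := by
    have h4 : ((2 : ℝ) ^ k - (k + 1)) * Real.log 2 ≤
        ((Nat.primeCounting (2 ^ k) : ℝ) * k) * Real.log 2 := by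
      calc ((2 : ℝ) ^ k - (k + 1)) * Real.log 2
          = (2 : ℝ) ^ k * Real.log 2 - (k + 1) * Real.log 2 := by ring
        _ ≤ (2 : ℝ) ^ k * Real.log 2 - Real.log ((2 : ℝ) ^ k + 1) := by linarith
        _ ≤ _ := h
        _ = _ := by ring
    exact le_of_mul_le_mul_right h4 hlog2
  have h5 : ∀ n : ℕ, 4 ≤ n → 2 * (n + 1) ≤ 2 ^ n := by
    intro n hn
    induction n, hn using Nat.le_induction with
    | base => norm_num
    | succ n hn ih => rw [pow_succ]; omega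
  have h6 : (2 * ((k : ℝ) + 1)) ≤ 2 ^ k := by exact_mod_cast h5 k hk
  have h7 : (2 : ℝ) ^ k ≤ 2 * k * (Nat.primeCounting (2 ^ k) : ℝ) := by nlinarith
  exact_mod_cast h7

end Vale.Agent.P012
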