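import Vale.Agent.P012.Cover
import Vale.Agent.P012.Primes

namespace Vale.Agent.P012
open Finset

/-- number of colliding ordered pairs modulo `q` -/
def coll (U : Finset ℕ) (q : ℕ) : ℕ := (U.offDiag.filter (fun p => p.1 ≡ p.2 [MOD q])).card

lemma prime_count (Qs : Finset ℕ) (hQ : ∀ q ∈ Qs, q.Prime) (h M n : ℕ)
    (hh : ∀ q ∈ Qs, 2 ^ h ≤ q) (hn : n ≠ 0) (hM : n ≤ 2 ^ M) :
    h * (Qs.filter (fun q => q ∣ n)).card ≤ M := by
  have h1 : ∏ q ∈ Qs.filter (fun q => q ∣ n), q ∣ n := by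
    apply Finset.prod_primes_dvd
    · intro q hq
      exact (hQ q (Finset.mem_filter.1 hq).1).prime
    · intro q hq
      exact (Finset.mem_filter.1 hq).2
  have h2 := Nat.le_of_dvd (Nat.pos_of_ne_zero hn) h1
  have h3 : (2 ^ h) ^ (Qs.filter (fun q => q ∣ n)).card ≤ ∏ q ∈ Qs.filter (fun q => q ∣ n), q := by
    apply Finset.pow_card_le_prod
    intro q hq
    exact hh q (Finset.mem_filter.1 hq).1
  have h4 : 2 ^ (h * (Qs.filter (fun q => q ∣ n)).card) ≤ 2 ^ M := by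
    rw [pow_mul]; exact (h3.trans h2).trans hM
  exact (Nat.pow_le_pow_iff_right (by norm_num)).1 h4

lemma coll_sum (U Qs : Finset ℕ) (hQ : ∀ q ∈ Qs, q.Prime) (h M c : ℕ)
    (hh : ∀ q ∈ Qs, 2 ^ h ≤ q) (hU : ∀ u ∈ U, u ≤ 2 ^ M) (hc : M < h * (c + 1)) :
    ∑ q ∈ Qs, coll U q ≤ c * U.card ^ 2 := by
  have e1 : ∑ q ∈ Qs, coll U q =
      ∑ p ∈ U.offDiag, (Qs.filter (fun q => p.1 ≡ p.2 [MOD q])).card := by
    simp only [coll, Finset.card_filter]
    rw [Finset.sum_comm]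
  rw [e1]
  calc ∑ p ∈ U.offDiag, (Qs.filter (fun q => p.1 ≡ p.2 [MOD q])).card
      ≤ ∑ p ∈ U.offDiag, c := by
        apply Finset.sum_le_sum
        intro p hp
        rw [Finset.mem_offDiag] at hp
        obtain ⟨hp1, hp2, hne⟩ := hp
        -- wlog-free: use natural distance
        have e2 : Qs.filter (fun q => p.1 ≡ p.2 [MOD q]) =
            Qs.filter (fun q => q ∣ Nat.dist p.1 p.2) := by
          apply Finset.filter_congr
          intro q _
          rcases le_total p.1 p.2 with hle | hle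
          · rw [Nat.dist_eq_sub_of_le hle, Nat.modEq_iff_dvd' hle]
          · rw [Nat.dist_eq_sub_of_le_right hle, Nat.ModEq.comm, Nat.modEq_iff_dvd' hle]
        rw [e2]
        have h1 := prime_count Qs hQ h M (Nat.dist p.1 p.2) hh
          (by intro h0; exact hne (Nat.eq_of_dist_eq_zero h0))
          (by
            have a1 := hU _ hp1
            have a2 := hU _ hp2
            unfold Nat.dist
            omega)
        by_contra hcon
        have : h * (c + 1) ≤ h * (Qs.filter (fun q => q ∣ Nat.dist p.1 p.2)).card :=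
          Nat.mul_le_mul_left _ (by omega)
        omega
    _ = c * U.offDiag.card := by rw [Finset.sum_const, smul_eq_mul, mul_comm]
    _ ≤ c * U.card ^ 2 := by
        apply Nat.mul_le_mul_left
        rw [Finset.offDiag_card, sq]
        omega

lemma image_card (U : Finset ℕ) (q : ℕ) :
    U.card ≤ (U.image (fun u : ℕ => (u : ZMod q))).card + coll U q := by
  classical
  set bad := U.filter (fun u => ∃ u' ∈ U, u ≠ u' ∧ u ≡ u' [MOD q]) with hbad
  have h1 : bad.card ≤ coll U q := by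
    have : bad ⊆ (U.offDiag.filter (fun p => p.1 ≡ p.2 [MOD q])).image Prod.fst := by
      intro u hu
      rw [hbad, Finset.mem_filter] at hu
      obtain ⟨hu, u', hu', hne, hmod⟩ := hu
      rw [Finset.mem_image]
      exact ⟨(u, u'), by rw [Finset.mem_filter, Finset.mem_offDiag]; exact ⟨⟨hu, hu', hne⟩, hmod⟩, rfl⟩
    exact (Finset.card_le_card this).trans Finset.card_image_le
  have h2 : (U \ bad).card ≤ (U.image (fun u : ℕ => (u : ZMod q))).card := by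
    rw [← Finset.card_image_of_injOn (s := U \ bad) (f := fun u : ℕ => (u : ZMod q))]
    · exact Finset.card_le_card (Finset.image_subset_image Finset.sdiff_subset)
    · intro u hu v hv huv
      rw [Finset.mem_coe, Finset.mem_sdiff] at hu hv
      by_contra hne
      apply hu.2
      rw [hbad, Finset.mem_filter]
      exact ⟨hu.1, v, hv.1, hne, (ZMod.natCast_eq_natCast_iff _ _ _).1 huv⟩
  have h3 : (U \ bad).card + bad.card = U.card :=
    Finset.card_sdiff_add_card_eq_card (Finset.filter_subset _ _)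
  omega

/-- subset products of a finite set of primes -/
def subProd (P : Finset ℕ) : Finset ℕ := P.powerset.image (fun S => ∏ p ∈ S, p)

lemma subProd_card (P : Finset ℕ) (hP : ∀ p ∈ P, p.Prime) : (subProd P).card = 2 ^ P.card := by
  rw [subProd, Finset.card_image_of_injOn, Finset.card_powerset]
  intro S hS S' hS' h
  rw [Finset.mem_coe, Finset.mem_powerset] at hS hS'
  have h1 := Nat.primeFactors_prod (s := S) (fun p hp => hP p (hS hp))
  have h2 := Nat.primeFactors_prod (s := S') (fun p hp => hP p (hS' hp))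
  rw [← h1, ← h2]
  simp only at h
  rw [h]

lemma subProd_dvd (P : Finset ℕ) (u : ℕ) (hu : u ∈ subProd P) : u ∣ ∏ p ∈ P, p := by
  rw [subProd, Finset.mem_image] at hu
  obtain ⟨S, hS, rfl⟩ := hu
  exact Finset.prod_dvd_prod_of_subset _ _ _ (Finset.mem_powerset.1 hS)


lemma prod_le_of_le (P : Finset ℕ) (K x : ℕ) (hP : ∀ p ∈ P, p ≤ 2 ^ K) (hx : P.card = x) :
    ∏ p ∈ P, p ≤ 2 ^ (K * x) := by
  rw [pow_mul, ← hx]
  exact Finset.prod_le_pow_card _ _ _ hP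

lemma ten_le (L : ℕ) (hL : 20 ≤ L) : 9 * L + 5 ≤ 2 ^ (L - 3) := by
  induction L, hL using Nat.le_induction with
  | base => norm_num
  | succ n hn ih =>
    have : n + 1 - 3 = (n - 3) + 1 := by omega
    rw [this, pow_succ]; omega

lemma one_set (k₀ : ℕ) (hk₀ : ∀ k ≥ k₀, 2 ^ k ≤ 2 * k * Nat.primeCounting (2 ^ k)) (L : ℕ)
    (hL20 : 20 ≤ L) (hLk : k₀ + 4 ≤ L) :
    ∃ P : Finset ℕ, (∀ p ∈ P, p.Prime) ∧ (∀ p ∈ P, p ≤ 2 ^ (2 * L)) ∧ P.card = 2 ^ (L - 3) := by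
  set P := (Finset.range (2 ^ (2 * L) + 1)).filter Nat.Prime with hP
  have hPcard : P.card = Nat.primeCounting (2 ^ (2 * L)) := by
    rw [Nat.primeCounting, Nat.primeCounting', Nat.count_eq_card_filter_range]
  have hx8 : 8 * 2 ^ (L - 3) = 2 ^ L := by
    rw [show (8 : ℕ) = 2 ^ 3 by norm_num, ← pow_add]; congr 1; omega
  have hP2x : 2 ^ (L - 3) ≤ P.card := by
    have h1 := hk₀ (2 * L) (by omega)
    rw [← hPcard] at h1
    by_contra hcon
    push Not at hcon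
    have h2 : 2 * (2 * L) * P.card < 2 * (2 * L) * (2 ^ (L - 3)) :=
      Nat.mul_lt_mul_of_pos_left hcon (by omega)
    have h3 : 2 * (2 * (2 * L) * (2 ^ (L - 3))) = L * 2 ^ L := by rw [← hx8]; ring
    have h4 : L * 2 ^ L < 2 ^ L * 2 ^ L :=
      Nat.mul_lt_mul_of_pos_right Nat.lt_two_pow_self (by positivity)
    have h5 : 2 ^ L * 2 ^ L = 2 ^ (2 * L) := by rw [← pow_add]; congr 1; ring
    omega
  obtain ⟨P1, hP1, hP1c⟩ := Finset.exists_subset_card_eq hP2x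
  refine ⟨P1, fun p hp => (Finset.mem_filter.1 (hP1 hp)).2, fun p hp => ?_, hP1c⟩
  have := Finset.mem_range.1 (Finset.mem_filter.1 (hP1 hp)).1
  omega

lemma moduli (k₀ : ℕ) (hk₀ : ∀ k ≥ k₀, 2 ^ k ≤ 2 * k * Nat.primeCounting (2 ^ k)) (h x : ℕ)
    (hxh : x = 2 * h) (hh : 6 ≤ h) (hxk : k₀ ≤ x) :
    ∃ Qs : Finset ℕ, (∀ q ∈ Qs, q.Prime) ∧ (∀ q ∈ Qs, 2 ^ h ≤ q) ∧ (∀ q ∈ Qs, q ≤ 2 ^ x) ∧
      2 ^ x ≤ 4 * x * Qs.card := by
  classical
  set Qs := (Finset.range (2 ^ x + 1)).filter (fun q => q.Prime ∧ 2 ^ h ≤ q) with hQs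
  have hQs1 : Nat.primeCounting (2 ^ x) ≤ Qs.card + 2 ^ h := by
    rw [Nat.primeCounting, Nat.primeCounting', Nat.count_eq_card_filter_range]
    have : (Finset.range (2 ^ x + 1)).filter Nat.Prime ⊆ Qs ∪ Finset.range (2 ^ h) := by
      intro q hq
      rw [Finset.mem_filter] at hq
      rw [Finset.mem_union]
      by_cases hqh : 2 ^ h ≤ q
      · left; rw [hQs, Finset.mem_filter]; exact ⟨hq.1, hq.2, hqh⟩
      · right; rw [Finset.mem_range]; omega
    have h1 := (Finset.card_le_card this).trans (Finset.card_union_le _ _)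
    rwa [Finset.card_range] at h1
  refine ⟨Qs, fun q hq => (Finset.mem_filter.1 hq).2.1, fun q hq => (Finset.mem_filter.1 hq).2.2,
    fun q hq => ?_, ?_⟩
  · have := Finset.mem_range.1 (Finset.mem_filter.1 hq).1
    omega
  · have h1 := hk₀ x hxk
    have h2 : 8 * h ≤ 2 ^ h := by
      have : ∀ n : ℕ, 6 ≤ n → 8 * n ≤ 2 ^ n := by
        intro n hn
        induction n, hn using Nat.le_induction with
        | base => norm_num
        | succ n hn ih => rw [pow_succ]; omega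
      exact this h hh
    have h3 : 4 * x * 2 ^ h ≤ 2 ^ x := by
      have : 2 ^ x = 2 ^ h * 2 ^ h := by rw [← pow_add]; congr 1; omega
      rw [this]
      apply Nat.mul_le_mul_right
      omega
    have h4 : 4 * x * Nat.primeCounting (2 ^ x) ≤ 4 * x * (Qs.card + 2 ^ h) :=
      Nat.mul_le_mul_left _ hQs1
    have h5 : 2 * (2 * x * Nat.primeCounting (2 ^ x)) = 4 * x * Nat.primeCounting (2 ^ x) := by
      ring
    rw [mul_add] at h4
    omega

/-- a modulus with few collisions -/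
lemma good_modulus (L x h : ℕ) (U Qs : Finset ℕ) (hL20 : 20 ≤ L) (hx8 : 8 * x = 2 ^ L)
    (hxh : x = 2 * h) (hx9 : 9 * L + 5 ≤ x) (hQprime : ∀ q ∈ Qs, q.Prime)
    (hQge : ∀ q ∈ Qs, 2 ^ h ≤ q) (hQs2 : 2 ^ x ≤ 4 * x * Qs.card)
    (hU : ∀ u ∈ U, u ≤ 2 ^ (2 * L * x)) (hUcard : U.card = 2 ^ (x - 3 * L)) :
    ∃ q ∈ Qs, 2 * coll U q ≤ 2 ^ (x - 3 * L) := by
  have hMc : 2 * L * x < h * (4 * L + 1) := by
    rw [hxh]
    have : 2 * L * (2 * h) = h * (4 * L) := by ring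
    rw [this]
    exact Nat.mul_lt_mul_of_pos_left (by omega) (by omega)
  have hsU := coll_sum U Qs hQprime h (2 * L * x) (4 * L) hQge hU hMc
  set N := 2 ^ (x - 3 * L) with hN
  by_contra hcon
  push Not at hcon
  have h1 : ∑ q ∈ Qs, N ≤ ∑ q ∈ Qs, 2 * coll U q :=
    Finset.sum_le_sum (fun q hq => (hcon q hq).le)
  rw [Finset.sum_const, smul_eq_mul, ← Finset.mul_sum] at h1
  rw [hUcard] at hsU
  have h2 : Qs.card * N ≤ (8 * L * N) * N := by
    calc Qs.card * N ≤ 2 * (∑ q ∈ Qs, coll U q) := h1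
      _ ≤ 2 * (4 * L * N ^ 2) := by omega
      _ = (8 * L * N) * N := by ring
  have hNpos : 0 < N := by positivity
  have h3 : Qs.card ≤ 8 * L * N := Nat.le_of_mul_le_mul_right h2 hNpos
  have h4 : 2 ^ x ≤ 4 * x * (8 * L * N) := hQs2.trans (Nat.mul_le_mul_left _ h3)
  have h5 : 4 * x * (8 * L * N) = (4 * L * 2 ^ L) * N := by rw [← hx8]; ring
  have h6 : 2 ^ x = 2 ^ (3 * L) * N := by rw [hN, ← pow_add]; congr 1; omega
  rw [h5, h6] at h4
  have h7 : 2 ^ (3 * L) ≤ 4 * L * 2 ^ L := Nat.le_of_mul_le_mul_right h4 hNpos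
  have h8 : 2 ^ (3 * L) = 2 ^ L * 2 ^ L * 2 ^ L := by rw [← pow_add, ← pow_add]; congr 1; ring
  rw [h8] at h7
  have h9 : 2 ^ L * 2 ^ L ≤ 4 * L := Nat.le_of_mul_le_mul_right h7 (by positivity)
  have h10 : 4 * L < 2 ^ L * 2 ^ L := by
    apply Nat.mul_lt_mul_of_le_of_lt _ Nat.lt_two_pow_self (by norm_num)
    omega
  omega

theorem exists_modulus : ∃ L₀ : ℕ, ∀ L ≥ L₀, ∃ Q T : ℕ, 2 ^ (2 ^ (L - 4)) ≤ Q ∧ 0 < T ∧
    4 * T ≤ 2 ^ (L * 2 ^ L) ∧
    ∀ r : ℕ, ∃ d1 d2 d3 d4 : ℕ, d1 ∣ T ∧ d2 ∣ T ∧ d3 ∣ T ∧ d4 ∣ T ∧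
      d1 + d2 + d3 + d4 ≡ r [MOD Q] := by
  classical
  obtain ⟨k₀, hk₀⟩ := primes_lower
  refine ⟨max 20 (k₀ + 4), fun L hL => ?_⟩
  have hL20 : 20 ≤ L := (le_max_left _ _).trans hL
  have hLk : k₀ + 4 ≤ L := (le_max_right _ _).trans hL
  obtain ⟨P, hPprime, hPle, hPcard⟩ := one_set k₀ hk₀ L hL20 hLk
  have hx9 : 9 * L + 5 ≤ 2 ^ (L - 3) := ten_le L hL20
  have hx8 : 8 * 2 ^ (L - 3) = 2 ^ L := by
    rw [show (8 : ℕ) = 2 ^ 3 by norm_num, ← pow_add]; congr 1; omega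
  have hxh : 2 ^ (L - 3) = 2 * 2 ^ (L - 4) := by
    rw [← pow_succ']; congr 1; omega
  have hxL : L - 3 < 2 ^ (L - 3) := Nat.lt_two_pow_self
  generalize 2 ^ (L - 4) = h at *
  generalize 2 ^ (L - 3) = x at *
  obtain ⟨Qs, hQprime, hQge, hQle, hQs2⟩ := moduli k₀ hk₀ h x hxh (by omega) (by omega)
  set T1 := ∏ p ∈ P, p with hT1
  have hT1le : T1 ≤ 2 ^ (2 * L * x) := prod_le_of_le P _ _ hPle hPcard
  have hT1pos : 0 < T1 := Finset.prod_pos (fun p hp => (hPprime p hp).pos)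
  have hUc : (subProd P).card = 2 ^ x := by
    rw [subProd_card P hPprime, hPcard]
  have hNle : 2 ^ (x - 3 * L) ≤ 2 ^ x := Nat.pow_le_pow_right (by norm_num) (by omega)
  obtain ⟨U, hU, hUcard⟩ :=
    Finset.exists_subset_card_eq (s := subProd P) (n := 2 ^ (x - 3 * L)) (by omega)
  have hUle : ∀ u ∈ U, u ≤ 2 ^ (2 * L * x) := fun u hu =>
    (Nat.le_of_dvd hT1pos (subProd_dvd P u (hU hu))).trans hT1le
  obtain ⟨q, hq, hcoll⟩ :=
    good_modulus L x h U Qs hL20 hx8 hxh hx9 hQprime hQge hQs2 hUle hUcard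
  have : Fact q.Prime := ⟨hQprime q hq⟩
  have hqle : q ≤ 2 ^ x := hQle q hq
  set Ub := U.image (fun u : ℕ => (u : ZMod q)) with hUb
  have hUb2 : 2 ^ (x - 3 * L) ≤ 2 * Ub.card := by
    have this : U.card ≤ Ub.card + coll U q := image_card U q
    rw [hUcard] at this
    omega
  have hmain : 2 * q ^ 2 < Ub.card ^ 2 * Ub.card := by
    have h1 : (2 ^ (x - 3 * L)) ^ 3 ≤ (2 * Ub.card) ^ 3 := Nat.pow_le_pow_left hUb2 3
    have h2 : 16 * q ^ 2 ≤ 16 * (2 ^ x) ^ 2 := Nat.mul_le_mul_left _ (Nat.pow_le_pow_left hqle 2)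
    have h3 : 16 * (2 ^ x) ^ 2 < (2 ^ (x - 3 * L)) ^ 3 := by
      rw [show (16 : ℕ) = 2 ^ 4 by norm_num, ← pow_mul, ← pow_add, ← pow_mul]
      apply Nat.pow_lt_pow_right (by norm_num)
      omega
    have h4 : (2 * Ub.card) ^ 3 = 8 * (Ub.card ^ 2 * Ub.card) := by ring
    omega
  refine ⟨q, T1 * T1, hQge q hq, Nat.mul_pos hT1pos hT1pos, ?_, ?_⟩
  · have h1 : T1 * T1 ≤ 2 ^ (2 * L * x) * 2 ^ (2 * L * x) := Nat.mul_le_mul hT1le hT1le
    have h2 : 4 * (2 ^ (2 * L * x) * 2 ^ (2 * L * x)) = 2 ^ (2 + 4 * L * x) := by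
      rw [show (4 : ℕ) = 2 ^ 2 by norm_num, ← pow_add, ← pow_add]; congr 1; ring
    have h3 : 2 ^ (2 + 4 * L * x) ≤ 2 ^ (L * 2 ^ L) := by
      apply Nat.pow_le_pow_right (by norm_num)
      rw [← hx8]
      have : L * (8 * x) = 4 * L * x + 4 * L * x := by ring
      rw [this]
      have h4 : 1 ≤ L * x := Nat.mul_pos (by omega) (by omega)
      have h5 : 4 * L * x = 4 * (L * x) := by ring
      omega
    omega
  · intro r
    obtain ⟨v1, hv1, u1, hu1, v2, hv2, v3, hv3, u2, hu2, v4, hv4, hr⟩ :=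
      cover Ub Ub hmain (r : ZMod q)
    rw [hUb, Finset.mem_image] at hu1 hu2 hv1 hv2 hv3 hv4
    obtain ⟨a1, ha1, rfl⟩ := hv1
    obtain ⟨a2, ha2, rfl⟩ := hv2
    obtain ⟨a3, ha3, rfl⟩ := hv3
    obtain ⟨a4, ha4, rfl⟩ := hv4
    obtain ⟨b1, hb1, rfl⟩ := hu1
    obtain ⟨b2, hb2, rfl⟩ := hu2
    refine ⟨a1, b1 * a2, a3, b2 * a4, ?_, ?_, ?_, ?_, ?_⟩
    · exact (subProd_dvd P a1 (hU ha1)).trans (Dvd.intro_left _ rfl)
    · exact Nat.mul_dvd_mul (subProd_dvd P b1 (hU hb1)) (subProd_dvd P a2 (hU ha2))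
    · exact (subProd_dvd P a3 (hU ha3)).trans (Dvd.intro_left _ rfl)
    · exact Nat.mul_dvd_mul (subProd_dvd P b2 (hU hb2)) (subProd_dvd P a4 (hU ha4))
    · rw [← ZMod.natCast_eq_natCast_iff, hr]
      push_cast
      ring

end Vale.Agent.P012
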