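import Vale.Agent.P012.ExistsM
import Vale.Agent.P012.Greedy
import Vale.Agent.P012.Modulus

namespace Vale.Agent.P012
open Finset

/-- every fraction with numerator at most `2 ^ X` and denominator a multiple of `W` is a sum of
`k` unit fractions -/
def Cov (W X k : ℕ) : Prop :=
  ∀ n c : ℕ, 0 < c → n ≤ 2 ^ X → SumUF ((n : ℚ) / ((c : ℚ) * W)) k

theorem Cov.mono {W X k l : ℕ} (h : Cov W X k) (hkl : k ≤ l) : Cov W X l :=
  fun n c hc hn => (h n c hc hn).mono hkl

theorem SumUF.copies (n N : ℕ) (hN : 1 ≤ N) : SumUF ((n : ℚ) / N) n := by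
  refine ⟨Multiset.replicate n N, ?_, ?_, ?_⟩
  · intro m hm
    rw [Multiset.eq_of_mem_replicate hm]
    exact hN
  · rw [Multiset.card_replicate]
  · rw [Multiset.map_replicate, Multiset.sum_replicate, nsmul_eq_mul]
    ring

theorem Cov.base (W X : ℕ) (hW : 0 < W) : Cov W X (2 ^ X) := by
  intro n c hc hn
  have h := (SumUF.copies n (c * W) (Nat.mul_pos hc hW)).mono hn
  rwa [Nat.cast_mul] at h

/-- the basic identity -/
theorem greedy_identity {A c m W l r : ℕ} (hA : 0 < A) (hc : 0 < c) (hW : 0 < W)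
    (hl : A * l = c * m + r) (hl0 : 0 < l) :
    (A : ℚ) / ((c : ℚ) * W) = (m : ℚ) / ((l * W : ℕ) : ℚ) + (r : ℚ) / (((c * l : ℕ) : ℚ) * W) := by
  have h1 : (A : ℚ) * l = c * m + r := by exact_mod_cast hl
  have hA' : (A : ℚ) ≠ 0 := by positivity
  have hc' : (c : ℚ) ≠ 0 := by positivity
  have hW' : (W : ℚ) ≠ 0 := by positivity
  have hl' : (l : ℚ) ≠ 0 := by positivity
  push_cast
  field_simp
  linear_combination h1

/-- one step of the modified greedy algorithm -/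
theorem Cov.step {W X k i G M : ℕ} (hW : 0 < W) (hM : M ∣ W) (hX : 2 ^ (i + 1) ≤ X)
    (hXG : X + G ≤ i * 2 ^ i)
    (hprop : ∀ A c : ℕ, Nat.Coprime A c → 2 ^ (2 ^ (i + 1)) ≤ A → A ≤ 2 ^ (i * 2 ^ i) →
      ∃ m r : ℕ, m ∣ M ∧ A ∣ c * m + r ∧ r * 2 ^ G ≤ A)
    (h : Cov W X k) : Cov W (X + G) (k + 1) := by
  intro n c hc hn
  -- reduce to coprime numerator and denominator
  obtain ⟨d, n', c', hd, hcop, rfl, rfl⟩ : ∃ d n' c' : ℕ, 0 < d ∧ Nat.Coprime n' c' ∧
      n = n' * d ∧ c = c' * d := by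
    obtain ⟨g, n', c', h1, h2, h3, h4⟩ := Nat.exists_coprime' (m := n) (n := c)
      (Nat.gcd_pos_of_pos_right _ hc)
    exact ⟨g, n', c', h1, h2, h3, h4⟩
  have hc' : 0 < c' := Nat.pos_of_mul_pos_right hc
  have hn' : n' ≤ 2 ^ (X + G) := (Nat.le_mul_of_pos_right _ hd).trans hn
  have hred : (((n' * d : ℕ) : ℚ) / (((c' * d : ℕ) : ℚ) * W)) = (n' : ℚ) / ((c' : ℚ) * W) := by
    have h1 : (d : ℚ) ≠ 0 := by positivity
    have h2 : (c' : ℚ) ≠ 0 := by positivity
    have h3 : (W : ℚ) ≠ 0 := by positivity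
    push_cast
    field_simp
  rw [hred]
  by_cases hsmall : n' ≤ 2 ^ X
  · exact (h n' c' hc' hsmall).mono (Nat.le_succ k)
  · push Not at hsmall
    have h1 : 2 ^ (2 ^ (i + 1)) ≤ n' := (Nat.pow_le_pow_right (by norm_num) hX).trans hsmall.le
    have h2 : n' ≤ 2 ^ (i * 2 ^ i) := hn'.trans (Nat.pow_le_pow_right (by norm_num) hXG)
    have hn0 : 0 < n' := lt_of_le_of_lt (Nat.zero_le _) hsmall
    obtain ⟨m, r, hm, ⟨l, hl⟩, hr⟩ := hprop n' c' hcop h1 h2
    have hm0 : 0 < m := Nat.pos_of_dvd_of_pos (hm.trans hM) hW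
    have hl0 : 0 < l := by
      rcases Nat.eq_zero_or_pos l with h3 | h3
      · rw [h3, mul_zero] at hl
        have : 0 < c' * m := Nat.mul_pos hc' hm0
        omega
      · exact h3
    have hrX : r ≤ 2 ^ X := by
      have h3 : r * 2 ^ G ≤ 2 ^ X * 2 ^ G := by rw [← pow_add]; exact hr.trans hn'
      exact Nat.le_of_mul_le_mul_right h3 (by positivity)
    rw [greedy_identity hn0 hc' hW hl.symm hl0, add_comm]
    refine (h r (c' * l) (Nat.mul_pos hc' hl0) hrX).add ?_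
    exact SumUF.div (Nat.mul_pos hl0 hW) ((hm.trans hM).mul_left l)

theorem Cov.iter {W i G M k : ℕ} (hW : 0 < W) (hM : M ∣ W)
    (hprop : ∀ A c : ℕ, Nat.Coprime A c → 2 ^ (2 ^ (i + 1)) ≤ A → A ≤ 2 ^ (i * 2 ^ i) →
      ∃ m r : ℕ, m ∣ M ∧ A ∣ c * m + r ∧ r * 2 ^ G ≤ A)
    (h : Cov W (2 ^ (i + 1)) k) (t : ℕ) :
    2 ^ (i + 1) + t * G ≤ i * 2 ^ i → Cov W (2 ^ (i + 1) + t * G) (k + t) := by
  induction t with
  | zero => intro _; simpa using h
  | succ t ih =>
    intro ht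
    have h1 : 2 ^ (i + 1) + (t + 1) * G = 2 ^ (i + 1) + t * G + G := by ring
    rw [h1] at ht ⊢
    have h2 := ih (by omega)
    exact Cov.step hW hM (Nat.le_add_right _ _) ht hprop h2

/-- all levels -/
theorem exists_cov : ∃ L₁ K : ℕ, ∀ L ≥ L₁, ∃ W : ℕ, 0 < W ∧ W ≤ 2 ^ (130 * L * 2 ^ L) ∧
    Cov W (L * 2 ^ L) (K + 768 * L) := by
  obtain ⟨L₀, h₀⟩ := exists_M
  choose! M hM0 hMb hMp using h₀
  refine ⟨L₀ + 8, 2 ^ (2 ^ (L₀ + 8 + 1)), fun L hL => ?_⟩
  set I := Finset.Icc (L₀ + 8) L with hI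
  have hW : 0 < ∏ i ∈ I, M i := Finset.prod_pos (fun i hi => hM0 i (by
    have := (mem_Icc.1 hi).1; omega))
  refine ⟨∏ i ∈ I, M i, hW, ?_, ?_⟩
  · calc ∏ i ∈ I, M i ≤ ∏ i ∈ I, 2 ^ (65 * L * 2 ^ i) := by
          refine Finset.prod_le_prod' (fun i hi => ?_)
          obtain ⟨h1, h2⟩ := mem_Icc.1 hi
          refine (hMb i (by omega)).trans (Nat.pow_le_pow_right (by norm_num) ?_)
          gcongr
      _ = 2 ^ (65 * L * ∑ i ∈ I, 2 ^ i) := by
          rw [Finset.prod_pow_eq_pow_sum, Finset.mul_sum]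
      _ ≤ 2 ^ (130 * L * 2 ^ L) := by
          refine Nat.pow_le_pow_right (by norm_num) ?_
          have h1 : ∑ i ∈ I, 2 ^ i ≤ ∑ i ∈ range (L + 1), 2 ^ i := by
            refine Finset.sum_le_sum_of_subset (fun i hi => ?_)
            have := (mem_Icc.1 hi).2
            exact mem_range.2 (by omega)
          have h2 : ∑ i ∈ range (L + 1), 2 ^ i ≤ 2 * 2 ^ L := by
            have h3 : ∀ n : ℕ, ∑ i ∈ range n, 2 ^ i ≤ 2 ^ n := by
              intro n
              induction n with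
              | zero => simp
              | succ n ih => rw [Finset.sum_range_succ, pow_succ]; omega
            calc ∑ i ∈ range (L + 1), 2 ^ i ≤ 2 ^ (L + 1) := h3 _
              _ = 2 * 2 ^ L := by rw [pow_succ]; ring
          calc 65 * L * ∑ i ∈ I, 2 ^ i ≤ 65 * L * (2 * 2 ^ L) :=
                Nat.mul_le_mul_left _ (h1.trans h2)
            _ = 130 * L * 2 ^ L := by ring
  · have hlev : ∀ i, L₀ + 8 ≤ i → i ≤ L →
        Cov (∏ i ∈ I, M i) (2 ^ (i + 1)) (2 ^ (2 ^ (L₀ + 8 + 1)) + 512 * (i - (L₀ + 8))) := by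
      intro i hi
      induction i, hi using Nat.le_induction with
      | base =>
        intro _
        refine (Cov.base _ _ hW).mono ?_
        exact Nat.le_add_right _ _
      | succ i hi ih =>
        intro hiL
        have h1 := ih (by omega)
        have h2 := Cov.iter (i := i) (G := 2 ^ (i - 8)) (M := M i) hW
          (Finset.dvd_prod_of_mem M (mem_Icc.2 ⟨hi, by omega⟩)) (hMp i (by omega)) h1 512
        have h3 : 512 * 2 ^ (i - 8) = 2 * 2 ^ i := by
          have : 2 ^ i = 2 ^ 8 * 2 ^ (i - 8) := by rw [← pow_add]; congr 1; omega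
          rw [this]; ring
        have h4 : 2 ^ (i + 1) + 512 * 2 ^ (i - 8) = 2 ^ (i + 1 + 1) := by
          rw [h3, pow_succ, pow_succ, pow_succ]; ring
        rw [h4] at h2
        have h5 : 2 ^ (i + 1 + 1) ≤ i * 2 ^ i := by
          have : 2 ^ (i + 1 + 1) = 4 * 2 ^ i := by rw [pow_succ, pow_succ]; ring
          rw [this]
          exact Nat.mul_le_mul_right _ (by omega)
        refine (h2 h5).mono ?_
        omega
    have h1 := hlev L hL le_rfl
    have h2 := Cov.iter (i := L) (G := 2 ^ (L - 8)) (M := M L) hW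
      (Finset.dvd_prod_of_mem M (mem_Icc.2 ⟨hL, le_rfl⟩)) (hMp L (by omega)) h1 (256 * (L - 2))
    have h4 : 2 ^ (L + 1) + 256 * (L - 2) * 2 ^ (L - 8) = L * 2 ^ L := by
      have h5 : 2 ^ L = 2 ^ 8 * 2 ^ (L - 8) := by rw [← pow_add]; congr 1; omega
      obtain ⟨e, he⟩ : ∃ e, L = e + 2 := ⟨L - 2, by omega⟩
      have h6 : L - 2 = e := by omega
      rw [pow_succ, h5, h6]
      generalize 2 ^ (L - 8) = y
      rw [he]; ring
    rw [h4] at h2
    refine (h2 le_rfl).mono ?_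
    omega

/-- Phase 1: peeling off digits in base `Q` -/
theorem phase_one {Q T W X k : ℕ} (hQ : 0 < Q) (hT : 0 < T) (hW : 0 < W) (hTX : 4 * T ≤ 2 ^ X)
    (hQT : ∀ r : ℕ, ∃ d1 d2 d3 d4 : ℕ, d1 ∣ T ∧ d2 ∣ T ∧ d3 ∣ T ∧ d4 ∣ T ∧
      d1 + d2 + d3 + d4 ≡ r [MOD Q]) (hcov : Cov W X k) (m : ℕ) :
    ∀ n c : ℕ, 0 < c → n ≤ Q ^ m →
      SumUF ((n : ℚ) / ((c : ℚ) * ((Q : ℚ) ^ m * T * W))) (4 * m + k) := by
  induction m with
  | zero =>
    intro n c hc hn
    rw [pow_zero] at hn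
    have h1 := (hcov n (c * T) (Nat.mul_pos hc hT) (by omega)).mono (Nat.le_add_left k (4 * 0))
    have h2 : (n : ℚ) / (((c * T : ℕ) : ℚ) * W) = (n : ℚ) / ((c : ℚ) * ((Q : ℚ) ^ 0 * T * W)) := by
      push_cast
      rw [pow_zero]
      ring
    rwa [h2] at h1
  | succ m ih =>
    intro n c hc hn
    by_cases hsmall : n ≤ 4 * T
    · have h1 := (hcov n (c * Q ^ (m + 1) * T) (by positivity) (hsmall.trans hTX)).mono
        (Nat.le_add_left k (4 * (m + 1)))
      have h2 : (n : ℚ) / (((c * Q ^ (m + 1) * T : ℕ) : ℚ) * W) =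
          (n : ℚ) / ((c : ℚ) * ((Q : ℚ) ^ (m + 1) * T * W)) := by
        push_cast
        ring
      rwa [h2] at h1
    · push Not at hsmall
      obtain ⟨d1, d2, d3, d4, e1, e2, e3, e4, hmod⟩ := hQT n
      have l1 := Nat.le_of_dvd hT e1
      have l2 := Nat.le_of_dvd hT e2
      have l3 := Nat.le_of_dvd hT e3
      have l4 := Nat.le_of_dvd hT e4
      obtain ⟨n', hn'⟩ := (Nat.modEq_iff_dvd' (by omega)).1 hmod
      have hn'' : n = d1 + d2 + d3 + d4 + Q * n' := by omega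
      have hn1 : n' ≤ Q ^ m := by
        have h1 : Q * n' ≤ Q * Q ^ m := by
          have : Q * Q ^ m = Q ^ (m + 1) := by rw [pow_succ]; ring
          omega
        exact Nat.le_of_mul_le_mul_left h1 hQ
      have hrec := ih n' c hc hn1
      have hN : 1 ≤ c * (Q ^ (m + 1) * T * W) := Nat.succ_le_of_lt (by positivity)
      have hdv : ∀ d, d ∣ T → d ∣ c * (Q ^ (m + 1) * T * W) := by
        intro d hd
        exact (((hd.mul_left _).mul_right _).mul_left _)
      have s1 := SumUF.div hN (hdv d1 e1)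
      have s2 := SumUF.div hN (hdv d2 e2)
      have s3 := SumUF.div hN (hdv d3 e3)
      have s4 := SumUF.div hN (hdv d4 e4)
      have hsum := (((s1.add s2).add s3).add s4).add hrec
      have hk : 1 + 1 + 1 + 1 + (4 * m + k) = 4 * (m + 1) + k := by ring
      rw [hk] at hsum
      have hq : (Q : ℚ) ≠ 0 := by positivity
      have ht : (T : ℚ) ≠ 0 := by positivity
      have hw : (W : ℚ) ≠ 0 := by positivity
      have hcc : (c : ℚ) ≠ 0 := by positivity
      have hval : (n : ℚ) / ((c : ℚ) * ((Q : ℚ) ^ (m + 1) * T * W)) =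
          (d1 : ℚ) / ((c * (Q ^ (m + 1) * T * W) : ℕ) : ℚ) +
          (d2 : ℚ) / ((c * (Q ^ (m + 1) * T * W) : ℕ) : ℚ) +
          (d3 : ℚ) / ((c * (Q ^ (m + 1) * T * W) : ℕ) : ℚ) +
          (d4 : ℚ) / ((c * (Q ^ (m + 1) * T * W) : ℕ) : ℚ) +
          (n' : ℚ) / ((c : ℚ) * ((Q : ℚ) ^ m * T * W)) := by
        rw [hn'']
        push_cast
        rw [pow_succ]
        field_simp
      rw [hval]
      exact hsum

end Vale.Agent.P012
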