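import Vale.Agent.P012.Defs2

namespace Vale.Agent.P012
open Finset

section
variable {Q : ℕ} [Fact Q.Prime]

/-- the affine change of variables `(s,u) ↦ (s + u v, s + u v')` -/
def affEquiv (v v' : ZMod Q) (h : v ≠ v') : (ZMod Q × ZMod Q) ≃ (ZMod Q × ZMod Q) where
  toFun p := (p.1 + p.2 * v, p.1 + p.2 * v')
  invFun q := (q.1 - (q.2 - q.1) / (v' - v) * v, (q.2 - q.1) / (v' - v))
  left_inv p := by
    have h1 : v' - v ≠ 0 := sub_ne_zero.2 (Ne.symm h)
    ext
    · simp only
      have : p.1 + p.2 * v' - (p.1 + p.2 * v) = p.2 * (v' - v) := by ring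
      rw [this, mul_div_cancel_right₀ _ h1]; ring
    · simp only
      have : p.1 + p.2 * v' - (p.1 + p.2 * v) = p.2 * (v' - v) := by ring
      rw [this, mul_div_cancel_right₀ _ h1]
  right_inv q := by
    have h1 : v' - v ≠ 0 := sub_ne_zero.2 (Ne.symm h)
    ext
    · simp only; ring
    · simp only
      have : q.1 - (q.2 - q.1) / (v' - v) * v + (q.2 - q.1) / (v' - v) * v' =
        q.1 + (q.2 - q.1) / (v' - v) * (v' - v) := by ring
      rw [this, div_mul_cancel₀ _ h1]; ring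

lemma cover_half (U V : Finset (ZMod Q)) (h : 2 * Q ^ 2 < V.card ^ 2 * U.card)
    (W : Finset (ZMod Q)) (hW : ∀ s ∈ V, ∀ u ∈ U, ∀ v ∈ V, s + u * v ∉ W) :
    2 * W.card < Q := by
  classical
  have hQ : 0 < Q := (Fact.out : Q.Prime).pos
  set w : ZMod Q → ℝ := fun x => if x ∈ W then 1 else 0 with hw
  have hwsum : ∑ x, w x = W.card := by
    simp [hw]
  have hww : ∀ x, w x * w x = w x := by
    intro x; simp only [hw]; split_ifs <;> simp
  set N : ZMod Q × ZMod Q → ℝ := fun p => ∑ v ∈ V, w (p.1 + p.2 * v) with hN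
  -- first moment
  have hshift : ∀ c : ZMod Q, ∑ s, w (s + c) = W.card := by
    intro c
    rw [← hwsum]
    exact Fintype.sum_equiv (Equiv.addRight c) _ _ (fun s => rfl)
  have hsingle : ∀ v : ZMod Q, ∑ p : ZMod Q × ZMod Q, w (p.1 + p.2 * v) = Q * W.card := by
    intro v
    rw [Fintype.sum_prod_type_right]
    simp only [hshift, Finset.sum_const, Finset.card_univ, ZMod.card, nsmul_eq_mul]
  have h1 : ∑ p, N p = V.card * (Q * W.card) := by
    simp only [hN]
    rw [Finset.sum_comm]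
    simp only [hsingle, Finset.sum_const, nsmul_eq_mul]
  -- second moment
  have hpair : ∀ v v' : ZMod Q, v ≠ v' →
      ∑ p : ZMod Q × ZMod Q, w (p.1 + p.2 * v) * w (p.1 + p.2 * v') = (W.card : ℝ) ^ 2 := by
    intro v v' hv
    have : ∑ p : ZMod Q × ZMod Q, w (p.1 + p.2 * v) * w (p.1 + p.2 * v') =
        ∑ q : ZMod Q × ZMod Q, w q.1 * w q.2 :=
      Fintype.sum_equiv (affEquiv v v' hv) _ _ (fun p => rfl)
    rw [this, Fintype.sum_prod_type]
    simp only [← Finset.mul_sum, ← Finset.sum_mul, hwsum]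
    ring
  have h2 : ∑ p, N p ^ 2 ≤ V.card * (Q * W.card) + (V.card ^ 2 - V.card) * (W.card : ℝ) ^ 2 := by
    have e1 : ∀ p, N p ^ 2 = ∑ v ∈ V, ∑ v' ∈ V, w (p.1 + p.2 * v) * w (p.1 + p.2 * v') := by
      intro p
      simp only [hN, sq, Finset.sum_mul_sum]
    simp only [e1]
    rw [Finset.sum_comm]
    have e2 : ∀ v ∈ V, ∑ p : ZMod Q × ZMod Q, ∑ v' ∈ V, w (p.1 + p.2 * v) * w (p.1 + p.2 * v') =
        Q * W.card + (V.card - 1) * (W.card : ℝ) ^ 2 := by
      intro v hv
      rw [Finset.sum_comm, ← Finset.add_sum_erase V _ hv]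
      have e3 : ∀ v' ∈ V.erase v, ∑ p : ZMod Q × ZMod Q, w (p.1 + p.2 * v) * w (p.1 + p.2 * v') =
          (W.card : ℝ) ^ 2 := by
        intro v' hv'
        exact hpair v v' (Finset.ne_of_mem_erase hv').symm
      rw [Finset.sum_congr rfl e3, Finset.sum_const, Finset.card_erase_of_mem hv, nsmul_eq_mul]
      simp only [hww, hsingle]
      have : 1 ≤ V.card := Finset.card_pos.2 ⟨v, hv⟩
      rw [Nat.cast_sub this]
      push_cast
      ring
    rw [Finset.sum_congr rfl e2, Finset.sum_const, nsmul_eq_mul]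
    apply le_of_eq
    ring
  -- variance
  have h3 : ∑ p, (Q * N p - V.card * W.card) ^ 2 ≤ (Q : ℝ) ^ 3 * V.card * W.card := by
    have e1 : ∑ p, (Q * N p - V.card * W.card) ^ 2 =
        Q ^ 2 * ∑ p, N p ^ 2 - 2 * Q * (V.card * W.card) * ∑ p, N p +
          Q ^ 2 * (V.card * W.card : ℝ) ^ 2 := by
      rw [Finset.mul_sum, Finset.mul_sum, ← Finset.sum_sub_distrib]
      have : (Q : ℝ) ^ 2 * (V.card * W.card : ℝ) ^ 2 =
          ∑ p : ZMod Q × ZMod Q, (V.card * W.card : ℝ) ^ 2 := by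
        rw [Finset.sum_const, Finset.card_univ, Fintype.card_prod, ZMod.card, nsmul_eq_mul]
        push_cast; ring
      rw [this, ← Finset.sum_add_distrib]
      apply Finset.sum_congr rfl
      intro p _
      ring
    rw [e1, h1]
    have hQ2 : (0 : ℝ) ≤ (Q : ℝ) ^ 2 := by positivity
    have := mul_le_mul_of_nonneg_left h2 hQ2
    have h5 : (0 : ℝ) ≤ (Q : ℝ) ^ 2 * (V.card * (W.card : ℝ) ^ 2) := by positivity
    nlinarith
  -- restriction to `V × U`
  have h4 : (V.card * U.card : ℝ) * (V.card * W.card) ^ 2 ≤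
      ∑ p, (Q * N p - V.card * W.card) ^ 2 := by
    have e1 : ∑ p ∈ V ×ˢ U, (Q * N p - V.card * W.card) ^ 2 ≤
        ∑ p, (Q * N p - V.card * W.card) ^ 2 :=
      Finset.sum_le_univ_sum_of_nonneg (fun p => sq_nonneg _)
    have e2 : ∑ p ∈ V ×ˢ U, (Q * N p - V.card * W.card) ^ 2 =
        ∑ p ∈ V ×ˢ U, (V.card * W.card : ℝ) ^ 2 := by
      apply Finset.sum_congr rfl
      intro p hp
      rw [Finset.mem_product] at hp
      have : N p = 0 := by
        simp only [hN]
        apply Finset.sum_eq_zero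
        intro v hv
        simp only [hw]
        rw [if_neg (hW p.1 hp.1 p.2 hp.2 v hv)]
      rw [this]; ring
    rw [e2, Finset.sum_const, Finset.card_product, nsmul_eq_mul] at e1
    push_cast at e1
    exact e1
  have h5 := h4.trans h3
  -- conclude
  rcases Nat.eq_zero_or_pos W.card with hW0 | hWpos
  · rw [hW0]; omega
  have hVpos : 0 < V.card := by
    rcases Nat.eq_zero_or_pos V.card with h0 | h0
    · rw [h0] at h; simp at h
    · exact h0
  have hVr : (0 : ℝ) < V.card := by exact_mod_cast hVpos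
  have hWr : (0 : ℝ) < W.card := by exact_mod_cast hWpos
  have h6 : (V.card : ℝ) ^ 2 * U.card * W.card ≤ Q ^ 3 := by
    have e : ((V.card : ℝ) ^ 2 * U.card * W.card) * (V.card * W.card) ≤
        Q ^ 3 * (V.card * W.card) := by
      calc ((V.card : ℝ) ^ 2 * U.card * W.card) * (V.card * W.card)
          = (V.card * U.card : ℝ) * (V.card * W.card) ^ 2 := by ring
        _ ≤ _ := h5
        _ = _ := by ring
    exact le_of_mul_le_mul_right e (by positivity)
  have h7 : V.card ^ 2 * U.card * W.card ≤ Q ^ 3 := by exact_mod_cast h6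
  have h8 : 2 * Q ^ 2 * W.card < Q ^ 3 :=
    lt_of_lt_of_le (Nat.mul_lt_mul_of_pos_right h hWpos) h7
  have h9 : Q ^ 2 * (2 * W.card) < Q ^ 2 * Q := by
    calc Q ^ 2 * (2 * W.card) = 2 * Q ^ 2 * W.card := by ring
      _ < Q ^ 3 := h8
      _ = Q ^ 2 * Q := by ring
  exact lt_of_mul_lt_mul_left h9 (Nat.zero_le _)

theorem cover (U V : Finset (ZMod Q))
    (h : 2 * Q ^ 2 < V.card ^ 2 * U.card) (r : ZMod Q) :
    ∃ v1 ∈ V, ∃ u1 ∈ U, ∃ v2 ∈ V, ∃ v3 ∈ V, ∃ u2 ∈ U, ∃ v4 ∈ V,
      r = v1 + u1 * v2 + v3 + u2 * v4 := by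
  classical
  set E : Finset (ZMod Q) := univ.filter (fun x => ∃ s ∈ V, ∃ u ∈ U, ∃ v ∈ V, x = s + u * v)
    with hE
  have hW := cover_half U V h (univ \ E) (by
    intro s hs u hu v hv hmem
    rw [Finset.mem_sdiff] at hmem
    exact hmem.2 (by rw [hE, Finset.mem_filter]; exact ⟨mem_univ _, s, hs, u, hu, v, hv, rfl⟩))
  have hcard : (univ \ E).card = Q - E.card := by
    rw [Finset.card_sdiff_of_subset (Finset.subset_univ _), Finset.card_univ, ZMod.card]
  have hEQ : E.card ≤ Q := by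
    have := Finset.card_le_univ E
    rwa [ZMod.card] at this
  -- pigeonhole
  have hinter : (E ∩ E.image (fun x => r - x)).Nonempty := by
    rw [Finset.nonempty_iff_ne_empty]
    intro hempty
    have hdisj : Disjoint E (E.image (fun x => r - x)) := by
      rw [Finset.disjoint_iff_inter_eq_empty]; exact hempty
    have h1 := Finset.card_union_of_disjoint hdisj
    have h2 : (E.image (fun x => r - x)).card = E.card :=
      Finset.card_image_of_injective _ (fun x y hxy => by simpa using hxy)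
    have h3 : (E ∪ E.image (fun x => r - x)).card ≤ Q := by
      have := Finset.card_le_univ (E ∪ E.image (fun x => r - x))
      rwa [ZMod.card] at this
    omega
  obtain ⟨x, hx⟩ := hinter
  rw [Finset.mem_inter, Finset.mem_image] at hx
  obtain ⟨hx1, y, hy, hxy⟩ := hx
  rw [hE, Finset.mem_filter] at hx1 hy
  obtain ⟨_, s, hs, u, hu, v, hv, hxe⟩ := hx1
  obtain ⟨_, s', hs', u', hu', v', hv', hye⟩ := hy
  refine ⟨s, hs, u, hu, v, hv, s', hs', u', hu', v', hv', ?_⟩
  have : r = x + y := by rw [← hxy]; ring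
  rw [this, hxe, hye]; ring

end

end Vale.Agent.P012
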