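import Mathlib

namespace Vale.Agent.P012

/-- `x` is a sum of at most `k` unit fractions, repetitions allowed. -/
def SumUF (x : ℚ) (k : ℕ) : Prop :=
  ∃ s : Multiset ℕ, (∀ n ∈ s, 1 ≤ n) ∧ s.card ≤ k ∧
    (s.map (fun n : ℕ => (1 : ℚ) / n)).sum = x

theorem SumUF.zero (k : ℕ) : SumUF 0 k := ⟨0, by simp, by simp, by simp⟩

theorem SumUF.mono {x : ℚ} {k l : ℕ} (h : SumUF x k) (hkl : k ≤ l) : SumUF x l := by
  obtain ⟨s, h1, h2, h3⟩ := h
  exact ⟨s, h1, h2.trans hkl, h3⟩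

theorem SumUF.add {x y : ℚ} {k l : ℕ} (hx : SumUF x k) (hy : SumUF y l) :
    SumUF (x + y) (k + l) := by
  obtain ⟨s, h1, h2, h3⟩ := hx
  obtain ⟨t, g1, g2, g3⟩ := hy
  refine ⟨s + t, ?_, ?_, ?_⟩
  · intro n hn
    rcases Multiset.mem_add.1 hn with h | h
    · exact h1 n h
    · exact g1 n h
  · rw [Multiset.card_add]; omega
  · rw [Multiset.map_add, Multiset.sum_add, h3, g3]

theorem SumUF.unit (n : ℕ) (hn : 1 ≤ n) : SumUF ((1 : ℚ) / n) 1 :=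
  ⟨{n}, by simpa using hn, by simp, by simp⟩

/-- if `d ∣ N`, `d, N ≥ 1` then `d / N` is a unit fraction -/
theorem SumUF.div {d N : ℕ} (hN : 1 ≤ N) (hd : d ∣ N) : SumUF ((d : ℚ) / N) 1 := by
  obtain ⟨e, rfl⟩ := hd
  have hd0 : 0 < d := Nat.pos_of_ne_zero (by rintro rfl; simp at hN)
  have he0 : 0 < e := Nat.pos_of_ne_zero (by rintro rfl; simp at hN)
  have : ((d : ℚ) / ((d * e : ℕ) : ℚ)) = (1 : ℚ) / e := by
    have h1 : (d : ℚ) ≠ 0 := by positivity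
    have h2 : (e : ℚ) ≠ 0 := by positivity
    push_cast
    field_simp
  rw [this]
  exact SumUF.unit e he0

end Vale.Agent.P012
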