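import Vale.Agent.P012.Defs

namespace Vale.Agent.P012
open Finset

section trials
variable {Ω S : Type*}

/-- some way of skipping letters of the word leads the state `σ` to a state satisfying `G` -/
def Reach (step : S → Ω → S) (G : S → Prop) : (q : ℕ) → (Fin q → Ω) → S → Prop
  | 0, _, σ => G σ
  | q + 1, w, σ => Reach step G q (Fin.tail w) σ ∨ Reach step G q (Fin.tail w) (step σ (w 0))

end trials

/-- distance to the nearest integer -/
noncomputable def dn (x : ℝ) : ℝ := |x - round x|

/-- the pair `(y, y')` has a small linear relation of height `≤ R` and quality `θ` -/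
def Rel (R : ℕ) (θ : ℝ) (y y' : ℝ) : Prop :=
  ∃ h h' : ℤ, (h ≠ 0 ∨ h' ≠ 0) ∧ |h| ≤ R ∧ |h'| ≤ R ∧ dn (h * y + h' * y') < θ

open Classical in
/-- number of bad pairs of a finite family of reals -/
noncomputable def badPairs {ι : Type*} (E : Finset ι) (x : ι → ℝ) (R : ℕ) (θ : ℝ) : ℕ :=
  ((E ×ˢ E).filter (fun p => Rel R θ (x p.1) (x p.2))).card

end Vale.Agent.P012
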