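import Vale.Agent.P012.Defs

namespace Vale.Agent.P012
open Finset

/-- property of `M` used by the modified greedy algorithm at level `i` -/
def PLevel (M i : ℕ) : Prop :=
  ∀ A c : ℕ, Nat.Coprime A c → 2 ^ (2 ^ (i + 1)) ≤ A → A ≤ 2 ^ (i * 2 ^ i) →
    ∃ m r : ℕ, m ∣ M ∧ A ∣ c * m + r ∧ r * 2 ^ (2 ^ (i - 8)) ≤ A

lemma PLevel.mul_left {M i : ℕ} (h : PLevel M i) (K : ℕ) : PLevel (K * M) i := by
  intro A c h1 h2 h3
  obtain ⟨m, r, hm, hr⟩ := h A c h1 h2 h3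
  exact ⟨m, r, hm.trans (Dvd.intro_left _ rfl), hr⟩

/-- one modified greedy step -/
lemma mod_step {M A c m r : ℕ} (hM : 0 < M) (_hA : 0 < A) (hc : 0 < c) (hm : m ∣ M)
    (hr : A ∣ c * m + r) :
    ∃ c' : ℕ, 0 < c' ∧ SumUF ((A : ℚ) / ((c * M : ℕ) : ℚ) - (r : ℚ) / ((c' * M : ℕ) : ℚ)) 1 := by
  obtain ⟨l, hl⟩ := hr
  obtain ⟨n, rfl⟩ := hm
  have hm0 : 0 < m := Nat.pos_of_ne_zero (by rintro rfl; simp at hM)
  have hn0 : 0 < n := Nat.pos_of_ne_zero (by rintro rfl; simp at hM)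
  have hl0 : 0 < l := by
    rcases Nat.eq_zero_or_pos l with h | h
    · rw [h] at hl
      have : 0 < c * m := Nat.mul_pos hc hm0
      omega
    · exact h
  refine ⟨c * l, Nat.mul_pos hc hl0, ?_⟩
  have h1 := SumUF.unit (l * n) (Nat.mul_pos hl0 hn0)
  have h2 : (A : ℚ) / ((c * (m * n) : ℕ) : ℚ) - (r : ℚ) / ((c * l * (m * n) : ℕ) : ℚ) =
      1 / ((l * n : ℕ) : ℚ) := by
    have hq : (c : ℚ) * m + r = A * l := by exact_mod_cast hl
    have a1 : (c : ℚ) ≠ 0 := by positivity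
    have a2 : (m : ℚ) ≠ 0 := by positivity
    have a3 : (n : ℚ) ≠ 0 := by positivity
    have a4 : (l : ℚ) ≠ 0 := by positivity
    have hr' : (r : ℚ) = A * l - c * m := by linarith
    rw [hr']
    push_cast
    field_simp
    ring
  rw [h2]; exact h1

lemma steps {M i : ℕ} (hM : 0 < M) (hP : PLevel M i) :
    ∀ j A c : ℕ, 0 < c → A < 2 ^ (2 ^ (i + 1) + j * 2 ^ (i - 8)) → A ≤ 2 ^ (i * 2 ^ i) →
      ∃ A' c' : ℕ, 0 < c' ∧ A' < 2 ^ 2 ^ (i + 1) ∧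
        SumUF ((A : ℚ) / ((c * M : ℕ) : ℚ) - (A' : ℚ) / ((c' * M : ℕ) : ℚ)) j := by
  intro j
  induction j with
  | zero =>
    intro A c hc h1 _
    refine ⟨A, c, hc, by simpa using h1, ?_⟩
    rw [sub_self]; exact SumUF.zero 0
  | succ j ih =>
    intro A c hc h1 h2
    by_cases hA : A < 2 ^ 2 ^ (i + 1)
    · refine ⟨A, c, hc, hA, ?_⟩
      rw [sub_self]; exact SumUF.zero _
    push Not at hA
    have hA0 : 0 < A := lt_of_lt_of_le (by positivity) hA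
    set g := Nat.gcd A c with hg
    have hg0 : 0 < g := Nat.gcd_pos_of_pos_left _ hA0
    obtain ⟨A1, hA1⟩ : g ∣ A := Nat.gcd_dvd_left _ _
    obtain ⟨c1, hc1⟩ : g ∣ c := Nat.gcd_dvd_right _ _
    have hA10 : 0 < A1 := Nat.pos_of_ne_zero (by rintro rfl; omega)
    have hc10 : 0 < c1 := Nat.pos_of_ne_zero (by rintro rfl; omega)
    have hcop : Nat.Coprime A1 c1 := by
      have := Nat.coprime_div_gcd_div_gcd (m := A) (n := c) (by rw [← hg]; exact hg0)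
      rw [← hg] at this
      have e1 : A / g = A1 := by rw [hA1]; exact Nat.mul_div_cancel_left _ hg0
      have e2 : c / g = c1 := by rw [hc1]; exact Nat.mul_div_cancel_left _ hg0
      rwa [e1, e2] at this
    have hle : A1 ≤ A := by rw [hA1]; exact Nat.le_mul_of_pos_left _ hg0
    have heq : (A : ℚ) / ((c * M : ℕ) : ℚ) = (A1 : ℚ) / ((c1 * M : ℕ) : ℚ) := by
      rw [hA1, hc1]
      have a1 : (g : ℚ) ≠ 0 := by positivity
      have a2 : (c1 : ℚ) ≠ 0 := by positivity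
      have a3 : (M : ℚ) ≠ 0 := by positivity
      push_cast
      field_simp
    rw [heq]
    by_cases hA1' : A1 < 2 ^ 2 ^ (i + 1)
    · refine ⟨A1, c1, hc10, hA1', ?_⟩
      rw [sub_self]; exact SumUF.zero _
    push Not at hA1'
    obtain ⟨m, r, hm, hr, hrA⟩ := hP A1 c1 hcop hA1' (hle.trans h2)
    obtain ⟨c2, hc2, hS⟩ := mod_step hM hA10 hc10 hm hr
    have hrlt : r < 2 ^ (2 ^ (i + 1) + j * 2 ^ (i - 8)) := by
      have h3 : 2 ^ (2 ^ (i + 1) + (j + 1) * 2 ^ (i - 8)) =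
          2 ^ (2 ^ (i + 1) + j * 2 ^ (i - 8)) * 2 ^ (2 ^ (i - 8)) := by
        rw [← pow_add]; congr 1; ring
      rw [h3] at h1
      have h4 : r * 2 ^ (2 ^ (i - 8)) <
          2 ^ (2 ^ (i + 1) + j * 2 ^ (i - 8)) * 2 ^ (2 ^ (i - 8)) := by omega
      exact lt_of_mul_lt_mul_right h4 (Nat.zero_le _)
    have hrle : r ≤ 2 ^ (i * 2 ^ i) := by
      have : 0 < 2 ^ (2 ^ (i - 8)) := by positivity
      have h5 : r ≤ r * 2 ^ (2 ^ (i - 8)) := Nat.le_mul_of_pos_right _ this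
      omega
    obtain ⟨A', c', hc', hA', hS'⟩ := ih r c2 hc2 hrlt hrle
    refine ⟨A', c', hc', hA', ?_⟩
    have := hS.add hS'
    rw [show (A1 : ℚ) / ((c1 * M : ℕ) : ℚ) - (A' : ℚ) / ((c' * M : ℕ) : ℚ) =
      ((A1 : ℚ) / ((c1 * M : ℕ) : ℚ) - (r : ℚ) / ((c2 * M : ℕ) : ℚ)) +
      ((r : ℚ) / ((c2 * M : ℕ) : ℚ) - (A' : ℚ) / ((c' * M : ℕ) : ℚ)) by ring]
    rw [add_comm j 1]
    exact this

/-- trivial representation with `A` copies -/
lemma copies (A N : ℕ) (hN : 0 < N) : SumUF ((A : ℚ) / N) A := by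
  induction A with
  | zero => simpa using SumUF.zero 0
  | succ A ih =>
    have h := ih.add (SumUF.unit N hN)
    rw [show (((A + 1 : ℕ) : ℚ) / N) = (A : ℚ) / N + 1 / N by push_cast; ring]
    exact h

/-- descending all the levels from `i` to `L₀` -/
lemma levels_down {M L₀ : ℕ} (hM : 0 < M) (hL₀ : 8 ≤ L₀) :
    ∀ t : ℕ, (∀ i, L₀ ≤ i → i < L₀ + t → PLevel M i) →
    ∀ A c : ℕ, 0 < c → A < 2 ^ 2 ^ (L₀ + t + 1) →
      SumUF ((A : ℚ) / ((c * M : ℕ) : ℚ)) (512 * t + 2 ^ 2 ^ (L₀ + 1)) := by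
  intro t
  induction t with
  | zero =>
    intro _ A c hc hA
    exact (copies A (c * M) (Nat.mul_pos hc hM)).mono (by
      rw [Nat.mul_zero, Nat.zero_add]; exact hA.le)
  | succ t ih =>
    intro hP A c hc hA
    have h8 : 512 * 2 ^ (L₀ + t - 8) = 2 ^ (L₀ + t + 1) := by
      rw [show (512 : ℕ) = 2 ^ 9 by norm_num, ← pow_add]; congr 1; omega
    obtain ⟨A', c', hc', hA', hS⟩ := steps hM (hP (L₀ + t) (by omega) (by omega)) 512 A c hc
      (by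
        rw [h8]
        have : 2 ^ (L₀ + t + 1) + 2 ^ (L₀ + t + 1) = 2 ^ (L₀ + (t + 1) + 1) := by
          rw [← two_mul, ← pow_succ']; congr 1
        rw [this]; exact hA)
      (by
        refine hA.le.trans (Nat.pow_le_pow_right (by norm_num) ?_)
        have : 2 ^ (L₀ + (t + 1) + 1) = 4 * 2 ^ (L₀ + t) := by
          rw [show (4 : ℕ) = 2 ^ 2 by norm_num, ← pow_add]; congr 1; omega
        rw [this]
        exact Nat.mul_le_mul_right _ (by omega))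
    have h2 := ih (fun i h1 h2 => hP i h1 (by omega)) A' c' hc' hA'
    have h3 := hS.add h2
    rw [sub_add_cancel] at h3
    exact h3.mono (by omega)

/-- statement of the key theorem (D), used as a hypothesis here -/
def KeyD : Prop := ∃ L₀ : ℕ, ∀ L ≥ L₀, ∃ M : ℕ, 0 < M ∧ M ≤ 2 ^ (65 * L * 2 ^ L) ∧
    ∀ A c : ℕ, Nat.Coprime A c → 2 ^ (2 ^ (L + 1)) ≤ A → A ≤ 2 ^ (L * 2 ^ L) →
      ∃ m r : ℕ, m ∣ M ∧ A ∣ c * m + r ∧ r * 2 ^ (2 ^ (L - 8)) ≤ A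

/-- product of the levels -/
lemma prod_levels {L₀ : ℕ} (hD : ∀ L ≥ L₀, ∃ M : ℕ, 0 < M ∧ M ≤ 2 ^ (65 * L * 2 ^ L) ∧
    PLevel M L) (t : ℕ) :
    ∃ M : ℕ, 0 < M ∧ M ≤ 2 ^ (130 * (L₀ + t) * 2 ^ (L₀ + t)) ∧
      ∀ i, L₀ ≤ i → i ≤ L₀ + t → PLevel M i := by
  induction t with
  | zero =>
    obtain ⟨M, h1, h2, h3⟩ := hD L₀ le_rfl
    refine ⟨M, h1, h2.trans (Nat.pow_le_pow_right (by norm_num) ?_), ?_⟩
    · apply Nat.mul_le_mul _ (by simp)
      apply Nat.mul_le_mul (by norm_num) (by simp)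
    · intro i h4 h5
      obtain rfl : i = L₀ := by omega
      exact h3
  | succ t ih =>
    obtain ⟨M, h1, h2, h3⟩ := ih
    obtain ⟨M', h1', h2', h3'⟩ := hD (L₀ + (t + 1)) (by omega)
    refine ⟨M' * M, Nat.mul_pos h1' h1, ?_, ?_⟩
    · refine (Nat.mul_le_mul h2' h2).trans ?_
      rw [← pow_add]
      apply Nat.pow_le_pow_right (by norm_num)
      have e : 2 ^ (L₀ + (t + 1)) = 2 * 2 ^ (L₀ + t) := by rw [← pow_succ']; congr 1
      rw [e]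
      have : 130 * (L₀ + t) * 2 ^ (L₀ + t) ≤ 130 * (L₀ + (t + 1)) * 2 ^ (L₀ + t) :=
        Nat.mul_le_mul_right _ (Nat.mul_le_mul_left _ (by omega))
      calc 65 * (L₀ + (t + 1)) * (2 * 2 ^ (L₀ + t)) + 130 * (L₀ + t) * 2 ^ (L₀ + t)
          ≤ 65 * (L₀ + (t + 1)) * (2 * 2 ^ (L₀ + t)) +
            130 * (L₀ + (t + 1)) * 2 ^ (L₀ + t) := by omega
        _ = 130 * (L₀ + (t + 1)) * (2 * 2 ^ (L₀ + t)) := by ring
    · intro i h4 h5
      rcases Nat.lt_or_ge i (L₀ + (t + 1)) with h | h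
      · exact (h3 i h4 (by omega)).mul_left M'
      · obtain rfl : i = L₀ + (t + 1) := by omega
        rw [mul_comm]
        exact h3'.mul_left M

/-- (E1) -/
theorem exists_M3 (hD : KeyD) : ∃ L₁ C₁ : ℕ, ∀ L ≥ L₁, ∃ M : ℕ, 0 < M ∧
    M ≤ 2 ^ (130 * L * 2 ^ L) ∧
    ∀ n c : ℕ, 0 < c → n ≤ 2 ^ (L * 2 ^ L) → SumUF ((n : ℚ) / ((c * M : ℕ) : ℚ)) (C₁ * L) := by
  obtain ⟨L₀, hL₀⟩ := hD
  set K := max 8 L₀ with hK
  have hK8 : 8 ≤ K := le_max_left _ _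
  refine ⟨K, 768 + 2 ^ 2 ^ (K + 1), fun L hL => ?_⟩
  obtain ⟨t, rfl⟩ : ∃ t, L = K + t := ⟨L - K, by omega⟩
  obtain ⟨M, h1, h2, h3⟩ := prod_levels (L₀ := K)
    (fun L hL => hL₀ L ((le_max_right _ _).trans hL)) t
  refine ⟨M, h1, h2, fun n c hc hn => ?_⟩
  have h8 : 256 * 2 ^ (K + t - 8) = 2 ^ (K + t) := by
    rw [show (256 : ℕ) = 2 ^ 8 by norm_num, ← pow_add]; congr 1; omega
  obtain ⟨A', c', hc', hA', hS⟩ := steps h1 (h3 (K + t) (by omega) le_rfl)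
    (256 * (K + t)) n c hc
    (by
      refine lt_of_le_of_lt hn (Nat.pow_lt_pow_right (by norm_num) ?_)
      have e : 256 * (K + t) * 2 ^ (K + t - 8) = (K + t) * 2 ^ (K + t) := by
        rw [← h8]; ring
      rw [e]
      have : 0 < 2 ^ (K + t + 1) := by positivity
      omega) hn
  have h4 := levels_down h1 hK8 t (fun i h5 h6 => h3 i h5 (by omega)) A' c' hc' hA'
  have h5 := hS.add h4
  rw [sub_add_cancel] at h5
  refine h5.mono ?_
  have h6 : 2 ^ 2 ^ (K + 1) ≤ 2 ^ 2 ^ (K + 1) * (K + t) := Nat.le_mul_of_pos_right _ (by omega)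
  calc 256 * (K + t) + (512 * t + 2 ^ 2 ^ (K + 1))
      ≤ 256 * (K + t) + (512 * (K + t) + 2 ^ 2 ^ (K + 1) * (K + t)) := by omega
    _ = (768 + 2 ^ 2 ^ (K + 1)) * (K + t) := by ring

end Vale.Agent.P012
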