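import Vale.Agent.P012.Defs

namespace Vale.Agent.P012

/-- sum of the reciprocals of the members of a multiset of naturals -/
noncomputable def recSum (s : Multiset ℕ) : ℚ := (s.map (fun n : ℕ => (1 : ℚ) / n)).sum

@[simp] lemma recSum_zero : recSum 0 = 0 := by simp [recSum]

@[simp] lemma recSum_cons (a : ℕ) (s : Multiset ℕ) : recSum (a ::ₘ s) = 1 / a + recSum s := by
  simp [recSum]

lemma recSum_add (s t : Multiset ℕ) : recSum (s + t) = recSum s + recSum t := by
  simp [recSum]

lemma recSum_nonneg (s : Multiset ℕ) : 0 ≤ recSum s := by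
  induction s using Multiset.induction_on with
  | empty => simp
  | cons a s ih => rw [recSum_cons]; positivity

lemma exists_small (s : Multiset ℕ) (hs : ∀ n ∈ s, 0 < n) (x : ℚ) (hx : 0 < x)
    (h : recSum s = x) : ∃ a ∈ s, (a : ℚ) * x ≤ Multiset.card s := by
  by_contra hcon
  push Not at hcon
  -- each a > card / x, so 1/a < x / card
  have key : ∀ t : Multiset ℕ, (∀ n ∈ t, 0 < n ∧ (Multiset.card s : ℚ) < n * x) → t ≠ 0 →
      recSum t * (Multiset.card s : ℚ) < x * Multiset.card t := by
    intro t
    induction t using Multiset.induction_on with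
    | empty => intro _ h0; exact absurd rfl h0
    | cons a t ih =>
      intro hall _
      have ha := hall a (Multiset.mem_cons_self a t)
      have ha0 : (0 : ℚ) < a := by exact_mod_cast ha.1
      have h1 : (1 : ℚ) / a * (Multiset.card s : ℚ) < x := by
        rw [div_mul_eq_mul_div, one_mul, div_lt_iff₀ ha0]
        linarith [ha.2]
      rw [recSum_cons, Multiset.card_cons]
      push_cast
      by_cases ht : t = 0
      · subst ht; simp; simpa using h1
      · have := ih (fun n hn => hall n (Multiset.mem_cons_of_mem hn)) ht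
        nlinarith
  have hs0 : s ≠ 0 := by
    rintro rfl
    simp at h
    linarith
  have := key s (fun n hn => ⟨hs n hn, hcon n hn⟩) hs0
  rw [h] at this
  exact lt_irrefl _ this

lemma finite_reps (k : ℕ) : ∀ x : ℚ,
    Set.Finite {s : Multiset ℕ | Multiset.card s = k ∧ (∀ n ∈ s, 0 < n) ∧ recSum s = x} := by
  induction k with
  | zero =>
    intro x
    apply Set.Finite.subset (Set.finite_singleton (0 : Multiset ℕ))
    rintro s ⟨h, _, _⟩
    simpa using h
  | succ k ih =>
    intro x
    by_cases hx : 0 < x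
    · have hfin : Set.Finite (⋃ a ∈ Set.Iic (⌈((k + 1 : ℕ) : ℚ) / x⌉₊),
          (fun t : Multiset ℕ => a ::ₘ t) ''
            {s : Multiset ℕ | Multiset.card s = k ∧ (∀ n ∈ s, 0 < n) ∧ recSum s = x - 1 / a}) := by
        apply Set.Finite.biUnion (Set.finite_Iic _)
        intro a _
        exact (ih _).image _
      apply hfin.subset
      rintro s ⟨hc, hpos, hsum⟩
      obtain ⟨a, ha, hax⟩ := exists_small s hpos x hx hsum
      obtain ⟨t, rfl⟩ := Multiset.exists_cons_of_mem ha
      simp only [Set.mem_iUnion, Set.mem_Iic, Set.mem_image, Set.mem_ofPred_eq]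
      refine ⟨a, ?_, t, ⟨?_, ?_, ?_⟩, rfl⟩
      · have : (a : ℚ) ≤ ((k + 1 : ℕ) : ℚ) / x := by
          rw [le_div_iff₀ hx]
          rw [hc] at hax
          exact hax
        exact_mod_cast this.trans (Nat.le_ceil _)
      · simpa using hc
      · intro n hn; exact hpos n (Multiset.mem_cons_of_mem hn)
      · rw [recSum_cons] at hsum; linarith
    · apply Set.Finite.subset (Set.finite_empty)
      rintro s ⟨hc, hpos, hsum⟩
      exfalso
      obtain ⟨a, ha⟩ : ∃ a, a ∈ s := by
        apply Multiset.exists_mem_of_ne_zero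
        rintro rfl
        simp at hc
      obtain ⟨t, rfl⟩ := Multiset.exists_cons_of_mem ha
      rw [recSum_cons] at hsum
      have h1 := recSum_nonneg t
      have h2 : (0 : ℚ) < 1 / a := by
        have : (0 : ℚ) < a := by exact_mod_cast hpos a (Multiset.mem_cons_self a t)
        positivity
      linarith

/-- If `0 < x < 1` is a sum of `k` unit fractions, repetitions allowed, then it is a sum of at most
`k` distinct unit fractions. -/
theorem exists_distinct_aux (s : Multiset ℕ) (hs : ∀ n ∈ s, 0 < n) (h1 : recSum s < 1) :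
    ∃ t : Finset ℕ, (∀ n ∈ t, 2 ≤ n) ∧ ∑ n ∈ t, (1 : ℚ) / n = recSum s ∧
      t.card ≤ Multiset.card s := by
  classical
  set x := recSum s with hx
  -- minimal cardinality
  have hex : ∃ k, ∃ t : Multiset ℕ, Multiset.card t = k ∧ (∀ n ∈ t, 0 < n) ∧ recSum t = x :=
    ⟨_, s, rfl, hs, rfl⟩
  obtain ⟨k, hk, hmin⟩ : ∃ k, (∃ t : Multiset ℕ, Multiset.card t = k ∧ (∀ n ∈ t, 0 < n) ∧
      recSum t = x) ∧ ∀ j < k, ¬ ∃ t : Multiset ℕ, Multiset.card t = j ∧ (∀ n ∈ t, 0 < n) ∧
      recSum t = x := ⟨Nat.find hex, Nat.find_spec hex, fun j hj => Nat.find_min hex hj⟩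
  have hks : k ≤ Multiset.card s := by
    by_contra hlt
    push Not at hlt
    exact hmin _ hlt ⟨s, rfl, hs, rfl⟩
  -- maximal sum of squares
  obtain ⟨t, ⟨htc, htpos, htsum⟩, htmax⟩ := Set.exists_max_image
    {t : Multiset ℕ | Multiset.card t = k ∧ (∀ n ∈ t, 0 < n) ∧ recSum t = x}
    (fun t => (t.map (fun n : ℕ => ((1 : ℚ) / n) ^ 2)).sum) (finite_reps k x) hk
  have hnodup : t.Nodup := by
    rw [Multiset.nodup_iff_ne_cons_cons]
    intro n r hr
    subst hr
    have hn : 0 < n := htpos n (Multiset.mem_cons_self _ _)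
    have hsum : 1 / (n : ℚ) + (1 / n + recSum r) = x := by
      simpa [recSum_cons] using htsum
    rcases Nat.even_or_odd' n with ⟨m, hm | hm⟩
    · -- even case
      have hm0 : 0 < m := by omega
      apply hmin (Multiset.card (m ::ₘ r))
      · simp at htc ⊢; omega
      · refine ⟨m ::ₘ r, rfl, ?_, ?_⟩
        · intro j hj
          rcases Multiset.mem_cons.1 hj with rfl | hj
          · exact hm0
          · exact htpos j (Multiset.mem_cons_of_mem (Multiset.mem_cons_of_mem hj))
        · rw [recSum_cons, ← hsum, hm]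
          have : (m : ℚ) ≠ 0 := by positivity
          push_cast
          field_simp
          ring
    · have hm0 : 0 < m := by
        by_contra hm0
        have : m = 0 := by omega
        subst this
        have hn1 : n = 1 := by omega
        subst hn1
        have := recSum_nonneg r
        norm_num at hsum
        linarith
      have hmem : (m + 1) ::ₘ ((2 * m + 1) * (m + 1)) ::ₘ r ∈
          {t : Multiset ℕ | Multiset.card t = k ∧ (∀ n ∈ t, 0 < n) ∧ recSum t = x} := by
        refine ⟨?_, ?_, ?_⟩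
        · simpa using htc
        · intro j hj
          rcases Multiset.mem_cons.1 hj with rfl | hj
          · omega
          · rcases Multiset.mem_cons.1 hj with rfl | hj
            · positivity
            · exact htpos j (Multiset.mem_cons_of_mem (Multiset.mem_cons_of_mem hj))
        · rw [recSum_cons, recSum_cons, ← hsum, hm]
          push_cast
          field_simp
          ring
      have := htmax _ hmem
      simp only [Multiset.map_cons, Multiset.sum_cons] at this
      rw [hm] at this
      push_cast at this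
      have hmq : (1 : ℚ) ≤ m := by exact_mod_cast hm0
      have hlt : (1 / (2 * (m : ℚ) + 1)) ^ 2 + (1 / (2 * (m : ℚ) + 1)) ^ 2 <
          (1 / ((m : ℚ) + 1)) ^ 2 + (1 / ((2 * (m : ℚ) + 1) * (m + 1))) ^ 2 := by
        have e1 : (1 / ((m : ℚ) + 1)) ^ 2 + (1 / ((2 * (m : ℚ) + 1) * (m + 1))) ^ 2 -
          ((1 / (2 * (m : ℚ) + 1)) ^ 2 + (1 / (2 * (m : ℚ) + 1)) ^ 2) =
          (2 * m ^ 2) / ((2 * m + 1) ^ 2 * (m + 1) ^ 2) := by
          field_simp
          ring
        have e2 : (0 : ℚ) < (2 * m ^ 2) / ((2 * m + 1) ^ 2 * (m + 1) ^ 2) := by positivity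
        linarith
      linarith
  refine ⟨⟨t, hnodup⟩, ?_, ?_, ?_⟩
  · intro n hn
    have hn' : n ∈ t := hn
    have hpos := htpos n hn'
    by_contra hlt
    have : n = 1 := by omega
    subst this
    obtain ⟨r, rfl⟩ := Multiset.exists_cons_of_mem hn'
    rw [recSum_cons] at htsum
    have := recSum_nonneg r
    norm_num at htsum
    linarith
  · exact htsum
  · show Multiset.card t ≤ _
    omega

theorem exists_distinct {x : ℚ} {k : ℕ} (h0 : 0 < x) (h1 : x < 1) (h : SumUF x k) :
    ∃ S : Finset ℕ, (∀ n ∈ S, 2 ≤ n) ∧ S.card ≤ k ∧ ∑ n ∈ S, (1 : ℚ) / n = x := by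
  obtain ⟨s, hs, hc, hsum⟩ := h
  have hsum' : recSum s = x := hsum
  obtain ⟨t, ht1, ht2, ht3⟩ := exists_distinct_aux s hs (by rw [hsum']; exact h1)
  exact ⟨t, ht1, ht3.trans hc, by rw [ht2, hsum']⟩

end Vale.Agent.P012
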