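import Vale.Agent.P012.Fejer

/-! (D3b): one multiplier good for all fractions simultaneously. -/

namespace Vale.Agent.P012
open Finset

/-- if for every `a` in a finite set the bad letters are few, some word contains a good letter
for every `a`. -/
theorem exists_word_final {α : Type*} (S : Finset α) (F q Rn : ℕ) (hF : 0 < F) (B : α → Finset ℕ)
    (hB : ∀ a ∈ S, (B a).card * Rn ≤ F)
    (hS : S.card < Rn ^ q) :
    ∃ w : Fin q → ℕ, (∀ i, w i ∈ Icc 1 F) ∧ ∀ a ∈ S, ∃ i, w i ∉ B a := by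
  classical
  by_contra hcon
  push Not at hcon
  -- all words are bad for some `a`
  have h1 : Fintype.piFinset (fun _ : Fin q => Icc 1 F) ⊆
      S.biUnion (fun a => Fintype.piFinset (fun _ : Fin q => B a)) := by
    intro w hw
    rw [Fintype.mem_piFinset] at hw
    obtain ⟨a, ha, h2⟩ := hcon w hw
    rw [Finset.mem_biUnion]
    exact ⟨a, ha, Fintype.mem_piFinset.2 h2⟩
  have h2 := Finset.card_le_card h1
  rw [Fintype.card_piFinset_const, Nat.card_Icc, Nat.add_sub_cancel] at h2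
  have h3 : (S.biUnion (fun a => Fintype.piFinset (fun _ : Fin q => B a))).card * Rn ^ q ≤
      S.card * F ^ q := by
    calc _ ≤ (∑ a ∈ S, (Fintype.piFinset (fun _ : Fin q => B a)).card) * Rn ^ q :=
          Nat.mul_le_mul_right _ Finset.card_biUnion_le
      _ = ∑ a ∈ S, ((B a).card * Rn) ^ q := by
          rw [Finset.sum_mul]
          apply Finset.sum_congr rfl
          intro a _
          rw [Fintype.card_piFinset_const, mul_pow]
      _ ≤ ∑ a ∈ S, F ^ q := Finset.sum_le_sum (fun a ha => Nat.pow_le_pow_left (hB a ha) q)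
      _ = S.card * F ^ q := by rw [Finset.sum_const, smul_eq_mul]
  have h4 : F ^ q * Rn ^ q ≤ S.card * F ^ q :=
    (Nat.mul_le_mul_right _ h2).trans h3
  have h5 : 0 < F ^ q := Nat.pow_pos hF
  have h6 : Rn ^ q ≤ S.card := by
    apply Nat.le_of_mul_le_mul_left _ h5
    rw [mul_comm (F ^ q) S.card]
    exact h4
  omega

theorem final_mult : ∃ L₀ : ℕ, ∀ L ≥ L₀, ∀ E : ℕ → ℕ → Finset ℕ,
    ∃ M₃ : ℕ, 0 < M₃ ∧ M₃ ≤ 2 ^ (37 * L * 2 ^ L) ∧
      ∀ A c : ℕ, 0 < A → A ≤ 2 ^ (L * 2 ^ L) → c < A → (E A c).Nonempty →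
        (badPairs (E A c) (fun u => (u * c : ℝ) / A) (2 ^ 2 ^ (L - 6))
            (((2 : ℝ) ^ 2 ^ (L - 6)) ^ 13)⁻¹ : ℝ) ≤
            (((2 : ℝ) ^ 2 ^ (L - 6)) ^ 4)⁻¹ * ((E A c).card : ℝ) ^ 2 →
        ∃ u ∈ E A c, ∃ f r : ℕ, f ∣ M₃ ∧ A ∣ c * (u * f) + r ∧ r * 2 ^ (2 ^ (L - 8)) ≤ A := by
  classical
  obtain ⟨R₀, hR₀⟩ := fejer_core
  refine ⟨max 8 (R₀ + 6), ?_⟩
  intro L hL E
  have hL8 : 8 ≤ L := (le_max_left _ _).trans hL
  have hLR : R₀ + 6 ≤ L := (le_max_right _ _).trans hL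
  set R : ℕ := 2 ^ 2 ^ (L - 6) with hR
  have hRR0 : R ≥ R₀ := by
    have h1 : L - 6 < 2 ^ (L - 6) := Nat.lt_two_pow_self
    have h2 : 2 ^ (L - 6) < 2 ^ 2 ^ (L - 6) := Nat.lt_two_pow_self
    omega
  have hRpos : 0 < R := by positivity
  have hRcast : (R : ℝ) = (2 : ℝ) ^ 2 ^ (L - 6) := by rw [hR]; push_cast; ring
  -- the condition on a pair
  set Good : ℕ × ℕ → Prop := fun a => (E a.1 a.2).Nonempty ∧
    (badPairs (E a.1 a.2) (fun u => (u * a.2 : ℝ) / a.1) R (((R : ℝ) ^ 13)⁻¹) : ℝ) ≤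
      ((R : ℝ) ^ 4)⁻¹ * ((E a.1 a.2).card : ℝ) ^ 2 with hGood
  set X : ℕ := 2 ^ (L * 2 ^ L) with hX
  set S : Finset (ℕ × ℕ) := ((Icc 1 X) ×ˢ (range X)).filter Good with hS
  set B : ℕ × ℕ → Finset ℕ := fun a => (Icc 1 (R ^ 18)).filter (fun f : ℕ => ∀ i ∈ E a.1 a.2,
    ∀ k : ℤ, ¬ (0 ≤ (k : ℝ) - f * ((i * a.2 : ℝ) / a.1) ∧
      (k : ℝ) - f * ((i * a.2 : ℝ) / a.1) ≤ 2 / √R)) with hB
  have hBcard : ∀ a ∈ S, (B a).card * R ≤ R ^ 18 := by
    intro a ha
    rw [hS, Finset.mem_filter] at ha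
    obtain ⟨_, hne, hbad⟩ := ha
    have := hR₀ R hRR0 (E a.1 a.2) hne (fun u => (u * a.2 : ℝ) / a.1) hbad
    have h2 : (((B a).card * R : ℕ) : ℝ) ≤ ((R ^ 18 : ℕ) : ℝ) := by
      push_cast
      convert this using 2
    exact_mod_cast h2
  have hScard : S.card < R ^ (129 * L) := by
    calc S.card ≤ ((Icc 1 X) ×ˢ (range X)).card := Finset.card_filter_le _ _
      _ = X * X := by rw [Finset.card_product]; simp
      _ = 2 ^ (2 * (L * 2 ^ L)) := by rw [hX, ← pow_add]; congr 1; ring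
      _ < 2 ^ (2 ^ (L - 6) * (129 * L)) := by
          apply Nat.pow_lt_pow_right (by norm_num)
          have h1 : 2 ^ L = 64 * 2 ^ (L - 6) := by
            have : L = 6 + (L - 6) := by omega
            conv_lhs => rw [this, pow_add]
            norm_num
          rw [h1]
          have h2 : 0 < 2 ^ (L - 6) * L := by positivity
          nlinarith
      _ = R ^ (129 * L) := by rw [hR, ← pow_mul]
  obtain ⟨w, hw1, hw2⟩ := exists_word_final S (R ^ 18) (129 * L) R (by positivity) B hBcard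
    hScard
  refine ⟨∏ i, w i, ?_, ?_, ?_⟩
  · apply Finset.prod_pos
    intro i _
    exact (Finset.mem_Icc.1 (hw1 i)).1
  · calc ∏ i, w i ≤ ∏ _i : Fin (129 * L), R ^ 18 :=
          Finset.prod_le_prod' (fun i _ => (Finset.mem_Icc.1 (hw1 i)).2)
      _ = 2 ^ (2 ^ (L - 6) * 18 * (129 * L)) := by
          rw [Finset.prod_const, Finset.card_univ, Fintype.card_fin, hR, ← pow_mul, ← pow_mul,
            mul_assoc]
      _ ≤ 2 ^ (37 * L * 2 ^ L) := by
          apply Nat.pow_le_pow_right (by norm_num)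
          have h1 : 2 ^ L = 64 * 2 ^ (L - 6) := by
            have : L = 6 + (L - 6) := by omega
            conv_lhs => rw [this, pow_add]
            norm_num
          rw [h1]
          have h2 : 0 < 2 ^ (L - 6) * L := by positivity
          nlinarith
  · intro A c hA0 hAX hcA hne hbad
    have hmem : (A, c) ∈ S := by
      rw [hS, Finset.mem_filter, Finset.mem_product, Finset.mem_Icc, Finset.mem_range]
      refine ⟨⟨⟨hA0, hAX⟩, lt_of_lt_of_le hcA hAX⟩, hne, ?_⟩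
      simp only [hRcast]
      exact hbad
    obtain ⟨i, hi⟩ := hw2 (A, c) hmem
    have hi' := hw1 i
    simp only [hB, Finset.mem_filter, not_and] at hi
    have hi2 := hi hi'
    push Not at hi2
    obtain ⟨u, hu, k, hk0, hk1⟩ := hi2
    have hA : (0 : ℝ) < A := by exact_mod_cast hA0
    -- the remainder
    have hkA : (0 : ℤ) ≤ k * A - w i * u * c := by
      have : (0 : ℝ) ≤ ((k * A - w i * u * c : ℤ) : ℝ) := by
        push_cast
        have h1 : (k : ℝ) * A - w i * u * c = A * ((k : ℝ) - w i * ((u * c : ℝ) / A)) := by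
          field_simp
        rw [h1]
        exact mul_nonneg hA.le hk0
      exact_mod_cast this
    obtain ⟨r, hr⟩ := Int.eq_ofNat_of_zero_le hkA
    refine ⟨u, hu, w i, r, Finset.dvd_prod_of_mem w (Finset.mem_univ i), ?_, ?_⟩
    · have h1 : ((c * (u * w i) + r : ℕ) : ℤ) = A * k := by
        push_cast
        rw [← hr]; ring
      have h2 : (A : ℤ) ∣ ((c * (u * w i) + r : ℕ) : ℤ) := ⟨k, h1⟩
      exact_mod_cast h2
    · have h1 : (r : ℝ) ≤ A * (2 / √R) := by
        have h2 : (r : ℝ) = ((k * A - w i * u * c : ℤ) : ℝ) := by rw [hr]; simp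
        rw [h2]
        push_cast
        have h3 : (k : ℝ) * A - w i * u * c = A * ((k : ℝ) - w i * ((u * c : ℝ) / A)) := by
          field_simp
        rw [h3]
        exact mul_le_mul_of_nonneg_left hk1 hA.le
      have h4 : √(R : ℝ) = (2 : ℝ) ^ 2 ^ (L - 7) := by
        rw [hRcast]
        have h5 : 2 ^ (L - 6) = 2 ^ (L - 7) * 2 := by
          rw [← pow_succ]; congr 1; omega
        rw [h5, pow_mul, Real.sqrt_sq (by positivity)]
      have h6 : (2 : ℝ) * 2 ^ 2 ^ (L - 8) ≤ (2 : ℝ) ^ 2 ^ (L - 7) := by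
        have h7 : 2 ^ (L - 7) = 2 ^ (L - 8) + 2 ^ (L - 8) := by
          have : L - 7 = (L - 8) + 1 := by omega
          rw [this, pow_succ]; ring
        rw [h7, pow_add]
        apply mul_le_mul_of_nonneg_right _ (by positivity)
        calc (2 : ℝ) = 2 ^ 1 := by norm_num
          _ ≤ 2 ^ 2 ^ (L - 8) := pow_le_pow_right₀ (by norm_num) Nat.one_le_two_pow
      have h8 : ((r * 2 ^ (2 ^ (L - 8)) : ℕ) : ℝ) ≤ (A : ℝ) := by
        push_cast
        rw [h4] at h1
        have h9 : (0 : ℝ) < 2 ^ 2 ^ (L - 7) := by positivity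
        calc (r : ℝ) * 2 ^ 2 ^ (L - 8) ≤ A * (2 / 2 ^ 2 ^ (L - 7)) * 2 ^ 2 ^ (L - 8) :=
              mul_le_mul_of_nonneg_right h1 (by positivity)
          _ = A * ((2 * 2 ^ 2 ^ (L - 8)) / 2 ^ 2 ^ (L - 7)) := by ring
          _ ≤ A * 1 := by
              apply mul_le_mul_of_nonneg_left _ hA.le
              rw [div_le_one h9]
              exact h6
          _ = A := mul_one _
      exact_mod_cast h8

end Vale.Agent.P012
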