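import Vale.Agent.P012.Defs2

namespace Vale.Agent.P012
open Finset

section trials
variable {Ω S : Type*}

open Classical in
theorem trials [Fintype Ω] (step : S → Ω → S) (G : S → Prop) (P : ℕ → S → Prop) (ε : ℝ)
    (hε0 : 0 ≤ ε) (hε1 : ε ≤ 1) (hG : ∀ σ, P 0 σ → G σ)
    (hP : ∀ j σ, P (j + 1) σ →
      ((univ.filter (fun ω : Ω => ¬ P j (step σ ω))).card : ℝ) ≤ ε * Fintype.card Ω)
    (q l : ℕ) (σ : S) (hσ : P l σ) :
    ((univ.filter (fun w : Fin q → Ω => ¬ Reach step G q w σ)).card : ℝ)
      ≤ 2 ^ q * ε ^ (q + 1 - l) * (Fintype.card Ω : ℝ) ^ q := by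
  -- reaching is automatic once `G` holds
  have hmono : ∀ (q : ℕ) (w : Fin q → Ω) (σ : S), G σ → Reach step G q w σ := by
    intro q
    induction q with
    | zero => intro w σ h; exact h
    | succ q ih => intro w σ h; exact Or.inl (ih _ _ h)
  induction q generalizing l σ with
  | zero =>
    rcases Nat.eq_zero_or_pos l with rfl | hl
    · have : (univ.filter (fun w : Fin 0 → Ω => ¬ Reach step G 0 w σ)) = ∅ := by
        apply Finset.filter_eq_empty_iff.2
        intro w _
        simp only [not_not]
        exact hG σ hσ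
      rw [this]
      simp [hε0]
    · have h1 : (0 + 1 - l) = 0 := by omega
      rw [h1]
      simp only [pow_zero, mul_one]
      have : (univ.filter (fun w : Fin 0 → Ω => ¬ Reach step G 0 w σ)).card
          ≤ Fintype.card (Fin 0 → Ω) := Finset.card_le_univ _
      simp only [Fintype.card_fun, Fintype.card_fin, pow_zero] at this
      exact_mod_cast this
  | succ q ih =>
    rcases Nat.eq_zero_or_pos l with rfl | hl
    · have : (univ.filter (fun w : Fin (q + 1) → Ω => ¬ Reach step G (q + 1) w σ)) = ∅ := by
        apply Finset.filter_eq_empty_iff.2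
        intro w _
        simp only [not_not]
        exact hmono _ _ _ (hG σ hσ)
      rw [this]
      simp only [card_empty, Nat.cast_zero]
      positivity
    · obtain ⟨j, rfl⟩ : ∃ j, l = j + 1 := ⟨l - 1, by omega⟩
      -- split according to the first letter
      have hcard : ((univ.filter (fun w : Fin (q + 1) → Ω =>
          ¬ Reach step G (q + 1) w σ)).card : ℝ)
          = ∑ ω : Ω, ((univ.filter (fun w : Fin q → Ω =>
            ¬ Reach step G q w σ ∧ ¬ Reach step G q w (step σ ω))).card : ℝ) := by
        rw [← Nat.cast_sum]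
        congr 1
        rw [← Finset.card_sigma]
        refine Finset.card_bij' (fun w _ => (⟨w 0, Fin.tail w⟩ : Σ _ : Ω, (Fin q → Ω)))
          (fun p _ => Fin.cons p.1 p.2) ?_ ?_ ?_ ?_
        · intro w hw
          simp only [mem_filter, mem_univ, true_and, Reach, not_or] at hw
          simp only [mem_sigma, mem_univ, mem_filter, true_and]
          exact hw
        · intro p hp
          simp only [mem_sigma, mem_univ, mem_filter, true_and] at hp
          simp only [mem_filter, mem_univ, true_and, Reach, not_or, Fin.tail_cons, Fin.cons_zero]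
          exact hp
        · intro w _
          simp
        · intro p _
          simp
      rw [hcard]
      have hΩ : (0 : ℝ) ≤ (Fintype.card Ω : ℝ) := Nat.cast_nonneg _
      set c : ℝ := (Fintype.card Ω : ℝ) with hc
      -- bound for each letter
      have hbound : ∀ ω : Ω, ((univ.filter (fun w : Fin q → Ω =>
            ¬ Reach step G q w σ ∧ ¬ Reach step G q w (step σ ω))).card : ℝ)
          ≤ 2 ^ q * ε ^ (q + 1 - j) * c ^ q +
            (if ¬ P j (step σ ω) then 2 ^ q * ε ^ (q + 1 - (j + 1)) * c ^ q else 0) := by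
        intro ω
        by_cases hω : P j (step σ ω)
        · have h1 := ih j (step σ ω) hω
          rw [if_neg (by simpa using hω), add_zero]
          refine le_trans ?_ h1
          exact_mod_cast Finset.card_le_card (fun w hw => by
            simp only [mem_filter, mem_univ, true_and] at hw ⊢
            exact hw.2)
        · have h1 := ih (j + 1) σ hσ
          rw [if_pos hω]
          refine le_trans (le_trans ?_ h1) (le_add_of_nonneg_left (by positivity))
          exact_mod_cast Finset.card_le_card (fun w hw => by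
            simp only [mem_filter, mem_univ, true_and] at hw ⊢
            exact hw.1)
      refine le_trans (Finset.sum_le_sum (fun ω _ => hbound ω)) ?_
      rw [Finset.sum_add_distrib, Finset.sum_const, Finset.card_univ, nsmul_eq_mul, ← hc,
        ← Finset.sum_filter, Finset.sum_const, nsmul_eq_mul]
      have h2 := hP j σ hσ
      have h3 : (0:ℝ) ≤ 2 ^ q * ε ^ (q + 1 - (j + 1)) * c ^ q := by positivity
      have h4 : ((univ.filter (fun ω : Ω => ¬ P j (step σ ω))).card : ℝ) *
          (2 ^ q * ε ^ (q + 1 - (j + 1)) * c ^ q)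
          ≤ (ε * c) * (2 ^ q * ε ^ (q + 1 - (j + 1)) * c ^ q) :=
        mul_le_mul_of_nonneg_right h2 h3
      refine le_trans (add_le_add le_rfl h4) ?_
      have e1 : q + 1 + 1 - (j + 1) = q + 1 - j := by omega
      rw [e1]
      have h5 : ε * ε ^ (q + 1 - (j + 1)) ≤ ε ^ (q + 1 - j) := by
        by_cases hj : j ≤ q
        · have : q + 1 - j = (q + 1 - (j + 1)) + 1 := by omega
          rw [this, pow_succ]
          exact le_of_eq (mul_comm _ _)
        · have h6 : q + 1 - (j + 1) = 0 := by omega
          have h7 : q + 1 - j = 0 := by omega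
          rw [h6, h7]
          simpa using hε1
      calc c * (2 ^ q * ε ^ (q + 1 - j) * c ^ q) + ε * c * (2 ^ q * ε ^ (q + 1 - (j + 1)) * c ^ q)
          = c * (2 ^ q * ε ^ (q + 1 - j) * c ^ q) +
            (ε * ε ^ (q + 1 - (j + 1))) * (c * (2 ^ q * c ^ q)) := by ring
        _ ≤ c * (2 ^ q * ε ^ (q + 1 - j) * c ^ q) +
            ε ^ (q + 1 - j) * (c * (2 ^ q * c ^ q)) := by gcongr
        _ = 2 ^ (q + 1) * ε ^ (q + 1 - j) * c ^ (q + 1) := by ring

/-- union bound: a word that works for all indices -/
theorem exists_word [Fintype Ω] {I : Type*} (idx : Finset I) (q : ℕ)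
    (good : I → (Fin q → Ω) → Prop) (β : ℝ)
    (hbad : ∀ i ∈ idx, ∀ (_ : DecidablePred fun w => ¬ good i w),
      ((univ.filter (fun w : Fin q → Ω => ¬ good i w)).card : ℝ) ≤ β * (Fintype.card Ω : ℝ) ^ q)
    (hβ : idx.card * β < 1) (hΩ : 0 < Fintype.card Ω) :
    ∃ w : Fin q → Ω, ∀ i ∈ idx, good i w := by
  classical
  by_contra hcon
  push Not at hcon
  have h1 : (univ : Finset (Fin q → Ω)) ⊆
      idx.biUnion (fun i => univ.filter (fun w : Fin q → Ω => ¬ good i w)) := by
    intro w _
    obtain ⟨i, hi, hw⟩ := hcon w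
    exact mem_biUnion.2 ⟨i, hi, by simpa using hw⟩
  have h2 := (Finset.card_le_card h1).trans Finset.card_biUnion_le
  have h3 : ((univ : Finset (Fin q → Ω)).card : ℝ) ≤
      ∑ i ∈ idx, ((univ.filter (fun w : Fin q → Ω => ¬ good i w)).card : ℝ) := by
    exact_mod_cast h2
  have h4 : ((univ : Finset (Fin q → Ω)).card : ℝ) = (Fintype.card Ω : ℝ) ^ q := by
    rw [Finset.card_univ]; simp
  have h5 : ∑ i ∈ idx, ((univ.filter (fun w : Fin q → Ω => ¬ good i w)).card : ℝ)
      ≤ ∑ i ∈ idx, β * (Fintype.card Ω : ℝ) ^ q :=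
    Finset.sum_le_sum (fun i hi => hbad i hi _)
  rw [Finset.sum_const, nsmul_eq_mul, ← mul_assoc] at h5
  have h6 : (0 : ℝ) < (Fintype.card Ω : ℝ) ^ q := by positivity
  rw [h4] at h3
  nlinarith

end trials

end Vale.Agent.P012
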