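import Vale.Agent.P012.LevelStep
import Vale.Agent.P012.Trials
import Vale.Agent.P012.Primes

namespace Vale.Agent.P012
open Finset

/-! ### Invariance of `badPairs` -/

theorem dn_add_int (x : ℝ) (k : ℤ) : dn (x + k) = dn x := by
  unfold dn
  rw [round_add_intCast]
  push_cast
  congr 1
  ring

theorem Rel_congr {R : ℕ} {θ x x' y y' : ℝ} {k k' : ℤ} (h : x = y + k) (h' : x' = y' + k') :
    Rel R θ x x' ↔ Rel R θ y y' := by
  unfold Rel
  have : ∀ a b : ℤ, dn (a * x + b * x') = dn (a * y + b * y') := by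
    intro a b
    have : (a : ℝ) * x + b * x' = (a * y + b * y') + ((a * k + b * k' : ℤ) : ℝ) := by
      rw [h, h']; push_cast; ring
    rw [this, dn_add_int]
  simp only [this]

theorem badPairs_congr {ι : Type*} {E : Finset ι} {x y : ι → ℝ} {R : ℕ} {θ : ℝ}
    (h : ∀ i, ∃ k : ℤ, x i = y i + k) : badPairs E x R θ = badPairs E y R θ := by
  classical
  unfold badPairs
  refine congrArg Finset.card (Finset.filter_congr ?_)
  intro p _
  obtain ⟨k, hk⟩ := h p.1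
  obtain ⟨k', hk'⟩ := h p.2
  exact Rel_congr hk hk'

/-! ### The initial count -/

theorem count_sol (A : ℕ) (hA : 0 < A) (D : Finset ℕ)
    (hD : ∀ u ∈ D, ∀ u' ∈ D, u ≡ u' [MOD A] → u = u') (h t : ℤ) (hh : h ≠ 0) :
    (D.filter (fun u : ℕ => (A : ℤ) ∣ h * u + t)).card ≤ h.natAbs := by
  set g := Nat.gcd h.natAbs A with hg
  have hgpos : 0 < g := Nat.gcd_pos_of_pos_right _ hA
  have hgle : g ≤ h.natAbs := Nat.le_of_dvd (Int.natAbs_pos.2 hh) (Nat.gcd_dvd_left _ _)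
  obtain ⟨a, ha⟩ : g ∣ A := Nat.gcd_dvd_right _ _
  have hapos : 0 < a := Nat.pos_of_ne_zero (by rintro rfl; simp at ha; omega)
  refine le_trans ?_ hgle
  rw [← Finset.card_range g]
  refine Finset.card_le_card_of_injOn (fun u => (u % A) / a) ?_ ?_
  · intro u _
    simp only [Finset.coe_range, Set.mem_Iio]
    rw [Nat.div_lt_iff_lt_mul hapos, ← ha]
    exact Nat.mod_lt _ hA
  · intro u hu u' hu' huu
    simp only at huu
    obtain ⟨hu1, hu2⟩ := Finset.mem_filter.1 (Finset.mem_coe.1 hu)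
    obtain ⟨hu1', hu2'⟩ := Finset.mem_filter.1 (Finset.mem_coe.1 hu')
    apply hD u hu1 u' hu1'
    have h1 : (A : ℤ) ∣ h * (u - u') := by
      have := dvd_sub hu2 hu2'
      have e : h * (u : ℤ) + t - (h * u' + t) = h * (u - u') := by ring
      rwa [e] at this
    have h2 : (a : ℤ) ∣ (u : ℤ) - u' := by
      obtain ⟨h0, hh0⟩ : (g : ℤ) ∣ h := Int.natCast_dvd.2 (Nat.gcd_dvd_left _ _)
      have hcop : IsCoprime (a : ℤ) h0 := by
        rw [Int.isCoprime_iff_gcd_eq_one, Int.gcd_comm]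
        have e1 : h.natAbs = g * h0.natAbs := by
          rw [hh0, Int.natAbs_mul, Int.natAbs_natCast]
        have : g * Nat.gcd h0.natAbs a = g * 1 := by
          rw [← Nat.gcd_mul_left, ← e1, ← ha, mul_one]
        have := Nat.eq_of_mul_eq_mul_left hgpos this
        simpa [Int.gcd] using this
      have h3 : (g : ℤ) * a ∣ g * (h0 * (u - u')) := by
        have : (A : ℤ) = g * a := by rw [ha]; push_cast; rfl
        rw [← this]
        convert h1 using 1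
        rw [hh0]
        ring
      have h4 : (a : ℤ) ∣ h0 * (u - u') :=
        (mul_dvd_mul_iff_left (by exact_mod_cast hgpos.ne')).1 h3
      exact hcop.dvd_of_dvd_mul_left h4
    have h5 : u % a = u' % a := by
      have h6 : (u' : ℤ) % a = u % a := Int.modEq_iff_dvd.2 h2
      exact_mod_cast h6.symm
    have h7 : u % A % a = u' % A % a := by
      have hd : a ∣ A := ⟨g, by rw [ha]; ring⟩
      rw [Nat.mod_mod_of_dvd _ hd, Nat.mod_mod_of_dvd _ hd, h5]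
    change u % A = u' % A
    rw [← Nat.div_add_mod (u % A) a, ← Nat.div_add_mod (u' % A) a, huu, h7]

theorem pair_count (A : ℕ) (hA : 0 < A) (D : Finset ℕ)
    (hD : ∀ u ∈ D, ∀ u' ∈ D, u ≡ u' [MOD A] → u = u') (R : ℕ) (h h' : ℤ) (hh : h ≠ 0 ∨ h' ≠ 0)
    (hR : |h| ≤ R) (hR' : |h'| ≤ R) :
    ((D ×ˢ D).filter (fun p : ℕ × ℕ => (A : ℤ) ∣ h * p.1 + h' * p.2)).card ≤ R * D.card := by
  by_cases h0 : h' = 0
  · have h1 : h ≠ 0 := by rcases hh with h1 | h1; exacts [h1, absurd h0 h1]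
    have : ((D ×ˢ D).filter (fun p : ℕ × ℕ => (A : ℤ) ∣ h * p.1 + h' * p.2)).card =
        ∑ v ∈ D, (D.filter (fun u : ℕ => (A : ℤ) ∣ h * u + h' * v)).card := by
      simp only [Finset.card_filter]
      rw [Finset.sum_product_right]
    rw [this]
    calc ∑ v ∈ D, (D.filter (fun u : ℕ => (A : ℤ) ∣ h * u + h' * v)).card
        ≤ ∑ v ∈ D, R := by
          refine Finset.sum_le_sum fun v _ => ?_
          have := count_sol A hA D hD h (h' * v) h1
          rw [Int.abs_eq_natAbs] at hR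
          omega
      _ = R * D.card := by rw [Finset.sum_const, smul_eq_mul, mul_comm]
  · have : ((D ×ˢ D).filter (fun p : ℕ × ℕ => (A : ℤ) ∣ h * p.1 + h' * p.2)).card =
        ∑ v ∈ D, (D.filter (fun u : ℕ => (A : ℤ) ∣ h' * u + h * v)).card := by
      simp only [Finset.card_filter]
      rw [Finset.sum_product]
      refine Finset.sum_congr rfl fun v _ => Finset.sum_congr rfl fun u _ => ?_
      rw [add_comm]
    rw [this]
    calc ∑ v ∈ D, (D.filter (fun u : ℕ => (A : ℤ) ∣ h' * u + h * v)).card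
        ≤ ∑ v ∈ D, R := by
          refine Finset.sum_le_sum fun v _ => ?_
          have := count_sol A hA D hD h' (h * v) h0
          rw [Int.abs_eq_natAbs] at hR'
          omega
      _ = R * D.card := by rw [Finset.sum_const, smul_eq_mul, mul_comm]

theorem dvd_of_dn (A : ℕ) (hA : 0 < A) (z : ℤ) {θ : ℝ} (hθ : θ * A ≤ 1)
    (h : dn ((z : ℝ) / A) < θ) : (A : ℤ) ∣ z := by
  have hA' : (0 : ℝ) < A := by exact_mod_cast hA
  unfold dn at h
  set k := round ((z : ℝ) / A) with hk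
  have h1 : |((z - A * k : ℤ) : ℝ)| < 1 := by
    push_cast
    have e : (z : ℝ) - A * k = A * ((z : ℝ) / A - k) := by field_simp
    rw [e, abs_mul, abs_of_pos hA']
    calc (A : ℝ) * |(z : ℝ) / A - k| < A * θ := mul_lt_mul_of_pos_left h hA'
      _ ≤ 1 := by linarith
  have h2 : |(z - A * k : ℤ)| < 1 := by exact_mod_cast h1
  have h3 := Int.abs_lt_one_iff.1 h2
  exact ⟨k, by linarith⟩

theorem initial_pairs (A c : ℕ) (hA : 0 < A) (hc : Nat.Coprime A c) (D : Finset ℕ)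
    (hD : ∀ u ∈ D, ∀ u' ∈ D, u ≡ u' [MOD A] → u = u') (R : ℕ) (hR : 1 ≤ R) {θ : ℝ}
    (hθ : θ * A ≤ 1) :
    badPairs D (fun u => (u * c : ℝ) / A) R θ ≤ 9 * R ^ 3 * D.card := by
  classical
  let H : Finset (ℤ × ℤ) := ((Finset.Icc (-(R : ℤ)) R ×ˢ Finset.Icc (-(R : ℤ)) R)).filter
    (fun p => p.1 ≠ 0 ∨ p.2 ≠ 0)
  have hH : H.card ≤ 9 * R ^ 2 := by
    refine (Finset.card_filter_le _ _).trans ?_
    simp only [Finset.card_product, Int.card_Icc]
    have : ((R : ℤ) + 1 - -(R : ℤ)).toNat = 2 * R + 1 := by omega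
    rw [this]
    nlinarith
  have hsub : ((D ×ˢ D).filter (fun p : ℕ × ℕ => Rel R θ ((p.1 * c : ℝ) / A) ((p.2 * c : ℝ) / A)))
      ⊆ H.biUnion (fun q => (D ×ˢ D).filter
        (fun p : ℕ × ℕ => (A : ℤ) ∣ q.1 * p.1 + q.2 * p.2)) := by
    intro p hp
    obtain ⟨hp1, h, h', hh, h1, h2, h3⟩ := Finset.mem_filter.1 hp
    rw [Finset.mem_biUnion]
    refine ⟨(h, h'), ?_, ?_⟩
    · rw [Finset.mem_filter, Finset.mem_product, Finset.mem_Icc, Finset.mem_Icc]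
      rw [abs_le] at h1 h2
      exact ⟨⟨h1, h2⟩, hh⟩
    · rw [Finset.mem_filter]
      refine ⟨hp1, ?_⟩
      have e : (h : ℝ) * ((p.1 * c : ℝ) / A) + h' * ((p.2 * c : ℝ) / A) =
          (((h * p.1 + h' * p.2) * c : ℤ) : ℝ) / A := by
        push_cast; ring
      rw [e] at h3
      have := dvd_of_dn A hA _ hθ h3
      have hcop : IsCoprime (A : ℤ) (c : ℤ) := Nat.isCoprime_iff_coprime.2 hc
      exact hcop.dvd_of_dvd_mul_right this
  unfold badPairs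
  calc ((D ×ˢ D).filter (fun p : ℕ × ℕ => Rel R θ ((p.1 * c : ℝ) / A) ((p.2 * c : ℝ) / A))).card
      ≤ (H.biUnion (fun q => (D ×ˢ D).filter
        (fun p : ℕ × ℕ => (A : ℤ) ∣ q.1 * p.1 + q.2 * p.2))).card := Finset.card_le_card hsub
    _ ≤ ∑ q ∈ H, ((D ×ˢ D).filter
        (fun p : ℕ × ℕ => (A : ℤ) ∣ q.1 * p.1 + q.2 * p.2)).card := Finset.card_biUnion_le
    _ ≤ ∑ q ∈ H, R * D.card := by
        refine Finset.sum_le_sum fun q hq => ?_
        rw [Finset.mem_filter, Finset.mem_product, Finset.mem_Icc, Finset.mem_Icc] at hq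
        exact pair_count A hA D hD R q.1 q.2 hq.2 (abs_le.2 hq.1.1) (abs_le.2 hq.1.2)
    _ = H.card * (R * D.card) := by rw [Finset.sum_const, smul_eq_mul]
    _ ≤ 9 * R ^ 2 * (R * D.card) := Nat.mul_le_mul_right _ hH
    _ = 9 * R ^ 3 * D.card := by ring

/-! ### Subproducts -/

theorem reach_dvd {B : Finset ℕ} (G : ℕ → Prop) : ∀ (q : ℕ) (w : Fin q → B) (σ : ℕ),
    Reach (fun (m : ℕ) (b : B) => m * (b : ℕ)) G q w σ →
      ∃ m, m ∣ σ * ∏ i, (w i : ℕ) ∧ G m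
  | 0, w, σ, h => ⟨σ, by simp, h⟩
  | q + 1, w, σ, h => by
    rw [Fin.prod_univ_succ]
    rcases h with h | h
    · obtain ⟨m, hm, hG⟩ := reach_dvd G q (Fin.tail w) σ h
      refine ⟨m, hm.trans ?_, hG⟩
      refine mul_dvd_mul_left σ ?_
      exact dvd_mul_left _ _
    · obtain ⟨m, hm, hG⟩ := reach_dvd G q (Fin.tail w) (σ * (w 0 : ℕ)) h
      refine ⟨m, hm.trans ?_, hG⟩
      rw [← mul_assoc]
      exact dvd_refl _

/-! ### Primes in `(R^6, R^12]` -/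

theorem many_primes : ∃ e₀ : ℕ, ∀ e ≥ e₀,
    9 * (2 ^ e) ^ 10 ≤ ((Finset.Ioc ((2 ^ e) ^ 6) ((2 ^ e) ^ 12)).filter Nat.Prime).card := by
  obtain ⟨k₀, hk₀⟩ := primes_lower
  refine ⟨max k₀ 8, fun e he => ?_⟩
  have he1 : k₀ ≤ 12 * e := by have := le_max_left k₀ 8; omega
  have he2 : 8 ≤ e := by have := le_max_right k₀ 8; omega
  have h1 := hk₀ (12 * e) he1
  set R := 2 ^ e with hR
  have hR12 : (2 : ℕ) ^ (12 * e) = R ^ 12 := by rw [hR, ← pow_mul]; ring_nf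
  rw [hR12] at h1
  set B := (Finset.Ioc (R ^ 6) (R ^ 12)).filter Nat.Prime with hB
  have h2 : Nat.primeCounting (R ^ 12) ≤ R ^ 6 + B.card := by
    rw [Nat.primeCounting, Nat.primeCounting', Nat.count_eq_card_filter_range]
    have : (Finset.range (R ^ 12 + 1)).filter Nat.Prime ⊆
        (Finset.Icc 1 (R ^ 6)) ∪ B := by
      intro p hp
      rw [Finset.mem_filter, Finset.mem_range] at hp
      rw [Finset.mem_union, Finset.mem_Icc, hB, Finset.mem_filter, Finset.mem_Ioc]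
      have := hp.2.one_lt
      by_cases h : p ≤ R ^ 6
      · exact Or.inl ⟨by omega, h⟩
      · exact Or.inr ⟨⟨by omega, by omega⟩, hp.2⟩
    refine (Finset.card_le_card this).trans ((Finset.card_union_le _ _).trans ?_)
    simp
  by_contra hcon
  push Not at hcon
  have hRpos : 0 < R := by positivity
  have h3 : R ^ 12 ≤ 24 * e * (10 * R ^ 10) := by
    calc R ^ 12 ≤ 2 * (12 * e) * Nat.primeCounting (R ^ 12) := h1
      _ ≤ 2 * (12 * e) * (R ^ 6 + B.card) := Nat.mul_le_mul_left _ h2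
      _ ≤ 2 * (12 * e) * (R ^ 10 + 9 * R ^ 10) := by
          apply Nat.mul_le_mul_left
          have : R ^ 6 ≤ R ^ 10 := Nat.pow_le_pow_right hRpos (by norm_num)
          omega
      _ = 24 * e * (10 * R ^ 10) := by ring
  have h4 : R ^ 2 ≤ 240 * e := by
    have : R ^ 10 * R ^ 2 ≤ R ^ 10 * (240 * e) := by
      calc R ^ 10 * R ^ 2 = R ^ 12 := by ring
        _ ≤ _ := h3
        _ = _ := by ring
    exact Nat.le_of_mul_le_mul_left this (by positivity)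
  have h5 : ∀ n : ℕ, 8 ≤ n → 240 * n < (2 ^ n) ^ 2 := by
    intro n hn
    induction n, hn using Nat.le_induction with
    | base => norm_num
    | succ n hn ih =>
      have : (2 ^ (n + 1)) ^ 2 = 4 * (2 ^ n) ^ 2 := by ring
      omega
  have := h5 e he2
  rw [← hR] at this
  omega

/-! ### The level theorem -/

theorem exists_good_word {Ω : Type} [Fintype Ω] {I : Type} (J : Finset I) (q : ℕ)
    (F : I → (Fin q → Ω) → Prop) (ε : ℝ)
    (hF : ∀ i ∈ J, ∀ _ : DecidablePred (fun w => ¬ F i w),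
      ((univ.filter (fun w : Fin q → Ω => ¬ F i w)).card : ℝ) ≤ ε * (Fintype.card Ω : ℝ) ^ q)
    (hΩ : 0 < Fintype.card Ω) (hJ : (J.card : ℝ) * ε < 1) : ∃ w : Fin q → Ω, ∀ i ∈ J, F i w := by
  classical
  by_contra hcon
  push Not at hcon
  have h1 : (univ : Finset (Fin q → Ω)) ⊆ J.biUnion (fun i => univ.filter (fun w => ¬ F i w)) := by
    intro w _
    obtain ⟨i, hi, hw⟩ := hcon w
    rw [Finset.mem_biUnion]
    exact ⟨i, hi, by simp [hw]⟩
  have h2 := (Finset.card_le_card h1).trans Finset.card_biUnion_le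
  have h3 : ((Fintype.card Ω : ℝ)) ^ q ≤ (J.card : ℝ) * (ε * (Fintype.card Ω : ℝ) ^ q) := by
    calc ((Fintype.card Ω : ℝ)) ^ q = ((univ : Finset (Fin q → Ω)).card : ℝ) := by
          rw [Finset.card_univ, Fintype.card_fun, Fintype.card_fin]; push_cast; rfl
      _ ≤ ((∑ i ∈ J, (univ.filter (fun w => ¬ F i w)).card : ℕ) : ℝ) := by exact_mod_cast h2
      _ = ∑ i ∈ J, ((univ.filter (fun w => ¬ F i w)).card : ℝ) := by push_cast; rfl
      _ ≤ ∑ i ∈ J, (ε * (Fintype.card Ω : ℝ) ^ q) := Finset.sum_le_sum fun i hi => hF i hi _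
      _ = _ := by rw [Finset.sum_const, nsmul_eq_mul]
  have h4 : (0 : ℝ) < (Fintype.card Ω : ℝ) ^ q := by
    have : (0 : ℝ) < Fintype.card Ω := by exact_mod_cast hΩ
    positivity
  nlinarith

/-- level `j` bound for the multiplier `m` -/
def LvP (E : Finset ℕ) (A c R : ℕ) (a : ℝ) (j m : ℕ) : Prop :=
  (badPairs E (fun u : ℕ => (u * m * c : ℝ) / A) R (((R : ℝ) ^ (13 + 6 * j))⁻¹) : ℝ) ≤
    (a - j) * ((R : ℝ) ^ 5)⁻¹ * (E.card : ℝ) ^ 2

theorem theta_ok (R j : ℕ) (hR : 16 ≤ R) :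
    2 * ((R ^ 12 : ℕ) : ℝ) * ((R : ℝ) ^ (13 + 6 * j))⁻¹ < 1 := by
  have hRr16 : (16 : ℝ) ≤ R := by exact_mod_cast hR
  have hRpos : (0 : ℝ) < R := by linarith
  rw [← div_eq_mul_inv, div_lt_one (by positivity)]
  push_cast
  calc 2 * (R : ℝ) ^ 12 < R * (R : ℝ) ^ 12 := by
        have : (0 : ℝ) < (R : ℝ) ^ 12 := by positivity
        nlinarith
    _ = (R : ℝ) ^ 13 := by ring
    _ ≤ (R : ℝ) ^ (13 + 6 * j) := by
        apply pow_le_pow_right₀ (by linarith) (by omega)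

open Classical in
theorem step_bad (E : Finset ℕ) (A c R : ℕ) (a : ℝ) (hR : 16 ≤ R) (B : Finset ℕ)
    (hBmem : ∀ b ∈ B, R ^ 6 < b ∧ b ≤ R ^ 12)
    (hBcop : ∀ b ∈ B, ∀ b' ∈ B, b ≠ b' → Nat.Coprime b b') (hBcard : 9 * R ^ 10 ≤ B.card)
    (j σ : ℕ) (h : LvP E A c R a (j + 1) σ) :
    ((univ.filter (fun ω : B => ¬ LvP E A c R a j (σ * (ω : ℕ)))).card : ℝ) ≤
        ((R : ℝ) ^ 3)⁻¹ * Fintype.card B := by
  have hRr16 : (16 : ℝ) ≤ R := by exact_mod_cast hR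
  have hRpos : (0 : ℝ) < R := by linarith
  have h1 := level_step E (fun u : ℕ => (u * σ * c : ℝ) / A) R (R ^ 6) (R ^ 12)
      (((R : ℝ) ^ (13 + 6 * j))⁻¹)
      (((R : ℝ) ^ 5)⁻¹) B hBmem hBcop (Nat.one_le_pow _ _ (by omega)) (by omega) (by positivity)
      (theta_ok R j hR) (by positivity)
  refine le_trans ?_ (h1.trans ?_)
  · refine Nat.cast_le.2 ?_
    refine Finset.card_le_card_of_injOn (fun ω : B => (ω : ℕ)) ?_ ?_
    · intro ω hω
      have hω' := (Finset.mem_filter.1 (Finset.mem_coe.1 hω)).2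
      rw [Finset.mem_coe, Finset.mem_filter]
      refine ⟨ω.2, fun hcon => hω' ?_⟩
      have e1 : (fun u : ℕ => (u * ((σ * (ω : ℕ) : ℕ) : ℝ) * c : ℝ) / A) =
          fun i : ℕ => (ω : ℕ) * ((i * σ * c : ℝ) / A) := by
        funext u; push_cast; ring
      have e2 : (((R : ℝ) ^ (13 + 6 * j))⁻¹) / ((R ^ 6 : ℕ) : ℝ) =
          (((R : ℝ) ^ (13 + 6 * (j + 1)))⁻¹) := by
        push_cast
        rw [div_eq_mul_inv, ← mul_inv, ← pow_add]
        congr 2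
      unfold LvP at h ⊢
      rw [e1]
      rw [e2] at hcon
      refine hcon.trans ?_
      push_cast at h ⊢
      linarith
    · intro a _ b _ hab
      exact Subtype.ext hab
  · rw [Fintype.card_coe]
    have h3 : (9 : ℝ) * (R : ℝ) ^ 10 ≤ B.card := by exact_mod_cast hBcard
    calc 9 * (R : ℝ) ^ 2 / ((R : ℝ) ^ 5)⁻¹ = ((R : ℝ) ^ 3)⁻¹ * (9 * (R : ℝ) ^ 10) := by
          field_simp
      _ ≤ _ := by
          apply mul_le_mul_of_nonneg_left h3 (by positivity)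

theorem base_ok (E : Finset ℕ) (A c R : ℕ) (hR : 16 ≤ R) (hA : 0 < A) (hc : Nat.Coprime A c)
    (hD : ∀ u ∈ E, ∀ u' ∈ E, u ≡ u' [MOD A] → u = u') (hE : R ^ 8 ≤ E.card) (l : ℕ)
    (hAR : A ≤ R ^ (13 + 6 * l)) : LvP E A c R (9 + l) l 1 := by
  have hRr16 : (16 : ℝ) ≤ R := by exact_mod_cast hR
  have hRpos : (0 : ℝ) < R := by linarith
  unfold LvP
  have hAR' : (A : ℝ) ≤ (R : ℝ) ^ (13 + 6 * l) := by exact_mod_cast hAR
  have h1 := initial_pairs A c hA hc E hD R (by omega) (θ := ((R : ℝ) ^ (13 + 6 * l))⁻¹) (by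
    rw [inv_mul_le_iff₀ (by positivity), mul_one]; exact hAR')
  have h2 : (fun u : ℕ => (u * ((1 : ℕ) : ℝ) * c : ℝ) / A) = fun u : ℕ => (u * c : ℝ) / A := by
    funext u; simp
  rw [h2]
  have h3 : (badPairs E (fun u : ℕ => (u * c : ℝ) / A) R (((R : ℝ) ^ (13 + 6 * l))⁻¹) : ℝ) ≤
      9 * (R : ℝ) ^ 3 * E.card := by exact_mod_cast h1
  refine h3.trans ?_
  have h4 : (R : ℝ) ^ 8 ≤ E.card := by exact_mod_cast hE
  have h5 : (0 : ℝ) ≤ E.card := by positivity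
  calc 9 * (R : ℝ) ^ 3 * E.card = 9 * ((R : ℝ) ^ 5)⁻¹ * ((R : ℝ) ^ 8 * E.card) := by
        field_simp
    _ ≤ 9 * ((R : ℝ) ^ 5)⁻¹ * (E.card * E.card) := by
        apply mul_le_mul_of_nonneg_left _ (by positivity)
        exact mul_le_mul_of_nonneg_right h4 h5
    _ = _ := by ring

theorem final_ok (E : Finset ℕ) (A c R : ℕ) (hR : 16 ≤ R) (a : ℝ) (ha : a ≤ R) (m : ℕ)
    (h : LvP E A c R a 0 m) :
    (badPairs E (fun u : ℕ => (u * m * c : ℝ) / A) R (((R : ℝ) ^ 13)⁻¹) : ℝ) ≤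
      ((R : ℝ) ^ 4)⁻¹ * (E.card : ℝ) ^ 2 := by
  have hRr16 : (16 : ℝ) ≤ R := by exact_mod_cast hR
  have hRpos : (0 : ℝ) < R := by linarith
  unfold LvP at h
  refine le_trans h ?_
  refine mul_le_mul_of_nonneg_right ?_ (by positivity)
  have h10 : (((R : ℝ)) ^ 4)⁻¹ = R * ((R : ℝ) ^ 5)⁻¹ := by
    field_simp
  rw [h10]
  refine mul_le_mul_of_nonneg_right ?_ (by positivity)
  push_cast
  linarith

/-- the numerical part of the union bound -/
theorem union_num (e L : ℕ) (he : 16 ≤ e) (hL : 6 ≤ L) :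
    (((2 ^ (64 * L * e) + 1) ^ 2 : ℕ) : ℝ) *
      (2 ^ (61 * L) * ((((2 ^ e : ℕ) : ℝ) ^ 3)⁻¹) ^ (61 * L + 1 - 11 * L)) < 1 := by
  have h1 : (((2 ^ (64 * L * e) + 1) ^ 2 : ℕ) : ℝ) ≤ 2 ^ (128 * L * e + 2) := by
    have : (2 ^ (64 * L * e) + 1) ^ 2 ≤ 2 ^ (128 * L * e + 2) := by
      calc (2 ^ (64 * L * e) + 1) ^ 2 ≤ (2 ^ (64 * L * e) * 2) ^ 2 := by
            apply Nat.pow_le_pow_left
            have : 1 ≤ 2 ^ (64 * L * e) := Nat.one_le_two_pow
            omega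
        _ = 2 ^ (128 * L * e + 2) := by
            rw [mul_pow, ← pow_mul, pow_add]; ring_nf
    exact_mod_cast this
  have h2 : ((((2 ^ e : ℕ) : ℝ) ^ 3)⁻¹) ^ (61 * L + 1 - 11 * L) =
      ((2 : ℝ) ^ (3 * e * (50 * L + 1)))⁻¹ := by
    have : 61 * L + 1 - 11 * L = 50 * L + 1 := by omega
    rw [this, inv_pow]
    push_cast
    rw [← pow_mul, ← pow_mul]
    congr 2
    ring
  rw [h2]
  calc (((2 ^ (64 * L * e) + 1) ^ 2 : ℕ) : ℝ) * (2 ^ (61 * L) * ((2 : ℝ) ^ (3 * e * (50 * L + 1)))⁻¹)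
      ≤ 2 ^ (128 * L * e + 2) * (2 ^ (61 * L) * ((2 : ℝ) ^ (3 * e * (50 * L + 1)))⁻¹) :=
        mul_le_mul_of_nonneg_right h1 (by positivity)
    _ = 2 ^ (128 * L * e + 2 + 61 * L) / (2 : ℝ) ^ (3 * e * (50 * L + 1)) := by
        rw [pow_add _ (128 * L * e + 2)]; field_simp
    _ < 1 := by
        rw [div_lt_one (by positivity)]
        apply pow_lt_pow_right₀ (by norm_num)
        nlinarith

theorem levels : ∃ L₀ : ℕ, ∀ L ≥ L₀, ∀ D : ℕ → Finset ℕ,
    (∀ A, 2 ^ (2 ^ (L + 1)) ≤ A → A ≤ 2 ^ (L * 2 ^ L) →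
      2 ^ (2 ^ (L - 3)) ≤ (D A).card ∧
        (∀ u ∈ D A, ∀ u' ∈ D A, u ≡ u' [MOD A] → u = u')) →
    ∃ M₂ : ℕ, 0 < M₂ ∧ M₂ ≤ 2 ^ (12 * L * 2 ^ L) ∧
      ∀ A c : ℕ, Nat.Coprime A c → 2 ^ (2 ^ (L + 1)) ≤ A → A ≤ 2 ^ (L * 2 ^ L) →
        ∃ m, m ∣ M₂ ∧
          (badPairs (D A) (fun u => (u * m * c : ℝ) / A) (2 ^ 2 ^ (L - 6))
            (((2 : ℝ) ^ 2 ^ (L - 6)) ^ 13)⁻¹ : ℝ) ≤
            (((2 : ℝ) ^ 2 ^ (L - 6)) ^ 4)⁻¹ * ((D A).card : ℝ) ^ 2 := by
  classical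
  obtain ⟨e₀, he₀⟩ := many_primes
  obtain ⟨e₁, he₁⟩ : ∃ e₁ : ℕ, ∀ k ≥ e₁, e₀ ≤ 2 ^ k ∧ 9 + 11 * (k + 6) ≤ 2 ^ 2 ^ k := by
    refine ⟨max e₀ 7, fun k hk => ?_⟩
    have h1 : e₀ ≤ k := (le_max_left _ _).trans hk
    have h2 : 7 ≤ k := (le_max_right _ _).trans hk
    have h3 : k < 2 ^ k := Nat.lt_two_pow_self
    have h4 : 2 ^ k < 2 ^ 2 ^ k := Nat.lt_two_pow_self
    have h5 : ∀ n : ℕ, 7 ≤ n → 9 + 11 * (n + 6) ≤ 2 ^ n * 2 := by
      intro n hn
      induction n, hn using Nat.le_induction with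
      | base => norm_num
      | succ n hn ih => rw [pow_succ]; omega
    have h6 := h5 k h2
    have h7 : ∀ n : ℕ, 3 ≤ n → n * 2 ≤ 2 ^ n := by
      intro n hn
      induction n, hn using Nat.le_induction with
      | base => norm_num
      | succ n hn ih => rw [pow_succ]; omega
    have h8 := h7 (2 ^ k) (by omega)
    exact ⟨by omega, by omega⟩
  refine ⟨max e₁ 4 + 6, fun L hL D hD => ?_⟩
  obtain ⟨k, rfl⟩ : ∃ k, L = k + 6 := ⟨L - 6, by omega⟩
  have hk1 : e₁ ≤ k := by have := le_max_left e₁ 4; omega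
  have hk4 : 4 ≤ k := by have := le_max_right e₁ 4; omega
  obtain ⟨hk2, hk3⟩ := he₁ k hk1
  have hLe : k + 6 - 6 = k := by omega
  rw [hLe]
  have hL3 : k + 6 - 3 = k + 3 := by omega
  rw [hL3] at hD
  have hL6 : 6 ≤ k + 6 := by omega
  generalize hLdef : k + 6 = L at *
  have he16 : 16 ≤ 2 ^ k := by
    calc 16 = 2 ^ 4 := by norm_num
      _ ≤ 2 ^ k := Nat.pow_le_pow_right (by norm_num) hk4
  have hs : 2 ^ L = 64 * 2 ^ k := by rw [← hLdef]; ring
  have hs3 : 2 ^ (k + 3) = 8 * 2 ^ k := by ring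
  rw [hs3] at hD
  rw [hs] at hD ⊢
  generalize he : 2 ^ k = e at *
  have hRbig : 16 ≤ 2 ^ e := by
    calc 16 = 2 ^ 4 := by norm_num
      _ ≤ 2 ^ e := Nat.pow_le_pow_right (by norm_num) (by omega)
  have hRr : (2 : ℝ) ^ e = ((2 ^ e : ℕ) : ℝ) := by push_cast; rfl
  rw [hRr]
  have hBcard := he₀ e hk2
  have hun := union_num e L he16 hL6
  have hR12 : (2 ^ e) ^ 12 = 2 ^ (12 * e) := by rw [← pow_mul]; ring_nf
  have hRA : 2 ^ (L * (64 * e)) ≤ (2 ^ e) ^ (13 + 6 * (11 * L)) := by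
    rw [← pow_mul]
    apply Nat.pow_le_pow_right (by norm_num)
    nlinarith
  have hE8 : 2 ^ (8 * e) = (2 ^ e) ^ 8 := by rw [← pow_mul]; ring_nf
  rw [hE8] at hD
  have hM : ((2 ^ e) ^ 12) ^ (61 * L) ≤ 2 ^ (12 * L * (64 * e)) := by
    rw [← pow_mul, ← pow_mul]
    apply Nat.pow_le_pow_right (by norm_num)
    nlinarith
  have hL64 : 64 * L * e = L * (64 * e) := by ring
  rw [hL64] at hun
  generalize hR : 2 ^ e = R at *
  generalize hT : 2 ^ (L * (64 * e)) = T at *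
  set B := (Finset.Ioc (R ^ 6) (R ^ 12)).filter Nat.Prime with hB
  have hBmem : ∀ b ∈ B, R ^ 6 < b ∧ b ≤ R ^ 12 := fun b hb =>
    Finset.mem_Ioc.1 (Finset.mem_filter.1 hb).1
  have hBprime : ∀ b ∈ B, b.Prime := fun b hb => (Finset.mem_filter.1 hb).2
  have hBcop : ∀ b ∈ B, ∀ b' ∈ B, b ≠ b' → Nat.Coprime b b' := fun b hb b' hb' hne =>
    (Nat.coprime_primes (hBprime b hb) (hBprime b' hb')).2 hne
  let J : Finset (ℕ × ℕ) := (range (T + 1) ×ˢ range (T + 1)).filter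
    (fun p => Nat.Coprime p.1 p.2 ∧ 2 ^ 2 ^ (L + 1) ≤ p.1 ∧ p.1 ≤ T)
  have hJ : (J.card : ℝ) ≤ (((T + 1) ^ 2 : ℕ) : ℝ) := by
    refine Nat.cast_le.2 ((Finset.card_filter_le _ _).trans ?_)
    rw [Finset.card_product, Finset.card_range, sq]
  let G : ℕ × ℕ → ℕ → Prop := fun p m =>
    (badPairs (D p.1) (fun u : ℕ => (u * m * p.2 : ℝ) / p.1) R (((R : ℝ) ^ 13)⁻¹) : ℝ) ≤
      ((R : ℝ) ^ 4)⁻¹ * ((D p.1).card : ℝ) ^ 2
  have hw : ∃ w : Fin (61 * L) → B, ∀ p ∈ J,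
      Reach (fun (m : ℕ) (b : B) => m * (b : ℕ)) (G p) (61 * L) w 1 := by
    refine exists_good_word J (61 * L) _ (2 ^ (61 * L) * (((R : ℝ) ^ 3)⁻¹) ^ (61 * L + 1 - 11 * L))
      ?_ ?_ ?_
    · intro p hp inst
      obtain ⟨hp1, hp2, hp3, hp4⟩ := Finset.mem_filter.1 hp
      have hpos : 0 < p.1 := lt_of_lt_of_le (by positivity) hp3
      have hRr16 : (16 : ℝ) ≤ R := by exact_mod_cast hRbig
      convert trials (fun (m : ℕ) (b : B) => m * (b : ℕ)) (G p)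
        (fun j m => LvP (D p.1) p.1 p.2 R (9 + ((11 * L : ℕ) : ℝ)) j m) (((R : ℝ) ^ 3)⁻¹)
        (by positivity) (by
          apply inv_le_one_of_one_le₀
          exact one_le_pow₀ (by linarith)) ?_ ?_ (61 * L) (11 * L) 1 ?_
      · intro σ hσ
        refine final_ok (D p.1) p.1 p.2 R hRbig _ ?_ σ hσ
        have : 9 + 11 * L ≤ R := hk3
        exact_mod_cast this
      · intro j σ hσ
        exact step_bad (D p.1) p.1 p.2 R _ hRbig B hBmem hBcop hBcard j σ hσ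
      · exact base_ok (D p.1) p.1 p.2 R hRbig hpos hp2 (hD p.1 hp3 hp4).2 (hD p.1 hp3 hp4).1
          (11 * L) (hp4.trans hRA)
    · rw [Fintype.card_coe]
      refine lt_of_lt_of_le ?_ hBcard
      positivity
    · refine lt_of_le_of_lt ?_ hun
      exact mul_le_mul_of_nonneg_right hJ (by positivity)
  obtain ⟨w, hw⟩ := hw
  refine ⟨∏ i, (w i : ℕ), ?_, ?_, ?_⟩
  · exact Finset.prod_pos fun i _ => (hBprime _ (w i).2).pos
  · refine le_trans ?_ hM
    calc ∏ i, (w i : ℕ) ≤ ∏ _i : Fin (61 * L), R ^ 12 :=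
          Finset.prod_le_prod' fun i _ => (hBmem _ (w i).2).2
      _ = (R ^ 12) ^ (61 * L) := by simp
  · intro A c hAc hA1 hA2
    have hA : 0 < A := lt_of_lt_of_le (by positivity) hA1
    have hmem : (A, c % A) ∈ J := by
      rw [Finset.mem_filter, Finset.mem_product, Finset.mem_range, Finset.mem_range]
      have : c % A < A := Nat.mod_lt _ hA
      refine ⟨⟨by simp only; omega, by simp only; omega⟩, ?_, hA1, hA2⟩
      have h1 : Nat.gcd (c % A) A = 1 := by rw [← Nat.gcd_rec]; exact hAc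
      exact Nat.Coprime.symm h1
    obtain ⟨m, hm, hG⟩ := reach_dvd (G (A, c % A)) (61 * L) w 1 (hw _ hmem)
    rw [one_mul] at hm
    refine ⟨m, hm, ?_⟩
    have hcong : badPairs (D A) (fun u : ℕ => (u * m * c : ℝ) / A) R (((R : ℝ) ^ 13)⁻¹) =
        badPairs (D A) (fun u : ℕ => (u * m * ((c % A : ℕ) : ℝ) : ℝ) / A) R
          (((R : ℝ) ^ 13)⁻¹) := by
      apply badPairs_congr
      intro u
      have hA' : (A : ℝ) ≠ 0 := by exact_mod_cast hA.ne'
      have h1 : (c : ℝ) = A * ((c / A : ℕ) : ℝ) + ((c % A : ℕ) : ℝ) := by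
        exact_mod_cast (Nat.div_add_mod c A).symm
      generalize c / A = t at h1
      refine ⟨u * m * t, ?_⟩
      rw [h1]
      push_cast
      field_simp
      ring
    rw [hcong]
    exact hG

end Vale.Agent.P012
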