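import Vale.Agent.P012.Grow
import Vale.Agent.P012.Levels
import Vale.Agent.P012.FinalMult

namespace Vale.Agent.P012
open Finset

theorem badPairs_image {ι κ : Type*} [DecidableEq κ] (E : Finset ι) (φ : ι → κ) (hφ : Function.Injective φ)
    (x : κ → ℝ) (R : ℕ) (θ : ℝ) :
    badPairs (E.image φ) x R θ = badPairs E (fun i => x (φ i)) R θ := by
  classical
  unfold badPairs
  symm
  refine Finset.card_bij (fun p _ => (φ p.1, φ p.2)) ?_ ?_ ?_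
  · intro p hp
    obtain ⟨h1, h2⟩ := mem_filter.1 hp
    obtain ⟨h3, h4⟩ := mem_product.1 h1
    exact mem_filter.2 ⟨mem_product.2 ⟨mem_image_of_mem _ h3, mem_image_of_mem _ h4⟩, h2⟩
  · intro a _ b _ h
    obtain ⟨h1, h2⟩ := Prod.mk.inj h
    exact Prod.ext (hφ h1) (hφ h2)
  · intro b hb
    obtain ⟨h1, h2⟩ := mem_filter.1 hb
    obtain ⟨h3, h4⟩ := mem_product.1 h1
    obtain ⟨i, hi, h5⟩ := mem_image.1 h3
    obtain ⟨j, hj, h6⟩ := mem_image.1 h4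
    refine ⟨(i, j), mem_filter.2 ⟨mem_product.2 ⟨hi, hj⟩, ?_⟩, Prod.ext h5 h6⟩
    simpa only [h5, h6] using h2

theorem exists_M : ∃ L₀ : ℕ, ∀ L ≥ L₀, ∃ M : ℕ, 0 < M ∧ M ≤ 2 ^ (65 * L * 2 ^ L) ∧
    ∀ A c : ℕ, Nat.Coprime A c → 2 ^ (2 ^ (L + 1)) ≤ A → A ≤ 2 ^ (L * 2 ^ L) →
      ∃ m r : ℕ, m ∣ M ∧ A ∣ c * m + r ∧ r * 2 ^ (2 ^ (L - 8)) ≤ A := by
  classical
  obtain ⟨L₁, h₁⟩ := grow
  obtain ⟨L₂, h₂⟩ := levels
  obtain ⟨L₃, h₃⟩ := final_mult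
  refine ⟨L₁ + L₂ + L₃, fun L hL => ?_⟩
  obtain ⟨M₁, hM₁, hM₁', hD⟩ := h₁ L (by omega)
  have hD' : ∀ A : ℕ, ∃ D : Finset ℕ, 2 ^ (2 ^ (L + 1)) ≤ A → A ≤ 2 ^ (L * 2 ^ L) →
      (∀ u ∈ D, u ∣ M₁) ∧ 2 ^ (2 ^ (L - 3)) ≤ D.card ∧
        (∀ u ∈ D, ∀ u' ∈ D, u ≡ u' [MOD A] → u = u') := by
    intro A
    by_cases h : 2 ^ (2 ^ (L + 1)) ≤ A ∧ A ≤ 2 ^ (L * 2 ^ L)
    · obtain ⟨D, h3⟩ := hD A h.1 h.2
      exact ⟨D, fun _ _ => h3⟩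
    · exact ⟨∅, fun a b => absurd ⟨a, b⟩ h⟩
  choose D hDA using hD'
  obtain ⟨M₂, hM₂, hM₂', hm⟩ := h₂ L (by omega) D (fun A a b => (hDA A a b).2)
  have hm' : ∀ A c : ℕ, ∃ m : ℕ, Nat.Coprime A c → 2 ^ (2 ^ (L + 1)) ≤ A → A ≤ 2 ^ (L * 2 ^ L) →
      m ∣ M₂ ∧ (badPairs (D A) (fun u => (u * m * c : ℝ) / A) (2 ^ 2 ^ (L - 6))
            (((2 : ℝ) ^ 2 ^ (L - 6)) ^ 13)⁻¹ : ℝ) ≤
            (((2 : ℝ) ^ 2 ^ (L - 6)) ^ 4)⁻¹ * ((D A).card : ℝ) ^ 2 := by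
    intro A c
    by_cases h : Nat.Coprime A c ∧ 2 ^ (2 ^ (L + 1)) ≤ A ∧ A ≤ 2 ^ (L * 2 ^ L)
    · obtain ⟨m, h3⟩ := hm A c h.1 h.2.1 h.2.2
      exact ⟨m, fun _ _ _ => h3⟩
    · exact ⟨1, fun a b c => absurd ⟨a, b, c⟩ h⟩
  choose m hmA using hm'
  obtain ⟨M₃, hM₃, hM₃', hf⟩ := h₃ L (by omega) (fun A c => (D A).image (fun u => u * m A c))
  refine ⟨M₁ * M₂ * M₃, by positivity, ?_, ?_⟩
  · calc M₁ * M₂ * M₃ ≤ 2 ^ (16 * L * 2 ^ L) * 2 ^ (12 * L * 2 ^ L) * 2 ^ (37 * L * 2 ^ L) := by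
          gcongr
      _ = 2 ^ (65 * L * 2 ^ L) := by
          rw [← pow_add, ← pow_add]; congr 1; ring
  · intro A c hAc hA1 hA2
    have hApos : 0 < A := lt_of_lt_of_le (by positivity) hA1
    have hAc' : Nat.Coprime A (c % A) := by
      have := Nat.ModEq.gcd_eq (Nat.mod_modEq c A)
      rw [Nat.Coprime, Nat.gcd_comm, this, Nat.gcd_comm]
      exact hAc
    obtain ⟨hm1, hm2⟩ := hmA A (c % A) hAc' hA1 hA2
    obtain ⟨hD1, hD2, hD3⟩ := hDA A hA1 hA2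
    have hmpos : 0 < m A (c % A) := Nat.pos_of_dvd_of_pos hm1 hM₂
    have hinj : Function.Injective (fun u : ℕ => u * m A (c % A)) :=
      fun a b h => Nat.eq_of_mul_eq_mul_right hmpos h
    have hne : (D A).Nonempty := Finset.card_pos.1 (lt_of_lt_of_le (by positivity) hD2)
    have hcast : (fun i : ℕ => (((i * m A (c % A) : ℕ) : ℝ) * ((c % A : ℕ) : ℝ)) / (A : ℝ)) =
        (fun u : ℕ => ((u : ℝ) * (m A (c % A) : ℝ) * ((c % A : ℕ) : ℝ)) / (A : ℝ)) := by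
      funext i
      rw [Nat.cast_mul]
    obtain ⟨u, hu, f, r, hf1, hf2, hf3⟩ := hf A (c % A) hApos hA2 (Nat.mod_lt _ hApos)
      (hne.image _) (by
        rw [badPairs_image _ _ hinj, Finset.card_image_of_injective _ hinj, hcast]
        exact hm2)
    obtain ⟨u₀, hu₀, rfl⟩ := mem_image.1 hu
    refine ⟨u₀ * m A (c % A) * f, r, ?_, ?_, hf3⟩
    · exact Nat.mul_dvd_mul (Nat.mul_dvd_mul (hD1 u₀ hu₀) hm1) hf1
    · have h1 : c * (u₀ * m A (c % A) * f) + r ≡ (c % A) * (u₀ * m A (c % A) * f) + r [MOD A] :=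
        Nat.ModEq.add_right _ (Nat.ModEq.mul_right _ (Nat.mod_modEq c A).symm)
      exact (Nat.ModEq.dvd_iff h1 (dvd_refl A)).2 hf2

end Vale.Agent.P012
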