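import Vale.Agent.P012.Grow
import Vale.Agent.P012.Levels
import Vale.Agent.P012.FinalMult

namespace Vale.Agent.P012
open Finset

lemma dn_add_int' (x : ℝ) (k : ℤ) : dn (x + k) = dn x := by
  unfold dn
  rw [round_add_intCast]
  push_cast
  congr 1
  ring

lemma Rel_shift {R : ℕ} {θ y y' : ℝ} (k k' : ℤ) :
    Rel R θ (y + k) (y' + k') ↔ Rel R θ y y' := by
  have key : ∀ h h' : ℤ, dn (h * (y + k) + h' * (y' + k')) = dn (h * y + h' * y') := by
    intro h h'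
    have : (h : ℝ) * (y + k) + h' * (y' + k') = (h * y + h' * y') + ((h * k + h' * k' : ℤ) : ℝ) := by
      push_cast; ring
    rw [this, dn_add_int']
  unfold Rel
  simp only [key]

lemma badPairs_shift {ι : Type*} (E : Finset ι) (x : ι → ℝ) (k : ι → ℤ) (R : ℕ) (θ : ℝ) :
    badPairs E (fun i => x i + k i) R θ = badPairs E x R θ := by
  unfold badPairs
  congr 1
  ext p
  simp only [mem_filter, Rel_shift]

theorem exists_M : ∃ L₀ : ℕ, ∀ L ≥ L₀, ∃ M : ℕ, 0 < M ∧ M ≤ 2 ^ (65 * L * 2 ^ L) ∧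
    ∀ A c : ℕ, Nat.Coprime A c → 2 ^ (2 ^ (L + 1)) ≤ A → A ≤ 2 ^ (L * 2 ^ L) →
      ∃ m r : ℕ, m ∣ M ∧ A ∣ c * m + r ∧ r * 2 ^ (2 ^ (L - 8)) ≤ A := by
  classical
  obtain ⟨L1, h1⟩ := grow
  obtain ⟨L2, h2⟩ := levels
  obtain ⟨L3, h3⟩ := final_mult
  refine ⟨max L1 (max L2 L3), fun L hL => ?_⟩
  have hL1 : L1 ≤ L := (le_max_left _ _).trans hL
  have hL2 : L2 ≤ L := ((le_max_left _ _).trans (le_max_right _ _)).trans hL
  have hL3 : L3 ≤ L := ((le_max_right _ _).trans (le_max_right _ _)).trans hL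
  obtain ⟨M1, hM1, hM1le, hD⟩ := h1 L hL1
  choose! D hDdvd hDcard hDinj using hD
  obtain ⟨M2, hM2, hM2le, hlev⟩ := h2 L hL2 D (fun A hA1 hA2 => ⟨hDcard A hA1 hA2, hDinj A hA1 hA2⟩)
  obtain ⟨M3, hM3, hM3le, hfin⟩ := h3 L hL3 (fun A _ => D A)
  refine ⟨M1 * M2 * M3, by positivity, ?_, ?_⟩
  · calc M1 * M2 * M3 ≤ 2 ^ (16 * L * 2 ^ L) * 2 ^ (12 * L * 2 ^ L) * 2 ^ (37 * L * 2 ^ L) :=
          Nat.mul_le_mul (Nat.mul_le_mul hM1le hM2le) hM3le
      _ = 2 ^ (65 * L * 2 ^ L) := by rw [← pow_add, ← pow_add]; congr 1; ring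
  · intro A c hcop hA1 hA2
    have hA0 : 0 < A := lt_of_lt_of_le (by positivity) hA1
    obtain ⟨m, hm, hbad⟩ := hlev A c hcop hA1 hA2
    have hne : (D A).Nonempty := by
      rw [← Finset.card_pos]
      exact lt_of_lt_of_le (by positivity) (hDcard A hA1 hA2)
    have hbad2 : badPairs (D A) (fun u : ℕ => (u * ((m * c) % A : ℕ) : ℝ) / A) (2 ^ 2 ^ (L - 6))
        (((2 : ℝ) ^ 2 ^ (L - 6)) ^ 13)⁻¹ =
        badPairs (D A) (fun u : ℕ => (u * m * c : ℝ) / A) (2 ^ 2 ^ (L - 6))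
        (((2 : ℝ) ^ 2 ^ (L - 6)) ^ 13)⁻¹ := by
      rw [← badPairs_shift (D A) (fun u : ℕ => (u * ((m * c) % A : ℕ) : ℝ) / A)
        (fun u : ℕ => ((u * ((m * c) / A) : ℕ) : ℤ))]
      congr 1
      funext u
      have hdm : (m * c : ℝ) = A * ((m * c / A : ℕ) : ℝ) + ((m * c % A : ℕ) : ℝ) := by
        exact_mod_cast (Nat.div_add_mod (m * c) A).symm
      have hAr : (A : ℝ) ≠ 0 := by positivity
      have e3 : (u * m * c : ℝ) = u * (m * c) := by ring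
      rw [e3, hdm]
      generalize m * c / A = q
      generalize m * c % A = s
      push_cast
      field_simp
      ring
    obtain ⟨u, hu, f, r, hf, hdiv, hr⟩ := hfin A ((m * c) % A) hA0 hA2 (Nat.mod_lt _ hA0) hne
      (by rw [hbad2]; exact hbad)
    refine ⟨u * m * f, r, ?_, ?_, hr⟩
    · exact Nat.mul_dvd_mul (Nat.mul_dvd_mul (hDdvd A hA1 hA2 u hu) hm) hf
    · have e1 : c * (u * m * f) + r ≡ (m * c) % A * (u * f) + r [MOD A] := by
        apply Nat.ModEq.add_right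
        have : c * (u * m * f) = (m * c) * (u * f) := by ring
        rw [this]
        exact (Nat.ModEq.mul_right _ (Nat.mod_modEq _ _)).symm
      exact (Nat.modEq_zero_iff_dvd).1 (e1.trans ((Nat.modEq_zero_iff_dvd).2 hdiv))

end Vale.Agent.P012
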