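import Vale.Agent.P012.Defs2

namespace Vale.Agent.P012
open Finset

/-- additive character of the real line -/
noncomputable def ee (t : ℝ) : ℂ := Complex.exp (Complex.I * ((2 * Real.pi * t : ℝ) : ℂ))

theorem ee_add (s t : ℝ) : ee (s + t) = ee s * ee t := by
  unfold ee
  rw [← Complex.exp_add]
  congr 1
  push_cast
  ring

theorem ee_zero : ee 0 = 1 := by simp [ee]

theorem norm_ee (t : ℝ) : ‖ee t‖ = 1 := by
  unfold ee
  rw [mul_comm]
  exact Complex.norm_exp_ofReal_mul_I _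

theorem ee_int (k : ℤ) : ee k = 1 := by
  unfold ee
  rw [Complex.exp_eq_one_iff]
  refine ⟨k, ?_⟩
  push_cast
  ring

theorem ee_nat_mul (n : ℕ) (t : ℝ) : ee (n * t) = ee t ^ n := by
  induction n with
  | zero => simp [ee_zero]
  | succ n ih =>
    rw [pow_succ, ← ih, ← ee_add]
    congr 1
    push_cast
    ring

theorem conj_ee (t : ℝ) : (starRingEnd ℂ) (ee t) = ee (-t) := by
  unfold ee
  rw [← Complex.exp_conj]
  congr 1
  rw [map_mul, Complex.conj_I, Complex.conj_ofReal]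
  push_cast
  ring

theorem dn_nonneg (x : ℝ) : 0 ≤ dn x := abs_nonneg _

theorem dn_le_half (x : ℝ) : dn x ≤ 1 / 2 := abs_sub_round x

theorem four_dn_le (t : ℝ) : 4 * dn t ≤ ‖ee t - 1‖ := by
  have h1 : ee t = ee (t - round t) := by
    have : t = (t - round t) + (round t : ℝ) := by ring
    conv_lhs => rw [this]
    rw [ee_add, ee_int, mul_one]
  rw [h1]
  set s := t - round t with hs
  have hs2 : |s| ≤ 1 / 2 := abs_sub_round t
  have hdn : dn t = |s| := rfl
  unfold ee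
  rw [Complex.norm_exp_I_mul_ofReal_sub_one, norm_mul, Real.norm_eq_abs, Real.norm_eq_abs, hdn]
  have h2 : 2 * Real.pi * s / 2 = Real.pi * s := by ring
  rw [h2]
  have h3 : |Real.pi * s| ≤ Real.pi / 2 := by
    rw [abs_mul, abs_of_pos Real.pi_pos]
    nlinarith [Real.pi_pos]
  have h4 := Real.mul_abs_le_abs_sin h3
  rw [abs_mul, abs_of_pos Real.pi_pos] at h4
  have h5 : 2 / Real.pi * (Real.pi * |s|) = 2 * |s| := by
    field_simp
  rw [h5] at h4
  rw [abs_of_pos (by norm_num : (0 : ℝ) < 2)]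
  linarith

/-- geometric sum bound, multiplicative form -/
theorem geom_bound (t : ℝ) (n : ℕ) : ‖∑ j ∈ range n, ee t ^ j‖ * (2 * dn t) ≤ 1 := by
  have h1 : (∑ j ∈ range n, ee t ^ j) * (ee t - 1) = ee t ^ n - 1 := geom_sum_mul (ee t) n
  have h2 : ‖∑ j ∈ range n, ee t ^ j‖ * ‖ee t - 1‖ ≤ 2 := by
    rw [← norm_mul, h1]
    calc ‖ee t ^ n - 1‖ ≤ ‖ee t ^ n‖ + ‖(1 : ℂ)‖ := norm_sub_le _ _
      _ = 2 := by rw [norm_pow, norm_ee]; norm_num
  have h3 := four_dn_le t
  have h4 : 0 ≤ ‖∑ j ∈ range n, ee t ^ j‖ := norm_nonneg _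
  nlinarith

theorem sum_Icc_bound (y : ℝ) (F : ℕ) {δ : ℝ} (hδ : 0 < δ) (h : δ ≤ dn y) :
    ‖∑ f ∈ Icc 1 F, ee (f * y)‖ ≤ 1 / (2 * δ) := by
  have h1 : ∑ f ∈ Icc 1 F, ee (f * y) = ee y * ∑ j ∈ range F, ee y ^ j := by
    have : Icc 1 F = (range F).image (fun j => j + 1) := by
      ext n
      simp only [mem_Icc, mem_image, mem_range]
      constructor
      · rintro ⟨a, b⟩; exact ⟨n - 1, by omega, by omega⟩
      · rintro ⟨a, b, rfl⟩; omega
    rw [this, sum_image (by intro a _ b _ hab; simpa using hab), mul_sum]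
    refine sum_congr rfl fun j _ => ?_
    rw [ee_nat_mul, pow_succ, mul_comm]
  rw [h1, norm_mul, norm_ee, one_mul, le_div_iff₀ (by positivity)]
  have h2 := geom_bound y F
  have h4 : 0 ≤ ‖∑ j ∈ range F, ee y ^ j‖ := norm_nonneg _
  nlinarith

theorem sum_Icc_triv (y : ℝ) (F : ℕ) : ‖∑ f ∈ Icc 1 F, ee (f * y)‖ ≤ F := by
  calc ‖∑ f ∈ Icc 1 F, ee (f * y)‖ ≤ ∑ f ∈ Icc 1 F, ‖ee (f * y)‖ := norm_sum_le _ _
    _ = F := by simp [norm_ee]

/-- second moment expansion -/
theorem second_moment {J : Type*} (P : Finset J) (c : J → ℂ) (hc : ∀ j ∈ P, ‖c j‖ ≤ 1)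
    (y : J → ℝ) (F : ℕ) :
    ∑ f ∈ Icc 1 F, ‖∑ j ∈ P, c j * ee (f * y j)‖ ^ 2 ≤
      ∑ j ∈ P, ∑ j' ∈ P, ‖∑ f ∈ Icc 1 F, ee (f * (y j - y j'))‖ := by
  have h1 : ((∑ f ∈ Icc 1 F, ‖∑ j ∈ P, c j * ee (f * y j)‖ ^ 2 : ℝ) : ℂ) =
      ∑ j ∈ P, ∑ j' ∈ P, c j * (starRingEnd ℂ) (c j') *
        ∑ f ∈ Icc 1 F, ee (f * (y j - y j')) := by
    push_cast
    calc ∑ f ∈ Icc 1 F, (‖∑ j ∈ P, c j * ee (f * y j)‖ : ℂ) ^ 2
        = ∑ f ∈ Icc 1 F, ∑ j ∈ P, ∑ j' ∈ P, c j * (starRingEnd ℂ) (c j') *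
            ee (f * (y j - y j')) := by
          refine sum_congr rfl fun f _ => ?_
          rw [← Complex.mul_conj', map_sum, sum_mul_sum]
          refine sum_congr rfl fun j _ => sum_congr rfl fun j' _ => ?_
          rw [map_mul, conj_ee]
          have : (f : ℝ) * (y j - y j') = f * y j + -(f * y j') := by ring
          rw [this, ee_add]
          ring
      _ = _ := by
          rw [sum_comm]
          refine sum_congr rfl fun j _ => ?_
          rw [sum_comm]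
          refine sum_congr rfl fun j' _ => ?_
          rw [mul_sum]
  have h2 : (∑ f ∈ Icc 1 F, ‖∑ j ∈ P, c j * ee (f * y j)‖ ^ 2 : ℝ) =
      ‖((∑ f ∈ Icc 1 F, ‖∑ j ∈ P, c j * ee (f * y j)‖ ^ 2 : ℝ) : ℂ)‖ := by
    rw [Complex.norm_real, Real.norm_eq_abs, abs_of_nonneg]
    exact sum_nonneg fun _ _ => by positivity
  rw [h2, h1]
  refine (norm_sum_le _ _).trans (sum_le_sum fun j hj => (norm_sum_le _ _).trans
    (sum_le_sum fun j' hj' => ?_))
  rw [norm_mul, norm_mul, RCLike.norm_conj]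
  have := hc j hj
  have := hc j' hj'
  have h3 : ‖c j‖ * ‖c j'‖ ≤ 1 := mul_le_one₀ (hc j hj) (norm_nonneg _) (hc j' hj')
  calc _ ≤ 1 * ‖∑ f ∈ Icc 1 F, ee (f * (y j - y j'))‖ :=
        mul_le_mul_of_nonneg_right h3 (norm_nonneg _)
    _ = _ := one_mul _

/-- expansion of the square of the geometric sum -/
theorem geom_sq (R : ℕ) (t : ℝ) :
    ((‖∑ j ∈ range R, ee t ^ j‖ ^ 2 : ℝ) : ℂ) - R =
      ∑ p ∈ (range R).offDiag, ee (((p.1 : ℝ) - p.2) * t) := by
  have h1 : ((‖∑ j ∈ range R, ee t ^ j‖ ^ 2 : ℝ) : ℂ) =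
      ∑ p ∈ range R ×ˢ range R, ee (((p.1 : ℝ) - p.2) * t) := by
    push_cast
    rw [← Complex.mul_conj', map_sum, sum_mul_sum, sum_product]
    refine sum_congr rfl fun j _ => sum_congr rfl fun j' _ => ?_
    rw [map_pow, conj_ee, ← ee_nat_mul, ← ee_nat_mul, ← ee_add]
    congr 1
    ring
  have h2 : (range R ×ˢ range R : Finset (ℕ × ℕ)) = (range R).diag ∪ (range R).offDiag :=
    (diag_union_offDiag (range R)).symm
  have h3 : ∑ p ∈ (range R).diag, ee (((p.1 : ℝ) - p.2) * t) = R := by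
    calc ∑ p ∈ (range R).diag, ee (((p.1 : ℝ) - p.2) * t)
        = ∑ p ∈ (range R).diag, (1 : ℂ) := by
          refine sum_congr rfl fun p hp => ?_
          rw [mem_diag] at hp
          rw [hp.2, sub_self, zero_mul, ee_zero]
      _ = R := by simp
  rw [h1, h2, sum_union (disjoint_diag_offDiag (range R)), h3]
  ring

open Classical in
theorem fejer_core : ∃ R₀ : ℕ, ∀ R ≥ R₀, ∀ {ι : Type} (E : Finset ι) (_ : E.Nonempty)
    (x : ι → ℝ) (_ : (badPairs E x R (((R : ℝ) ^ 13)⁻¹) : ℝ) ≤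
      ((R : ℝ) ^ 4)⁻¹ * (E.card : ℝ) ^ 2),
    ((((Finset.Icc 1 (R ^ 18)).filter (fun f : ℕ => ∀ i ∈ E, ∀ k : ℤ,
      ¬ (0 ≤ (k : ℝ) - f * x i ∧ (k : ℝ) - f * x i ≤ 2 / √R))).card : ℕ) : ℝ) * R
      ≤ (R : ℝ) ^ 18 := by
  refine ⟨4, fun R hR ι E hE x hbad => ?_⟩
  have hR0 : (0 : ℝ) < R := by
    have : 0 < R := by omega
    exact_mod_cast this
  have hR4 : (4 : ℝ) ≤ R := by exact_mod_cast hR
  have hEc : (0 : ℝ) < E.card := by exact_mod_cast hE.card_pos
  set θ : ℝ := ((R : ℝ) ^ 13)⁻¹ with hθ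
  have hθ0 : 0 < θ := by positivity
  set η : ℝ := 1 / √R with hη
  have hsq : √(R : ℝ) * √(R : ℝ) = R := Real.mul_self_sqrt hR0.le
  have hsq0 : 0 < √(R : ℝ) := Real.sqrt_pos.2 hR0
  have hη0 : 0 < η := by positivity
  have hηsq : η * η * R = 1 := by
    rw [hη]
    field_simp
    nlinarith
  set F : ℕ := R ^ 18 with hF
  set J : Finset (ι × (ℕ × ℕ)) := E ×ˢ (range R).offDiag with hJ
  set c : ι × (ℕ × ℕ) → ℂ := fun p => ee (((p.2.1 : ℝ) - p.2.2) * η) with hc
  set y : ι × (ℕ × ℕ) → ℝ := fun p => ((p.2.1 : ℝ) - p.2.2) * x p.1 with hy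
  -- the value of the exponential sum
  have hS : ∀ f : ℕ, ∑ p ∈ J, c p * ee (f * y p) =
      ((∑ i ∈ E, (‖∑ j ∈ range R, ee (f * x i + η) ^ j‖ ^ 2 - R) : ℝ) : ℂ) := by
    intro f
    rw [hJ, sum_product]
    push_cast
    refine sum_congr rfl fun i _ => ?_
    have := geom_sq R (f * x i + η)
    push_cast at this
    rw [this]
    refine sum_congr rfl fun p _ => ?_
    simp only [hc, hy]
    rw [← ee_add]
    congr 1
    ring
  set bad := (Finset.Icc 1 F).filter (fun f : ℕ => ∀ i ∈ E, ∀ k : ℤ,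
      ¬ (0 ≤ (k : ℝ) - f * x i ∧ (k : ℝ) - f * x i ≤ 2 / √R)) with hbadset
  -- lower bound on bad multipliers
  have hlow : ∀ f ∈ bad, (3 / 4 * R * E.card) ^ 2 ≤ ‖∑ p ∈ J, c p * ee (f * y p)‖ ^ 2 := by
    intro f hf
    rw [hbadset, mem_filter] at hf
    have h1 : ∑ i ∈ E, (‖∑ j ∈ range R, ee (f * x i + η) ^ j‖ ^ 2 - R) ≤
        -(3 / 4 * R * E.card) := by
      calc ∑ i ∈ E, (‖∑ j ∈ range R, ee (f * x i + η) ^ j‖ ^ 2 - R)
          ≤ ∑ i ∈ E, (-(3 / 4 * (R : ℝ))) := by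
            refine sum_le_sum fun i hi => ?_
            have h2 : η ≤ dn (f * x i + η) := by
              by_contra hlt
              push Not at hlt
              unfold dn at hlt
              rw [abs_lt] at hlt
              refine hf.2 i hi (round (f * x i + η)) ⟨by linarith [hlt.2], ?_⟩
              have : 2 / √(R : ℝ) = 2 * η := by rw [hη]; ring
              rw [this]
              linarith [hlt.1]
            have h3 := geom_bound (f * x i + η) R
            set D := ‖∑ j ∈ range R, ee (f * x i + η) ^ j‖ with hD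
            have hD0 : 0 ≤ D := norm_nonneg _
            have h4 : D * (2 * η) ≤ 1 := by
              refine le_trans ?_ h3
              exact mul_le_mul_of_nonneg_left (by linarith) hD0
            have h5 : (D * (2 * η)) ^ 2 ≤ 1 := by
              have : 0 ≤ D * (2 * η) := by positivity
              nlinarith
            have h6 : D ^ 2 * 4 ≤ R := by
              have : (D * (2 * η)) ^ 2 * R = D ^ 2 * 4 := by
                calc (D * (2 * η)) ^ 2 * R = D ^ 2 * 4 * (η * η * R) := by ring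
                  _ = D ^ 2 * 4 := by rw [hηsq, mul_one]
              rw [← this]
              nlinarith
            linarith
        _ = -(3 / 4 * R * E.card) := by
            rw [sum_const, nsmul_eq_mul]
            ring
    rw [hS f, Complex.norm_real, Real.norm_eq_abs, sq_abs]
    have h7 : 0 ≤ 3 / 4 * R * (E.card : ℝ) := by positivity
    nlinarith
  -- upper bound for the second moment
  have hup := second_moment J c (fun p _ => (norm_ee _).le) y F
  have hJsum : ∑ p ∈ J, ∑ p' ∈ J, ‖∑ f ∈ Icc 1 F, ee (f * (y p - y p'))‖ ≤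
      (E.card : ℝ) ^ 2 * ((R : ℝ) ^ 18 + (R : ℝ) ^ 17 / 2) := by
    have hoff : (((range R).offDiag.card : ℕ) : ℝ) ≤ (R : ℝ) ^ 2 := by
      have : (range R).offDiag.card ≤ R ^ 2 := by
        rw [offDiag_card, card_range]
        calc R * R - R ≤ R * R := Nat.sub_le _ _
          _ = R ^ 2 := by ring
      exact_mod_cast this
    have h1 : ∀ p ∈ J, ∀ p' ∈ J, ‖∑ f ∈ Icc 1 F, ee (f * (y p - y p'))‖ ≤
        (if Rel R θ (x p.1) (x p'.1) then (F : ℝ) else 0) + (R : ℝ) ^ 13 / 2 := by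
      intro p hp p' hp'
      rw [hJ, mem_product, mem_offDiag] at hp hp'
      split_ifs with hrel
      · have := sum_Icc_triv (y p - y p') F
        have h0 : (0 : ℝ) ≤ (R : ℝ) ^ 13 / 2 := by positivity
        linarith
      · rw [zero_add]
        have h2 : θ ≤ dn (y p - y p') := by
          by_contra hlt
          push Not at hlt
          refine hrel ⟨(p.2.1 : ℤ) - p.2.2, (p'.2.2 : ℤ) - p'.2.1, Or.inl ?_, ?_, ?_, ?_⟩
          · have := hp.2.2.2
            omega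
          · have h3 := mem_range.1 hp.2.1
            have h4 := mem_range.1 hp.2.2.1
            rw [abs_le]
            constructor <;> omega
          · have h3 := mem_range.1 hp'.2.1
            have h4 := mem_range.1 hp'.2.2.1
            rw [abs_le]
            constructor <;> omega
          · have : (((p.2.1 : ℤ) - p.2.2 : ℤ) : ℝ) * x p.1 +
                (((p'.2.2 : ℤ) - p'.2.1 : ℤ) : ℝ) * x p'.1 = y p - y p' := by
              simp only [hy]
              push_cast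
              ring
            rw [this]
            exact hlt
        have h3 := sum_Icc_bound (y p - y p') F hθ0 h2
        refine h3.trans (le_of_eq ?_)
        rw [hθ]
        field_simp
    calc ∑ p ∈ J, ∑ p' ∈ J, ‖∑ f ∈ Icc 1 F, ee (f * (y p - y p'))‖
        ≤ ∑ p ∈ J, ∑ p' ∈ J, ((if Rel R θ (x p.1) (x p'.1) then (F : ℝ) else 0) +
            (R : ℝ) ^ 13 / 2) :=
          sum_le_sum fun p hp => sum_le_sum fun p' hp' => h1 p hp p' hp'
      _ = (∑ p ∈ J, ∑ p' ∈ J, (if Rel R θ (x p.1) (x p'.1) then (F : ℝ) else 0)) +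
            (J.card : ℝ) ^ 2 * ((R : ℝ) ^ 13 / 2) := by
          simp only [sum_add_distrib, sum_const, nsmul_eq_mul]
          ring
      _ = (((range R).offDiag.card : ℕ) : ℝ) ^ 2 * ((badPairs E x R θ : ℝ) * F) +
            (J.card : ℝ) ^ 2 * ((R : ℝ) ^ 13 / 2) := by
          congr 1
          rw [hJ, sum_product]
          have : ∀ i ∈ E, ∀ q ∈ (range R).offDiag,
              ∑ p' ∈ E ×ˢ (range R).offDiag, (if Rel R θ (x (i, q).1) (x p'.1) then (F : ℝ) else 0)
                = (((range R).offDiag.card : ℕ) : ℝ) *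
                  ∑ i' ∈ E, (if Rel R θ (x i) (x i') then (F : ℝ) else 0) := by
            intro i _ q _
            rw [sum_product, mul_sum]
            refine sum_congr rfl fun i' _ => ?_
            calc (∑ y ∈ (range R).offDiag,
                  (if Rel R θ (x (i, q).1) (x (i', y).1) then (F : ℝ) else 0))
                = ∑ _y ∈ (range R).offDiag, (if Rel R θ (x i) (x i') then (F : ℝ) else 0) := rfl
              _ = _ := by rw [sum_const, nsmul_eq_mul]
          rw [sum_congr rfl fun i hi => sum_congr rfl (this i hi)]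
          simp only [sum_const, nsmul_eq_mul]
          rw [← mul_sum, ← mul_sum]
          have h4 : ∑ i ∈ E, ∑ i' ∈ E, (if Rel R θ (x i) (x i') then (F : ℝ) else 0) =
              (badPairs E x R θ : ℝ) * F := by
            rw [← sum_product' (s := E) (t := E)
              (f := fun i i' => (if Rel R θ (x i) (x i') then (F : ℝ) else 0)), ← sum_filter,
              sum_const, nsmul_eq_mul]
            unfold badPairs
            congr
          rw [h4]
          ring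
      _ ≤ ((R : ℝ) ^ 2) ^ 2 * ((((R : ℝ) ^ 4)⁻¹ * (E.card : ℝ) ^ 2) * (R : ℝ) ^ 18) +
            ((E.card : ℝ) * (R : ℝ) ^ 2) ^ 2 * ((R : ℝ) ^ 13 / 2) := by
          have hFR : (F : ℝ) = (R : ℝ) ^ 18 := by rw [hF]; push_cast; ring
          rw [hFR]
          have hJc : (J.card : ℝ) ≤ (E.card : ℝ) * (R : ℝ) ^ 2 := by
            rw [hJ, card_product]
            push_cast
            exact mul_le_mul_of_nonneg_left hoff hEc.le
          gcongr
      _ = (E.card : ℝ) ^ 2 * ((R : ℝ) ^ 18 + (R : ℝ) ^ 17 / 2) := by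
          field_simp
  have hbadsum : (bad.card : ℝ) * (3 / 4 * R * E.card) ^ 2 ≤
      ∑ f ∈ Icc 1 F, ‖∑ p ∈ J, c p * ee (f * y p)‖ ^ 2 := by
    calc (bad.card : ℝ) * (3 / 4 * R * E.card) ^ 2 = ∑ f ∈ bad, (3 / 4 * R * (E.card : ℝ)) ^ 2 := by
          rw [sum_const, nsmul_eq_mul]
      _ ≤ ∑ f ∈ bad, ‖∑ p ∈ J, c p * ee (f * y p)‖ ^ 2 := sum_le_sum hlow
      _ ≤ _ := sum_le_sum_of_subset_of_nonneg (filter_subset _ _) (fun _ _ _ => by positivity)
  have hfin : (bad.card : ℝ) * (3 / 4 * R * E.card) ^ 2 ≤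
      (E.card : ℝ) ^ 2 * ((R : ℝ) ^ 18 + (R : ℝ) ^ 17 / 2) := hbadsum.trans (hup.trans hJsum)
  have h8 : (bad.card : ℝ) * (9 / 16 * (R : ℝ) ^ 2) ≤ (R : ℝ) ^ 18 + (R : ℝ) ^ 17 / 2 := by
    have h9 : (E.card : ℝ) ^ 2 * ((bad.card : ℝ) * (9 / 16 * (R : ℝ) ^ 2)) ≤
        (E.card : ℝ) ^ 2 * ((R : ℝ) ^ 18 + (R : ℝ) ^ 17 / 2) := by
      calc _ = (bad.card : ℝ) * (3 / 4 * R * E.card) ^ 2 := by ring
        _ ≤ _ := hfin
    exact le_of_mul_le_mul_left h9 (by positivity)
  have h10 : (bad.card : ℝ) * R * (9 / 16 * (R : ℝ)) ≤ (R : ℝ) ^ 18 * (9 / 16 * (R : ℝ)) := by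
    calc (bad.card : ℝ) * R * (9 / 16 * (R : ℝ)) = (bad.card : ℝ) * (9 / 16 * (R : ℝ) ^ 2) := by ring
      _ ≤ (R : ℝ) ^ 18 + (R : ℝ) ^ 17 / 2 := h8
      _ ≤ (R : ℝ) ^ 18 * (9 / 16 * (R : ℝ)) := by
        have : (0 : ℝ) < (R : ℝ) ^ 17 := by positivity
        nlinarith [mul_le_mul_of_nonneg_left hR4 this.le]
  exact le_of_mul_le_mul_right h10 (by positivity)

end Vale.Agent.P012
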