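import Vale.Agent.P012.Defs

namespace Vale.Agent.P012
open Finset

/-- a positive difference `x - ∑ 1/n` cannot be too small -/
lemma gap (K : ℕ) (hK : 1 ≤ K) : ∀ j, j ≤ K → ∀ (D : ℕ) (p : ℕ) (S : Finset ℕ), 1 ≤ D →
    S.card = j → (∀ n ∈ S, 1 ≤ n) → ∑ n ∈ S, (1 : ℚ) / n < (p : ℚ) / D →
    1 / (((2 * K * D) ^ 2 ^ j : ℕ) : ℚ) ≤ (p : ℚ) / D - ∑ n ∈ S, (1 : ℚ) / n := by
  intro j
  induction j with
  | zero =>
    intro _ D p S hD hS _ h
    rw [Finset.card_eq_zero] at hS
    subst hS
    rw [Finset.sum_empty] at h ⊢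
    have hDq : (0 : ℚ) < D := by exact_mod_cast hD
    have hp : 0 < p := by
      rcases Nat.eq_zero_or_pos p with h0 | h0
      · rw [h0] at h; simp at h
      · exact h0
    rw [sub_zero]
    rw [div_le_div_iff₀ (by positivity) hDq]
    have : D ≤ p * (2 * K * D) ^ 2 ^ 0 := by
      rw [pow_zero, pow_one]
      calc D = 1 * (1 * D) := by ring
        _ ≤ p * (2 * K * D) := Nat.mul_le_mul hp (Nat.mul_le_mul_right _ (by omega))
    rw [one_mul]
    exact_mod_cast this
  | succ j ih =>
    intro hj D p S hD hS hpos h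
    have hDq : (0 : ℚ) < D := by exact_mod_cast hD
    have hKq : (0 : ℚ) < K := by exact_mod_cast hK
    have hne : S.Nonempty := by
      rw [← Finset.card_pos]; omega
    have hsum0 : (0 : ℚ) ≤ ∑ n ∈ S, (1 : ℚ) / n := Finset.sum_nonneg (fun n _ => by positivity)
    have hp : 0 < p := by
      rcases Nat.eq_zero_or_pos p with h0 | h0
      · rw [h0, Nat.cast_zero, zero_div] at h; linarith
      · exact h0
    set n₁ := S.min' hne with hn₁
    have hn₁S : n₁ ∈ S := Finset.min'_mem _ _
    have hn₁pos : 1 ≤ n₁ := hpos _ hn₁S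
    by_cases hlarge : 2 * K * D ≤ n₁
    · -- all terms are small
      have h1 : ∑ n ∈ S, (1 : ℚ) / n ≤ 1 / (2 * D) := by
        calc ∑ n ∈ S, (1 : ℚ) / n ≤ ∑ n ∈ S, (1 : ℚ) / (2 * K * D) := by
              apply Finset.sum_le_sum
              intro n hn
              apply one_div_le_one_div_of_le (by positivity)
              have : 2 * K * D ≤ n := hlarge.trans (Finset.min'_le _ _ hn)
              exact_mod_cast this
          _ = S.card * (1 / (2 * K * D)) := by rw [Finset.sum_const, nsmul_eq_mul]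
          _ ≤ K * (1 / (2 * K * D)) := by
              apply mul_le_mul_of_nonneg_right _ (by positivity)
              have : S.card ≤ K := by omega
              exact_mod_cast this
          _ = 1 / (2 * D) := by field_simp
      have h2 : (1 : ℚ) / D ≤ p / D := by
        apply div_le_div_of_nonneg_right _ hDq.le
        exact_mod_cast hp
      have h3 : 1 / (((2 * K * D) ^ 2 ^ (j + 1) : ℕ) : ℚ) ≤ 1 / (2 * D) := by
        apply one_div_le_one_div_of_le (by positivity)
        have : 2 * D ≤ (2 * K * D) ^ 2 ^ (j + 1) := by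
          calc 2 * D ≤ 2 * K * D := Nat.mul_le_mul_right _ (by omega)
            _ ≤ (2 * K * D) ^ 2 ^ (j + 1) := Nat.le_self_pow (by positivity) _
        exact_mod_cast this
      have h4 : (1 : ℚ) / D - 1 / (2 * D) = 1 / (2 * D) := by field_simp; norm_num
      linarith
    · push Not at hlarge
      have h1 := Finset.add_sum_erase S (fun n : ℕ => (1 : ℚ) / n) hn₁S
      -- new fraction
      have hcard : (S.erase n₁).card = j := by
        rw [Finset.card_erase_of_mem hn₁S]; omega
      have hn₁q : (0 : ℚ) < n₁ := by exact_mod_cast hn₁pos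
      have hlt : (1 : ℚ) / n₁ < p / D := by
        have : (0 : ℚ) ≤ ∑ n ∈ S.erase n₁, (1 : ℚ) / n :=
          Finset.sum_nonneg (fun n _ => by positivity)
        linarith
      have hlt' : D < p * n₁ := by
        rw [div_lt_div_iff₀ hn₁q hDq, one_mul] at hlt
        exact_mod_cast hlt
      have hnew : (((p * n₁ - D : ℕ) : ℚ)) / ((D * n₁ : ℕ) : ℚ) = (p : ℚ) / D - 1 / n₁ := by
        rw [Nat.cast_sub hlt'.le]
        push_cast
        field_simp
      have h2 := ih (by omega) (D * n₁) (p * n₁ - D) (S.erase n₁) (Nat.mul_pos hD hn₁pos) hcard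
        (fun n hn => hpos n (Finset.mem_of_mem_erase hn)) (by rw [hnew]; linarith)
      rw [hnew] at h2
      have h3 : 1 / (((2 * K * D) ^ 2 ^ (j + 1) : ℕ) : ℚ) ≤
          1 / (((2 * K * (D * n₁)) ^ 2 ^ j : ℕ) : ℚ) := by
        apply one_div_le_one_div_of_le (by positivity)
        have : (2 * K * (D * n₁)) ^ 2 ^ j ≤ (2 * K * D) ^ 2 ^ (j + 1) := by
          rw [pow_succ' 2 j, pow_mul]
          apply Nat.pow_le_pow_left
          calc 2 * K * (D * n₁) ≤ 2 * K * (D * (2 * K * D)) := by
                apply Nat.mul_le_mul_left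
                apply Nat.mul_le_mul_left
                omega
            _ = (2 * K * D) ^ 2 := by ring
        exact_mod_cast this
      linarith

/-- lower bound: `(b-1)/b` needs many unit fractions -/
theorem lower_bound (b k : ℕ) (hb : 2 ≤ b) (S : Finset ℕ) (hS : S.card = k)
    (hpos : ∀ n ∈ S, 1 ≤ n) (h : ∑ n ∈ S, (1 : ℚ) / n = ((b - 1 : ℕ) : ℚ) / b) :
    b ≤ (2 * k) ^ 2 ^ k := by
  have hbq : (0 : ℚ) < b := by positivity
  have hsub : ((b - 1 : ℕ) : ℚ) / b = 1 - 1 / b := by
    rw [Nat.cast_sub (by omega)]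
    push_cast
    field_simp
  have hk : 1 ≤ k := by
    rcases Nat.eq_zero_or_pos k with h0 | h0
    · rw [h0, Finset.card_eq_zero] at hS
      rw [hS, Finset.sum_empty] at h
      have h1 : (0 : ℚ) < ((b - 1 : ℕ) : ℚ) / b := by
        apply div_pos _ hbq
        have : 0 < b - 1 := by omega
        exact_mod_cast this
      linarith
    · exact h0
  have h2 := gap k hk k le_rfl 1 1 S le_rfl hS hpos (by
    rw [h, hsub]
    have : (0 : ℚ) < 1 / b := by positivity
    push_cast
    linarith)
  rw [h, hsub] at h2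
  have h3 : (1 : ℚ) / (((2 * k * 1) ^ 2 ^ k : ℕ) : ℚ) ≤ 1 / b := by
    push_cast at h2 ⊢
    linarith
  have hpos' : (0 : ℚ) < (((2 * k * 1) ^ 2 ^ k : ℕ) : ℚ) := by
    have : 0 < (2 * k * 1) ^ 2 ^ k := by positivity
    exact_mod_cast this
  have h4 := (one_div_le_one_div hpos' hbq).1 h3
  rw [mul_one] at h4
  exact_mod_cast h4

end Vale.Agent.P012
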