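import Mathlib

namespace Vale.Agent.P012

/-- `a / b` is a sum of exactly `k` distinct unit fractions `1 / n`, `n ≥ 2` -/
def IsEgyptian (a b k : ℕ) : Prop :=
  ∃ S : Finset ℕ, S.card = k ∧ (∀ n ∈ S, 2 ≤ n) ∧
    ∑ n ∈ S, (1 : ℚ) / (n : ℚ) = (a : ℚ) / (b : ℚ)

/-- `N(a,b)`: the least number of distinct unit fractions with sum `a / b` -/
noncomputable def shortest (a b : ℕ) : ℕ := sInf {k : ℕ | IsEgyptian a b k}

/-- `N(b) = max_{1 ≤ a < b} N(a,b)` -/
noncomputable def maxShortest (b : ℕ) : ℕ := (Finset.Ico 1 b).sup (fun a => shortest a b)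

end Vale.Agent.P012
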