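import Vale.Agent.P012.Main
import Vale.Agent.P012.Lower
import Vale.Agent.P012.Distinct
import Vale.Agent.P012.NDefs

namespace Vale.Agent.P012
open Finset Filter

lemma exists_egyptian (a b : ℕ) (ha : 1 ≤ a) (hab : a < b) (k : ℕ) (h : SumUF ((a : ℚ) / b) k) :
    ∃ l ≤ k, IsEgyptian a b l := by
  have hb : (0 : ℚ) < b := by
    have : 0 < b := by omega
    exact_mod_cast this
  have ha' : (0 : ℚ) < a := by exact_mod_cast ha
  obtain ⟨S, h1, h2, h3⟩ := exists_distinct (x := (a : ℚ) / b) (k := k) (by positivity)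
    (by rw [div_lt_one hb]; exact_mod_cast hab) h
  exact ⟨S.card, h2, S, rfl, h1, h3⟩

/-- expansions exist -/
lemma egyptian_nonempty (a b : ℕ) (ha : 1 ≤ a) (hab : a < b) : ∃ k, IsEgyptian a b k := by
  obtain ⟨l, _, h⟩ := exists_egyptian a b ha hab a (copies a b (by omega))
  exact ⟨l, h⟩

lemma shortest_le (a b : ℕ) (ha : 1 ≤ a) (hab : a < b) (k : ℕ) (h : SumUF ((a : ℚ) / b) k) :
    shortest a b ≤ k := by
  obtain ⟨l, hl, h⟩ := exists_egyptian a b ha hab k h
  exact (Nat.sInf_le h).trans hl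

lemma isEgyptian_shortest (a b : ℕ) (ha : 1 ≤ a) (hab : a < b) :
    IsEgyptian a b (shortest a b) :=
  Nat.sInf_mem (s := {k : ℕ | IsEgyptian a b k}) (egyptian_nonempty a b ha hab)

/-- upper bound in terms of the natural double logarithm -/
lemma upper_nat (hD : KeyD) : ∃ C : ℕ, ∃ L₀ : ℕ, ∀ L ≥ L₀, ∀ b : ℕ, b ≤ 2 ^ (2 ^ L) →
    maxShortest b ≤ C * L := by
  obtain ⟨C, L₀, h⟩ := main_of_KeyD hD
  refine ⟨C, L₀, fun L hL b hb => ?_⟩
  apply Finset.sup_le
  intro a ha
  rw [Finset.mem_Ico] at ha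
  exact shortest_le a b ha.1 ha.2 _ (h L hL a b ha.1 ha.2 hb)

lemma tendsto_loglog : Tendsto (fun b : ℕ => Real.log (Real.log (b : ℝ))) atTop atTop :=
  Real.tendsto_log_atTop.comp (Real.tendsto_log_atTop.comp tendsto_natCast_atTop_atTop)

/-- choice of `L` -/
lemma exists_L (b L₀ : ℕ) (hb : 2 ^ 2 ^ L₀ ≤ b) (h1 : 1 ≤ Real.log (Real.log (b : ℝ))) :
    ∃ L : ℕ, L₀ ≤ L ∧ b ≤ 2 ^ 2 ^ L ∧ (L : ℝ) ≤ 4 * Real.log (Real.log (b : ℝ)) := by
  have hb2 : 2 ≤ b := by
    refine le_trans ?_ hb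
    calc 2 = 2 ^ 1 := by norm_num
      _ ≤ 2 ^ 2 ^ L₀ := Nat.pow_le_pow_right (by norm_num) (Nat.one_le_two_pow)
  have hlogb : 0 < Nat.log 2 b := Nat.log_pos (by norm_num) hb2
  have g1 : 2 ^ Nat.log 2 b ≤ b := Nat.pow_log_le_self 2 (by omega)
  have g2 : 2 ^ Nat.log 2 (Nat.log 2 b) ≤ Nat.log 2 b := Nat.pow_log_le_self 2 (by omega)
  refine ⟨Nat.log 2 (Nat.log 2 b) + 1, ?_, ?_, ?_⟩
  · have e1 : 2 ^ L₀ ≤ Nat.log 2 b := Nat.le_log_of_pow_le (by norm_num) hb
    have e2 : L₀ ≤ Nat.log 2 (Nat.log 2 b) := Nat.le_log_of_pow_le (by norm_num) e1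
    omega
  · have e1 : b < 2 ^ (Nat.log 2 b + 1) := Nat.lt_pow_succ_log_self (by norm_num) b
    have e2 : Nat.log 2 b < 2 ^ (Nat.log 2 (Nat.log 2 b) + 1) :=
      Nat.lt_pow_succ_log_self (by norm_num) _
    exact e1.le.trans (Nat.pow_le_pow_right (by norm_num) e2)
  · set l := Nat.log 2 (Nat.log 2 b) with hl
    have g3 : 2 ^ 2 ^ l ≤ b := (Nat.pow_le_pow_right (by norm_num) g2).trans g1
    have hlog2 : (1 : ℝ) / 2 ≤ Real.log 2 := by
      have := Real.log_two_gt_d9
      linarith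
    have hlog2pos : (0 : ℝ) < Real.log 2 := by linarith
    have g4 : ((2 : ℝ) ^ (2 ^ l : ℕ)) ≤ b := by exact_mod_cast g3
    have g5 : (2 : ℝ) ^ l * Real.log 2 ≤ Real.log b := by
      have := Real.log_le_log (by positivity) g4
      rw [Real.log_pow] at this
      push_cast at this
      exact this
    have g6 : (l : ℝ) * Real.log 2 + Real.log (Real.log 2) ≤ Real.log (Real.log b) := by
      have := Real.log_le_log (by positivity) g5
      rw [Real.log_mul (by positivity) hlog2pos.ne', Real.log_pow] at this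
      exact this
    have g7 : -Real.log 2 ≤ Real.log (Real.log 2) := by
      rw [← Real.log_inv]
      apply Real.log_le_log (by positivity)
      rw [← one_div]; exact hlog2
    have g8 : ((l : ℝ) - 1) * Real.log 2 ≤ Real.log (Real.log b) := by linarith
    push_cast
    by_contra hcon
    push Not at hcon
    have g9 : ((l : ℝ) - 1) * (1 / 2) ≤ ((l : ℝ) - 1) * Real.log 2 := by
      apply mul_le_mul_of_nonneg_left hlog2
      linarith
    linarith

lemma loglog_le (b k : ℕ) (hb : 3 ≤ b) (hk : 1 ≤ k) (h : b ≤ (2 * k) ^ 2 ^ k) :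
    Real.log (Real.log (b : ℝ)) ≤ 2 * k := by
  have h1 : 2 * k ≤ 2 ^ k := by
    have : ∀ m : ℕ, 1 ≤ m → 2 * m ≤ 2 ^ m := by
      intro m hm
      induction m, hm using Nat.le_induction with
      | base => norm_num
      | succ m hm ihm => rw [pow_succ]; omega
    exact this _ hk
  have h2 : b ≤ 2 ^ (4 ^ k) := by
    calc b ≤ (2 * k) ^ 2 ^ k := h
      _ ≤ (2 ^ k) ^ 2 ^ k := Nat.pow_le_pow_left h1 _
      _ = 2 ^ (k * 2 ^ k) := by rw [← pow_mul]
      _ ≤ 2 ^ (4 ^ k) := by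
          apply Nat.pow_le_pow_right (by norm_num)
          have : (4 : ℕ) ^ k = 2 ^ k * 2 ^ k := by
            rw [← mul_pow]; norm_num
          rw [this]
          apply Nat.mul_le_mul_right
          exact Nat.lt_two_pow_self.le
  have hb0 : (0 : ℝ) < b := by
    have : 0 < b := by omega
    exact_mod_cast this
  have h3 : Real.log b ≤ 4 ^ k := by
    have e1 : (b : ℝ) ≤ (2 : ℝ) ^ (4 ^ k : ℕ) := by exact_mod_cast h2
    have e2 := Real.log_le_log hb0 e1
    rw [Real.log_pow] at e2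
    push_cast at e2
    have e3 : Real.log 2 ≤ 1 := by
      have := Real.log_two_lt_d9
      linarith
    calc Real.log b ≤ 4 ^ k * Real.log 2 := e2
      _ ≤ 4 ^ k * 1 := mul_le_mul_of_nonneg_left e3 (by positivity)
      _ = 4 ^ k := mul_one _
  have h4 : 0 < Real.log b := Real.log_pos (by
    have : 1 < b := by omega
    exact_mod_cast this)
  have h5 := Real.log_le_log h4 h3
  rw [Real.log_pow] at h5
  have h6 : Real.log 4 ≤ 2 := by
    have e1 : Real.log 4 = 2 * Real.log 2 := by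
      rw [show (4 : ℝ) = 2 ^ 2 by norm_num, Real.log_pow]; norm_num
    have := Real.log_two_lt_d9
    linarith
  calc Real.log (Real.log b) ≤ k * Real.log 4 := h5
    _ ≤ k * 2 := mul_le_mul_of_nonneg_left h6 (by positivity)
    _ = 2 * k := by ring

/-- `N(b-1,b) ≥ (1/2) log log b` -/
lemma lower_shortest (b : ℕ) (hb : 3 ≤ b) :
    Real.log (Real.log (b : ℝ)) ≤ 2 * shortest (b - 1) b := by
  obtain ⟨S, h1, h2, h3⟩ := isEgyptian_shortest (b - 1) b (by omega) (by omega)
  have h4 := lower_bound b (shortest (b - 1) b) (by omega) S h1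
    (fun n hn => le_trans (by norm_num) (h2 n hn)) h3
  have hk : 1 ≤ shortest (b - 1) b := by
    rcases Nat.eq_zero_or_pos (shortest (b - 1) b) with h0 | h0
    · rw [h0] at h4
      norm_num at h4
      omega
    · exact h0
  exact loglog_le b _ hb hk h4

/-- the two-sided bound -/
theorem theta_of_KeyD (hD : KeyD) : ∃ c C : ℝ, 0 < c ∧ 0 < C ∧ ∀ᶠ b : ℕ in atTop,
    c * Real.log (Real.log (b : ℝ)) ≤ (maxShortest b : ℝ) ∧
    (maxShortest b : ℝ) ≤ C * Real.log (Real.log (b : ℝ)) := by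
  obtain ⟨C, L₀, h⟩ := upper_nat hD
  refine ⟨1 / 2, 4 * (C + 1), by norm_num, by positivity, ?_⟩
  filter_upwards [eventually_ge_atTop (2 ^ 2 ^ L₀), eventually_ge_atTop 3,
    tendsto_loglog.eventually_ge_atTop 1] with b hb1 hb2 hb3
  constructor
  · have h1 := lower_shortest b hb2
    have h2 : shortest (b - 1) b ≤ maxShortest b :=
      Finset.le_sup (f := fun a => shortest a b) (by rw [Finset.mem_Ico]; omega)
    have h3 : (shortest (b - 1) b : ℝ) ≤ maxShortest b := by exact_mod_cast h2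
    linarith
  · obtain ⟨L, hL, hbL, hLl⟩ := exists_L b L₀ hb1 hb3
    have h1 := h L hL b hbL
    have h2 : (maxShortest b : ℝ) ≤ C * L := by exact_mod_cast h1
    calc (maxShortest b : ℝ) ≤ C * L := h2
      _ ≤ C * (4 * Real.log (Real.log (b : ℝ))) := by
          apply mul_le_mul_of_nonneg_left hLl (by positivity)
      _ ≤ 4 * (C + 1) * Real.log (Real.log (b : ℝ)) := by nlinarith

end Vale.Agent.P012
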