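import Vale.Agent.P012.Defs2

namespace Vale.Agent.P012
open Finset

section sym
variable {G : Type*} [CommGroup G] [DecidableEq G] [Fintype G]

/-- number of pairs of words with prescribed ratio (as a real number) -/
noncomputable def cnt (S : Finset G) (ι : Type) [Fintype ι] [DecidableEq ι] (g : G) : ℝ :=
  ∑ w : ι → S, ∑ w' : ι → S, if ∏ i, (w i : G) = g * ∏ i, (w' i : G) then (1 : ℝ) else 0

omit [Fintype G] in
theorem cnt_nonneg (S : Finset G) (ι : Type) [Fintype ι] [DecidableEq ι] (g : G) :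
    0 ≤ cnt S ι g := by
  unfold cnt
  refine Finset.sum_nonneg (fun w _ => Finset.sum_nonneg (fun w' _ => ?_))
  split_ifs <;> norm_num

omit [Fintype G] in
theorem cnt_inv (S : Finset G) (ι : Type) [Fintype ι] [DecidableEq ι] (g : G) :
    cnt S ι g⁻¹ = cnt S ι g := by
  unfold cnt
  rw [Finset.sum_comm]
  refine Finset.sum_congr rfl (fun w _ => Finset.sum_congr rfl (fun w' _ => ?_))
  congr 1
  apply propext
  constructor
  · intro h; rw [h]; group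
  · intro h; rw [h]; group

omit [Fintype G] in
theorem cnt_equiv (S : Finset G) {ι κ : Type} [Fintype ι] [DecidableEq ι] [Fintype κ]
    [DecidableEq κ] (e : ι ≃ κ) (g : G) : cnt S ι g = cnt S κ g := by
  unfold cnt
  refine Fintype.sum_equiv (e.arrowCongr (Equiv.refl _)) _ _ (fun w => ?_)
  refine Fintype.sum_equiv (e.arrowCongr (Equiv.refl _)) _ _ (fun w' => ?_)
  have h1 : ∀ v : ι → S, ∏ i, (v i : G) =
      ∏ j, ((e.arrowCongr (Equiv.refl _) v) j : G) := by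
    intro v
    refine Fintype.prod_equiv e _ _ (fun i => ?_)
    simp [Equiv.arrowCongr]
  rw [← h1 w, ← h1 w']

/-- convolution -/
noncomputable def cv (a b : G → ℝ) (g : G) : ℝ := ∑ h : G, a h * b (h⁻¹ * g)

theorem sum_ite_conv (P1 P2 P1' P2' g : G) :
    (if P1 * P2 = g * (P1' * P2') then (1 : ℝ) else 0) =
      ∑ h : G, (if P1 = h * P1' then (1 : ℝ) else 0) *
        (if P2 = (h⁻¹ * g) * P2' then (1 : ℝ) else 0) := by
  rw [Finset.sum_eq_single (P1 * P1'⁻¹)]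
  · have e0 : P1 = P1 * P1'⁻¹ * P1' := by group
    rw [if_pos e0, one_mul]
    congr 1
    apply propext
    have e : (P1 * P1'⁻¹)⁻¹ * g * P2' = P1⁻¹ * (g * (P1' * P2')) := by
      rw [mul_inv_rev, inv_inv, mul_comm P1' P1⁻¹, mul_assoc, mul_assoc, mul_left_comm P1' g P2']
    have e1 : (P2 = (P1 * P1'⁻¹)⁻¹ * g * P2') ↔ (P1 * P2 = g * (P1' * P2')) := by
      rw [e]
      exact ⟨fun h => by rw [h, mul_inv_cancel_left], fun h => by rw [← h, inv_mul_cancel_left]⟩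
    exact e1.symm
  · intro h _ hne
    rw [if_neg, zero_mul]
    intro h1
    apply hne
    rw [h1]; group
  · intro h; exact absurd (Finset.mem_univ _) h

theorem cnt_sum (S : Finset G) {ι κ : Type} [Fintype ι] [DecidableEq ι] [Fintype κ]
    [DecidableEq κ] (g : G) : cnt S (ι ⊕ κ) g = cv (cnt S ι) (cnt S κ) g := by
  unfold cv cnt
  have hR : ∀ h : G, (∑ w : ι → S, ∑ w' : ι → S,
      if ∏ i, (w i : G) = h * ∏ i, (w' i : G) then (1 : ℝ) else 0) *
      (∑ w : κ → S, ∑ w' : κ → S,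
      if ∏ i, (w i : G) = (h⁻¹ * g) * ∏ i, (w' i : G) then (1 : ℝ) else 0)
      = ∑ w : (ι → S) × (κ → S), ∑ w' : (ι → S) × (κ → S),
        (if ∏ i, (w.1 i : G) = h * ∏ i, (w'.1 i : G) then (1 : ℝ) else 0) *
        (if ∏ i, (w.2 i : G) = (h⁻¹ * g) * ∏ i, (w'.2 i : G) then (1 : ℝ) else 0) := by
    intro h
    rw [Finset.sum_mul_sum]
    rw [Fintype.sum_prod_type]
    refine Finset.sum_congr rfl (fun w1 _ => Finset.sum_congr rfl (fun w2 _ => ?_))
    rw [Finset.sum_mul_sum, Fintype.sum_prod_type]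
  simp_rw [hR]
  conv_rhs => rw [Finset.sum_comm]
  refine Fintype.sum_equiv (Equiv.sumArrowEquivProdArrow ι κ S) _ _ (fun w => ?_)
  conv_rhs => rw [Finset.sum_comm]
  refine Fintype.sum_equiv (Equiv.sumArrowEquivProdArrow ι κ S) _ _ (fun w' => ?_)
  rw [Fintype.prod_sum_type, Fintype.prod_sum_type]
  exact sum_ite_conv _ _ _ _ g

/-- the quadratic form of a kernel on `D` -/
noncomputable def qf (D : Finset G) (a : G → ℝ) : ℝ := ∑ x ∈ D, ∑ x' ∈ D, a (x' * x⁻¹)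

omit [DecidableEq G] in
theorem qf_cv (D : Finset G) (a : G → ℝ) (ha : ∀ g, a g⁻¹ = a g) :
    (qf D a) ^ 2 ≤ D.card * qf D (cv a a) := by
  have h1 : qf D (cv a a) = ∑ y : G, (∑ x ∈ D, a (y * x⁻¹)) ^ 2 := by
    unfold qf cv
    have : ∀ y : G, (∑ x ∈ D, a (y * x⁻¹)) ^ 2 =
        ∑ x ∈ D, ∑ x' ∈ D, a (y * x⁻¹) * a (y * x'⁻¹) := by
      intro y
      rw [sq, Finset.sum_mul_sum]
    simp_rw [this]
    conv_rhs => rw [Finset.sum_comm]
    refine Finset.sum_congr rfl (fun x _ => ?_)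
    conv_rhs => rw [Finset.sum_comm]
    refine Finset.sum_congr rfl (fun x' _ => ?_)
    refine Fintype.sum_equiv (Equiv.mulRight x) _ _ (fun h => ?_)
    simp only [Equiv.coe_mulRight]
    have e1 : h * x * x⁻¹ = h := by group
    have e2 : a (h * x * x'⁻¹) = a (h⁻¹ * (x' * x⁻¹)) := by
      rw [← ha (h * x * x'⁻¹)]
      congr 1
      rw [mul_inv_rev, inv_inv, mul_inv_rev, mul_comm h⁻¹, mul_assoc]
    rw [e1, e2]
  rw [h1]
  have h2 : ∑ y ∈ D, (∑ x ∈ D, a (y * x⁻¹)) ^ 2 ≤ ∑ y : G, (∑ x ∈ D, a (y * x⁻¹)) ^ 2 :=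
    Finset.sum_le_sum_of_subset_of_nonneg (Finset.subset_univ _) (fun _ _ _ => sq_nonneg _)
  have h3 : (∑ y ∈ D, ∑ x ∈ D, a (y * x⁻¹)) ^ 2 ≤
      D.card * ∑ y ∈ D, (∑ x ∈ D, a (y * x⁻¹)) ^ 2 := sq_sum_le_card_mul_sum_sq
  have h4 : qf D a = ∑ y ∈ D, ∑ x ∈ D, a (y * x⁻¹) := by
    unfold qf
    rw [Finset.sum_comm]
  rw [h4]
  exact h3.trans (mul_le_mul_of_nonneg_left h2 (Nat.cast_nonneg _))

theorem qf_base (D S : Finset G)
    (hS : ∀ p ∈ S, D.card ≤ 2 * (D ∩ D.image (fun x => p * x)).card) :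
    ((S.card : ℝ) * D.card / 2) ^ 2 ≤ D.card * qf D (cnt S Unit) := by
  -- `qf D (cnt S Unit) = ∑ y, (∑ p ∈ S, [p⁻¹ y ∈ D])²`
  have h1 : qf D (cnt S Unit) = ∑ y : G, (∑ p ∈ S, if p⁻¹ * y ∈ D then (1:ℝ) else 0) ^ 2 := by
    have e1 : ∀ g, cnt S Unit g = ∑ p ∈ S, ∑ p' ∈ S, if p = g * p' then (1:ℝ) else 0 := by
      intro g
      unfold cnt
      rw [← Finset.sum_coe_sort S]
      refine Fintype.sum_equiv (Equiv.funUnique Unit S) _ _ (fun w => ?_)
      rw [← Finset.sum_coe_sort S]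
      refine Fintype.sum_equiv (Equiv.funUnique Unit S) _ _ (fun w' => ?_)
      simp
    unfold qf
    simp_rw [e1]
    have e2 : ∀ y : G, (∑ p ∈ S, if p⁻¹ * y ∈ D then (1:ℝ) else 0) ^ 2 =
        ∑ p ∈ S, ∑ p' ∈ S, (if p⁻¹ * y ∈ D then (1:ℝ) else 0) *
          (if p'⁻¹ * y ∈ D then (1:ℝ) else 0) := by
      intro y
      rw [sq, Finset.sum_mul_sum]
    simp_rw [e2]
    -- both sides are sums over p, p' of counts
    have e3 : ∑ x ∈ D, ∑ x' ∈ D, ∑ p ∈ S, ∑ p' ∈ S, (if p = x' * x⁻¹ * p' then (1:ℝ) else 0)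
        = ∑ p ∈ S, ∑ p' ∈ S, ∑ x ∈ D, ∑ x' ∈ D, (if p = x' * x⁻¹ * p' then (1:ℝ) else 0) := by
      calc ∑ x ∈ D, ∑ x' ∈ D, ∑ p ∈ S, ∑ p' ∈ S, (if p = x' * x⁻¹ * p' then (1:ℝ) else 0)
          = ∑ x ∈ D, ∑ p ∈ S, ∑ x' ∈ D, ∑ p' ∈ S, (if p = x' * x⁻¹ * p' then (1:ℝ) else 0) := by
            refine Finset.sum_congr rfl (fun x _ => Finset.sum_comm)
        _ = ∑ p ∈ S, ∑ x ∈ D, ∑ x' ∈ D, ∑ p' ∈ S, (if p = x' * x⁻¹ * p' then (1:ℝ) else 0) :=
            Finset.sum_comm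
        _ = ∑ p ∈ S, ∑ x ∈ D, ∑ p' ∈ S, ∑ x' ∈ D, (if p = x' * x⁻¹ * p' then (1:ℝ) else 0) := by
            refine Finset.sum_congr rfl (fun p _ => Finset.sum_congr rfl (fun x _ =>
              Finset.sum_comm))
        _ = _ := by
            refine Finset.sum_congr rfl (fun p _ => Finset.sum_comm)
    rw [e3]
    have e4 : ∑ y : G, ∑ p ∈ S, ∑ p' ∈ S, (if p⁻¹ * y ∈ D then (1:ℝ) else 0) *
          (if p'⁻¹ * y ∈ D then (1:ℝ) else 0) =
        ∑ p ∈ S, ∑ p' ∈ S, ∑ y : G, (if p⁻¹ * y ∈ D then (1:ℝ) else 0) *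
          (if p'⁻¹ * y ∈ D then (1:ℝ) else 0) := by
      rw [Finset.sum_comm]
      refine Finset.sum_congr rfl (fun p _ => Finset.sum_comm)
    rw [e4]
    refine Finset.sum_congr rfl (fun p _ => Finset.sum_congr rfl (fun p' _ => ?_))
    -- y = p * x
    have e5 : ∑ y : G, (if p⁻¹ * y ∈ D then (1:ℝ) else 0) * (if p'⁻¹ * y ∈ D then (1:ℝ) else 0)
        = ∑ x : G, (if x ∈ D then (1:ℝ) else 0) * (if p'⁻¹ * (p * x) ∈ D then (1:ℝ) else 0) := by
      refine (Fintype.sum_equiv (Equiv.mulLeft p) _ _ (fun x => ?_)).symm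
      simp only [Equiv.coe_mulLeft, inv_mul_cancel_left]
      rfl
    rw [e5]
    have e6 : ∑ x : G, (if x ∈ D then (1:ℝ) else 0) * (if p'⁻¹ * (p * x) ∈ D then (1:ℝ) else 0)
        = ∑ x ∈ D, (if p'⁻¹ * (p * x) ∈ D then (1:ℝ) else 0) := by
      rw [← Finset.sum_filter_add_sum_filter_not univ (fun x => x ∈ D)]
      rw [Finset.filter_mem_eq_inter, Finset.univ_inter]
      rw [Finset.sum_eq_zero (s := univ.filter (fun x => x ∉ D)), add_zero]
      · refine Finset.sum_congr rfl (fun x hx => ?_)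
        rw [if_pos hx, one_mul]
      · intro x hx
        simp only [mem_filter, mem_univ, true_and] at hx
        rw [if_neg hx, zero_mul]
    rw [e6]
    -- swap roles: sum over x ∈ D of #{x' ∈ D : p = x' x⁻¹ p'}: x' = p x p'⁻¹
    refine Finset.sum_congr rfl (fun x _ => ?_)
    by_cases hx : p'⁻¹ * (p * x) ∈ D
    · rw [if_pos hx, Finset.sum_eq_single_of_mem _ hx]
      · rw [if_pos]
        rw [← mul_assoc, mul_inv_cancel_right, mul_comm p'⁻¹ p, inv_mul_cancel_right]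
      · intro x' _ hne
        rw [if_neg]
        intro h
        apply hne
        rw [h, mul_right_comm, inv_mul_cancel_right, mul_comm x' p', inv_mul_cancel_left]
    · rw [if_neg hx]
      apply Finset.sum_eq_zero
      intro x' hx'
      rw [if_neg]
      intro h
      apply hx
      have : p'⁻¹ * (p * x) = x' := by
        rw [h, mul_right_comm, inv_mul_cancel_right, mul_comm x' p', inv_mul_cancel_left]
      rwa [this]
  rw [h1]
  have h2 : ∑ y ∈ D, (∑ p ∈ S, if p⁻¹ * y ∈ D then (1:ℝ) else 0) ^ 2 ≤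
      ∑ y : G, (∑ p ∈ S, if p⁻¹ * y ∈ D then (1:ℝ) else 0) ^ 2 :=
    Finset.sum_le_sum_of_subset_of_nonneg (Finset.subset_univ _) (fun _ _ _ => sq_nonneg _)
  have h3 : (∑ y ∈ D, ∑ p ∈ S, if p⁻¹ * y ∈ D then (1:ℝ) else 0) ^ 2 ≤
      D.card * ∑ y ∈ D, (∑ p ∈ S, if p⁻¹ * y ∈ D then (1:ℝ) else 0) ^ 2 :=
    sq_sum_le_card_mul_sum_sq
  have h4 : (S.card : ℝ) * D.card / 2 ≤ ∑ y ∈ D, ∑ p ∈ S, if p⁻¹ * y ∈ D then (1:ℝ) else 0 := by
    rw [Finset.sum_comm]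
    have : ∀ p ∈ S, (D.card : ℝ) / 2 ≤ ∑ y ∈ D, if p⁻¹ * y ∈ D then (1:ℝ) else 0 := by
      intro p hp
      have h5 := hS p hp
      have h6 : ∑ y ∈ D, (if p⁻¹ * y ∈ D then (1:ℝ) else 0) =
          ((D ∩ D.image (fun x => p * x)).card : ℝ) := by
        rw [← Finset.sum_filter, Finset.sum_const, nsmul_eq_mul, mul_one]
        congr 2
        ext y
        simp only [mem_filter, mem_inter, mem_image]
        constructor
        · rintro ⟨h1, h2⟩
          exact ⟨h1, p⁻¹ * y, h2, by group⟩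
        · rintro ⟨h1, x, hx, rfl⟩
          exact ⟨h1, by simpa using hx⟩
      rw [h6]
      have h7 : (D.card : ℝ) ≤ 2 * ((D ∩ D.image (fun x => p * x)).card : ℝ) := by
        exact_mod_cast h5
      linarith
    calc (S.card : ℝ) * D.card / 2 = ∑ p ∈ S, (D.card : ℝ) / 2 := by
          rw [Finset.sum_const, nsmul_eq_mul]; ring
      _ ≤ _ := Finset.sum_le_sum this
  calc ((S.card : ℝ) * D.card / 2) ^ 2
      ≤ (∑ y ∈ D, ∑ p ∈ S, if p⁻¹ * y ∈ D then (1:ℝ) else 0) ^ 2 := by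
        gcongr
    _ ≤ _ := h3.trans (mul_le_mul_of_nonneg_left h2 (Nat.cast_nonneg _))

theorem qf_pow (D S : Finset G) (hD : D.Nonempty)
    (hS : ∀ p ∈ S, D.card ≤ 2 * (D ∩ D.image (fun x => p * x)).card) (n : ℕ) :
    ((S.card : ℝ) ^ 2 / 4) ^ (2 ^ n) * D.card ≤ qf D (cnt S (Fin (2 ^ n))) := by
  have hDpos : (0 : ℝ) < D.card := by exact_mod_cast hD.card_pos
  induction n with
  | zero =>
    have h1 := qf_base D S hS
    have e : qf D (cnt S (Fin (2 ^ 0))) = qf D (cnt S Unit) := by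
      unfold qf
      have : ∀ g, cnt S (Fin (2 ^ 0)) g = cnt S Unit g :=
        fun g => cnt_equiv S (finOneEquiv : Fin 1 ≃ Unit) g
      simp_rw [this]
    rw [e]
    have h2 : (((S.card : ℝ) ^ 2 / 4) ^ (2 ^ 0) * D.card) * D.card ≤
        qf D (cnt S Unit) * D.card := by
      calc (((S.card : ℝ) ^ 2 / 4) ^ (2 ^ 0) * D.card) * D.card
          = ((S.card : ℝ) * D.card / 2) ^ 2 := by ring
        _ ≤ _ := h1.trans (le_of_eq (mul_comm _ _))
    exact le_of_mul_le_mul_right h2 hDpos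
  | succ n ih =>
    have e : ∀ g, cnt S (Fin (2 ^ (n + 1))) g =
        cv (cnt S (Fin (2 ^ n))) (cnt S (Fin (2 ^ n))) g := by
      intro g
      rw [← cnt_sum]
      exact (cnt_equiv S (finSumFinEquiv.trans (finCongr (by ring))) g).symm
    have e2 : qf D (cnt S (Fin (2 ^ (n + 1)))) =
        qf D (cv (cnt S (Fin (2 ^ n))) (cnt S (Fin (2 ^ n)))) := by
      unfold qf
      simp_rw [e]
    rw [e2]
    have h1 := qf_cv D (cnt S (Fin (2 ^ n))) (cnt_inv S _)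
    have h0 : 0 ≤ ((S.card : ℝ) ^ 2 / 4) ^ (2 ^ n) * D.card := by positivity
    have h2 : (((S.card : ℝ) ^ 2 / 4) ^ (2 ^ n) * D.card) ^ 2 ≤
        (qf D (cnt S (Fin (2 ^ n)))) ^ 2 := by gcongr
    have h3 : (((S.card : ℝ) ^ 2 / 4) ^ (2 ^ (n + 1)) * D.card) * D.card ≤
        qf D (cv (cnt S (Fin (2 ^ n))) (cnt S (Fin (2 ^ n)))) * D.card := by
      calc (((S.card : ℝ) ^ 2 / 4) ^ (2 ^ (n + 1)) * D.card) * D.card
          = (((S.card : ℝ) ^ 2 / 4) ^ (2 ^ n) * D.card) ^ 2 := by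
            rw [pow_succ 2 n, pow_mul]; ring
        _ ≤ _ := h2.trans (h1.trans (le_of_eq (mul_comm _ _)))
    exact le_of_mul_le_mul_right h3 hDpos

/-- group lemma: if `D` is almost stable under all `p ∈ S`, then it is large -/
theorem sym_bound (D S : Finset G) (n K : ℕ)
    (hS : ∀ p ∈ S, D.card ≤ 2 * (D ∩ D.image (fun x => p * x)).card)
    (hK : ∀ g : G, (univ.filter (fun w : (Fin (2 ^ n) → S) × (Fin (2 ^ n) → S) =>
        ∏ i, (w.1 i : G) = g * ∏ i, (w.2 i : G))).card ≤ K) :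
    D.card * S.card ^ (2 * 2 ^ n) ≤ 4 ^ (2 ^ n) * K * D.card ^ 2 := by
  rcases D.eq_empty_or_nonempty with rfl | hD
  · simp
  have h1 := qf_pow D S hD hS n
  have h2 : ∀ g, cnt S (Fin (2 ^ n)) g ≤ K := by
    intro g
    have h3 := hK g
    have h4 : cnt S (Fin (2 ^ n)) g = ((univ.filter
        (fun w : (Fin (2 ^ n) → S) × (Fin (2 ^ n) → S) =>
        ∏ i, (w.1 i : G) = g * ∏ i, (w.2 i : G))).card : ℝ) := by
      unfold cnt
      rw [← Fintype.sum_prod_type' (f := fun w w' : Fin (2 ^ n) → S =>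
        if ∏ i, (w i : G) = g * ∏ i, (w' i : G) then (1 : ℝ) else 0)]
      rw [← Finset.sum_filter, Finset.sum_const, nsmul_eq_mul, mul_one]
    rw [h4]
    exact_mod_cast h3
  have h3 : qf D (cnt S (Fin (2 ^ n))) ≤ K * (D.card : ℝ) ^ 2 := by
    unfold qf
    calc ∑ x ∈ D, ∑ x' ∈ D, cnt S (Fin (2 ^ n)) (x' * x⁻¹)
        ≤ ∑ x ∈ D, ∑ x' ∈ D, (K : ℝ) :=
          Finset.sum_le_sum (fun x _ => Finset.sum_le_sum (fun x' _ => h2 _))
      _ = K * (D.card : ℝ) ^ 2 := by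
          simp only [Finset.sum_const, nsmul_eq_mul]; ring
  have h4 : ((S.card : ℝ) ^ 2 / 4) ^ (2 ^ n) * D.card ≤ K * (D.card : ℝ) ^ 2 := h1.trans h3
  have h5 : (D.card : ℝ) * (S.card : ℝ) ^ (2 * 2 ^ n) ≤
      4 ^ (2 ^ n) * K * (D.card : ℝ) ^ 2 := by
    have : (D.card : ℝ) * (S.card : ℝ) ^ (2 * 2 ^ n) =
        4 ^ (2 ^ n) * (((S.card : ℝ) ^ 2 / 4) ^ (2 ^ n) * D.card) := by
      rw [div_pow, pow_mul]
      field_simp
    rw [this, mul_assoc]
    gcongr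
  exact_mod_cast h5

end sym

end Vale.Agent.P012
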