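import Vale.Agent.P012.Defs2

namespace Vale.Agent.P012
open Finset

/-- two words with the same multiset of letters differ by a permutation of the positions -/
theorem exists_perm_of_multiset {N : ℕ} {α : Type*} [DecidableEq α] (w w₀ : Fin N → α)
    (h : (univ.val.map w : Multiset α) = univ.val.map w₀) :
    ∃ σ : Equiv.Perm (Fin N), w = w₀ ∘ σ := by
  have hc : ∀ a : α, Fintype.card {i // w i = a} = Fintype.card {i // w₀ i = a} := by
    intro a
    have h1 := congrArg (Multiset.count a) h
    rw [Multiset.count_map, Multiset.count_map] at h1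
    rw [Fintype.card_subtype, Fintype.card_subtype]
    simpa [Finset.card, Finset.filter, eq_comm] using h1
  let e : ∀ a : α, {i // w i = a} ≃ {i // w₀ i = a} := fun a => Fintype.equivOfCardEq (hc a)
  let σ : Equiv.Perm (Fin N) :=
    ((Equiv.sigmaFiberEquiv w).symm.trans (Equiv.sigmaCongrRight e)).trans
      (Equiv.sigmaFiberEquiv w₀)
  refine ⟨σ, ?_⟩
  funext i
  simp only [Function.comp]
  have : w₀ (σ i) = w i := by
    change w₀ ((e (w i) ⟨i, rfl⟩ : {j // w₀ j = w i}) : Fin N) = w i
    exact (e (w i) ⟨i, rfl⟩).2
  exact this.symm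

/-- number of `N`-tuples of primes with a prescribed product is at most `N!` -/
theorem tuples_le (N P : ℕ) (S : Finset ℕ) (hS : ∀ p ∈ S, p.Prime) :
    (univ.filter (fun w : Fin N → S => ∏ i, (w i : ℕ) = P)).card ≤ N.factorial := by
  classical
  rcases (univ.filter (fun w : Fin N → S => ∏ i, (w i : ℕ) = P)).eq_empty_or_nonempty with h | h
  · rw [h]; simp
  · obtain ⟨w₀, hw₀⟩ := h
    simp only [mem_filter, mem_univ, true_and] at hw₀
    have hsub : (univ.filter (fun w : Fin N → S => ∏ i, (w i : ℕ) = P)) ⊆
        Finset.image (fun σ : Equiv.Perm (Fin N) => w₀ ∘ σ) Finset.univ := by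
      intro w hw
      simp only [mem_filter, mem_univ, true_and] at hw
      have key : (univ.val.map (fun i => (w i : ℕ)) : Multiset ℕ) =
          univ.val.map (fun i => (w₀ i : ℕ)) := by
        have f1 : ∀ v : Fin N → S, ∏ i, (v i : ℕ) = P →
            (univ.val.map (fun i => (v i : ℕ)) : Multiset ℕ) =
              ((Nat.primeFactorsList P : List ℕ) : Multiset ℕ) := by
          intro v hv
          have h3 : (List.ofFn (fun i => (v i : ℕ))).Perm (Nat.primeFactorsList P) := by
            apply Nat.primeFactorsList_unique
            · rw [List.prod_ofFn, hv]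
            · intro p hp
              obtain ⟨i, rfl⟩ := List.mem_ofFn.1 hp
              exact hS _ (v i).2
          rw [← Multiset.coe_eq_coe] at h3
          rw [← h3]
          simp
        rw [f1 w hw, f1 w₀ hw₀]
      have key2 : (univ.val.map w : Multiset S) = univ.val.map w₀ := by
        apply Multiset.map_injective (f := fun x : S => (x : ℕ)) Subtype.val_injective
        rw [Multiset.map_map, Multiset.map_map]
        exact key
      obtain ⟨σ, hσ⟩ := exists_perm_of_multiset w w₀ key2
      exact mem_image.2 ⟨σ, mem_univ _, hσ.symm⟩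
    refine (Finset.card_le_card hsub).trans (Finset.card_image_le.trans ?_)
    rw [Finset.card_univ, Fintype.card_perm, Fintype.card_fin]

end Vale.Agent.P012
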