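import Vale.Agent.P012.Trials
import Vale.Agent.P012.Sym
import Vale.Agent.P012.Tuples
import Vale.Agent.P012.Primes

namespace Vale.Agent.P012
open Finset

/-- one growth step: add the multiples by `p` that are new modulo `A` -/
def gstep (A : ℕ) (D : Finset ℕ) (p : ℕ) : Finset ℕ :=
  if Nat.Coprime p A then D ∪ (D.image (fun u => p * u)).filter (fun v => ∀ u ∈ D, u % A ≠ v % A)
  else D

/-- validity of a state -/
def GV (A : ℕ) (D : Finset ℕ) : Prop :=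
  (∀ u ∈ D, Nat.Coprime u A) ∧ (∀ u ∈ D, ∀ u' ∈ D, u % A = u' % A → u = u')

theorem gstep_valid {A : ℕ} {D : Finset ℕ} (hD : GV A D) (p : ℕ) : GV A (gstep A D p) := by
  unfold gstep
  split_ifs with hp
  · refine ⟨?_, ?_⟩
    · intro u hu
      rcases mem_union.1 hu with h | h
      · exact hD.1 u h
      · obtain ⟨v, hv, rfl⟩ := mem_image.1 (mem_filter.1 h).1
        exact Nat.Coprime.mul_left hp (hD.1 v hv)
    · intro u hu u' hu' h
      rcases mem_union.1 hu with h1 | h1 <;> rcases mem_union.1 hu' with h2 | h2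
      · exact hD.2 u h1 u' h2 h
      · exact absurd h ((mem_filter.1 h2).2 u h1)
      · exact absurd h.symm ((mem_filter.1 h1).2 u' h2)
      · obtain ⟨v, hv, rfl⟩ := mem_image.1 (mem_filter.1 h1).1
        obtain ⟨v', hv', rfl⟩ := mem_image.1 (mem_filter.1 h2).1
        have h3 : p * v ≡ p * v' [MOD A] := h
        have h4 : v ≡ v' [MOD A] := Nat.ModEq.cancel_left_of_coprime (by
          rw [Nat.coprime_comm] at hp; exact hp) h3
        rw [hD.2 v hv v' hv' h4]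
  · exact hD

theorem gstep_card_mono {A : ℕ} {D : Finset ℕ} (p : ℕ) : D.card ≤ (gstep A D p).card := by
  unfold gstep
  split_ifs
  · exact Finset.card_le_card Finset.subset_union_left
  · exact le_rfl

/-- the residue of a natural number coprime to `A`, as a unit -/
noncomputable def res (A u : ℕ) : (ZMod A)ˣ :=
  if h : Nat.Coprime u A then ZMod.unitOfCoprime u h else 1

theorem res_coe {A u : ℕ} (h : Nat.Coprime u A) : ((res A u : (ZMod A)ˣ) : ZMod A) = u := by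
  unfold res
  rw [dif_pos h]
  exact ZMod.coe_unitOfCoprime u h

theorem res_inj {A u v : ℕ} (hu : Nat.Coprime u A) (hv : Nat.Coprime v A) :
    res A u = res A v ↔ u % A = v % A := by
  rw [← Units.val_inj, res_coe hu, res_coe hv]
  exact ZMod.natCast_eq_natCast_iff' u v A

theorem res_mul {A u v : ℕ} (hu : Nat.Coprime u A) (hv : Nat.Coprime v A) :
    res A (u * v) = res A u * res A v := by
  rw [← Units.val_inj, Units.val_mul, res_coe hu, res_coe hv,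
    res_coe (Nat.Coprime.mul_left hu hv)]
  push_cast
  rfl

theorem card_image_res {A : ℕ} {D : Finset ℕ} (hD : GV A D) :
    (D.image (res A)).card = D.card := by
  apply Finset.card_image_of_injOn
  intro u hu v hv h
  exact hD.2 u hu v hv ((res_inj (hD.1 u hu) (hD.1 v hv)).1 h)

theorem image_gstep {A : ℕ} {D : Finset ℕ} (hD : GV A D) {p : ℕ} (hp : Nat.Coprime p A) :
    (gstep A D p).image (res A) =
      D.image (res A) ∪ (D.image (res A)).image (fun x => res A p * x) := by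
  ext x
  simp only [gstep, if_pos hp, mem_image, mem_union, mem_filter]
  constructor
  · rintro ⟨u, hu | hu, rfl⟩
    · exact Or.inl ⟨u, hu, rfl⟩
    · obtain ⟨⟨v, hv, rfl⟩, _⟩ := hu
      exact Or.inr ⟨res A v, ⟨v, hv, rfl⟩, (res_mul hp (hD.1 v hv)).symm⟩
  · rintro (⟨u, hu, rfl⟩ | ⟨y, ⟨v, hv, rfl⟩, rfl⟩)
    · exact ⟨u, Or.inl hu, rfl⟩
    · by_cases hnew : ∀ u ∈ D, u % A ≠ (p * v) % A
      · exact ⟨p * v, Or.inr ⟨⟨v, hv, rfl⟩, hnew⟩, res_mul hp (hD.1 v hv)⟩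
      · push Not at hnew
        obtain ⟨u, hu, h⟩ := hnew
        refine ⟨u, Or.inl hu, ?_⟩
        rw [← res_mul hp (hD.1 v hv)]
        exact (res_inj (hD.1 u hu) (Nat.Coprime.mul_left hp (hD.1 v hv))).2 h

/-- extraction of divisors from a successful run -/
theorem reach_divides {A : ℕ} {G : Finset ℕ → Prop} {Pr : Finset ℕ} (q : ℕ) :
    ∀ (w : Fin q → Pr) (D : Finset ℕ) (m : ℕ), (∀ u ∈ D, u ∣ m) →
      Reach (fun D (p : Pr) => gstep A D p) G q w D →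
      ∃ D', G D' ∧ ∀ u ∈ D', u ∣ m * ∏ i, (w i : ℕ) := by
  induction q with
  | zero =>
    intro w D m hm h
    exact ⟨D, h, by simpa using hm⟩
  | succ q ih =>
    intro w D m hm h
    rcases h with h | h
    · obtain ⟨D', h1, h2⟩ := ih (Fin.tail w) D m hm h
      refine ⟨D', h1, fun u hu => (h2 u hu).trans ?_⟩
      rw [Fin.prod_univ_succ]
      exact ⟨w 0, by simp only [Fin.tail]; ring⟩
    · obtain ⟨D', h1, h2⟩ := ih (Fin.tail w) (gstep A D (w 0)) (m * w 0) (by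
        intro u hu
        unfold gstep at hu
        split_ifs at hu with hp
        · rcases mem_union.1 hu with h3 | h3
          · exact (hm u h3).mul_right _
          · obtain ⟨v, hv, rfl⟩ := mem_image.1 (mem_filter.1 h3).1
            obtain ⟨k, hk⟩ := hm v hv
            exact ⟨k, by rw [hk]; ring⟩
        · exact (hm u hu).mul_right _) h
      refine ⟨D', h1, fun u hu => (h2 u hu).trans ?_⟩
      rw [Fin.prod_univ_succ, mul_assoc]
      rfl

/-- For a fixed small valid `D`, few primes `p` fail to enlarge `D` by a factor `√2`. -/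
theorem few_bad (A P n g : ℕ) (D : Finset ℕ) (hD : GV A D) (hDne : D.Nonempty)
    (Pr : Finset ℕ) (hPr : ∀ p ∈ Pr, p.Prime ∧ p ≤ P)
    (hA : 1 < A) (hPA : P ^ (2 ^ n) < A) (hDg : D.card < 2 ^ g) :
    ((Pr.filter (fun p => Nat.Coprime p A ∧ (gstep A D p).card ^ 2 < 2 * D.card ^ 2)).card)
      ^ (2 ^ n) ≤ (4 * 2 ^ n) ^ (2 ^ n) * 2 ^ g := by
  classical
  have : NeZero A := ⟨by omega⟩
  set S₀ := Pr.filter (fun p => Nat.Coprime p A ∧ (gstep A D p).card ^ 2 < 2 * D.card ^ 2)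
    with hS₀
  have hS₀P : ∀ p ∈ S₀, p.Prime ∧ p ≤ P ∧ Nat.Coprime p A ∧
      (gstep A D p).card ^ 2 < 2 * D.card ^ 2 := by
    intro p hp
    obtain ⟨h1, h2, h3⟩ := mem_filter.1 hp
    exact ⟨(hPr p h1).1, (hPr p h1).2, h2, h3⟩
  have hP1 : ∀ p ∈ S₀, p < A := by
    intro p hp
    have h1 := (hS₀P p hp).2.1
    have h2 : P ≤ P ^ (2 ^ n) := Nat.le_self_pow (by positivity) P
    omega
  set S : Finset (ZMod A)ˣ := S₀.image (res A) with hS
  have hinj : Set.InjOn (res A) S₀ := by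
    intro p hp p' hp' h
    have h1 := (res_inj (hS₀P p hp).2.2.1 (hS₀P p' hp').2.2.1).1 h
    rwa [Nat.mod_eq_of_lt (hP1 p hp), Nat.mod_eq_of_lt (hP1 p' hp')] at h1
  have hScard : S.card = S₀.card := Finset.card_image_of_injOn hinj
  have hDbar : (D.image (res A)).card = D.card := card_image_res hD
  have hSym : ∀ x ∈ S, (D.image (res A)).card ≤
      2 * ((D.image (res A)) ∩ (D.image (res A)).image (fun y => x * y)).card := by
    intro x hx
    obtain ⟨p, hp, rfl⟩ := mem_image.1 hx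
    obtain ⟨hp1, hp2, hp3, hp4⟩ := hS₀P p hp
    have h1 := card_image_res (gstep_valid hD p)
    rw [image_gstep hD hp3] at h1
    have h2 := Finset.card_union_add_card_inter (D.image (res A))
      ((D.image (res A)).image (fun y => res A p * y))
    have h3 : ((D.image (res A)).image (fun y => res A p * y)).card = (D.image (res A)).card :=
      Finset.card_image_of_injective _ (fun a b h => mul_left_cancel h)
    rw [h1, h3, hDbar] at h2
    rw [hDbar]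
    by_contra hcon
    push Not at hcon
    have h5 : 3 * D.card < 2 * (gstep A D p).card := by omega
    nlinarith
  have hK : ∀ g' : (ZMod A)ˣ, (univ.filter (fun w : (Fin (2 ^ n) → S) × (Fin (2 ^ n) → S) =>
        ∏ i, (w.1 i : (ZMod A)ˣ) = g' * ∏ i, (w.2 i : (ZMod A)ˣ))).card ≤
        (2 ^ n).factorial * S.card ^ (2 ^ n) := by
    intro g'
    -- lift words over `S` to words over `S₀`
    have hlift : ∀ x : S, ∃ p : S₀, res A (p : ℕ) = (x : (ZMod A)ˣ) := by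
      intro x
      obtain ⟨p, hp, h⟩ := mem_image.1 x.2
      exact ⟨⟨p, hp⟩, h⟩
    choose lift hlift using hlift
    have hliftinj : Function.Injective lift := by
      intro x y h
      apply Subtype.ext
      rw [← hlift x, ← hlift y, h]
    -- fibre over the second word
    have hfib : ∀ w' : Fin (2 ^ n) → S, (univ.filter (fun w : Fin (2 ^ n) → S =>
        ∏ i, (w i : (ZMod A)ˣ) = g' * ∏ i, (w' i : (ZMod A)ˣ))).card ≤ (2 ^ n).factorial := by
      intro w'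
      rcases (univ.filter (fun w : Fin (2 ^ n) → S =>
        ∏ i, (w i : (ZMod A)ˣ) = g' * ∏ i, (w' i : (ZMod A)ˣ))).eq_empty_or_nonempty with h | h
      · rw [h]; simp
      · obtain ⟨w₀, hw₀⟩ := h
        simp only [mem_filter, mem_univ, true_and] at hw₀
        -- the integer product is determined
        have hprod : ∀ w : Fin (2 ^ n) → S, ((∏ i, (w i : (ZMod A)ˣ) : (ZMod A)ˣ) : ZMod A) =
            ((∏ i, ((lift (w i) : S₀) : ℕ) : ℕ) : ZMod A) := by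
          intro w
          push_cast
          refine Finset.prod_congr rfl (fun i _ => ?_)
          rw [← hlift (w i)]
          exact res_coe (hS₀P _ (lift (w i)).2).2.2.1
        have hlt : ∀ w : Fin (2 ^ n) → S, ∏ i, ((lift (w i) : S₀) : ℕ) < A := by
          intro w
          refine lt_of_le_of_lt ?_ hPA
          calc ∏ i, ((lift (w i) : S₀) : ℕ) ≤ ∏ _i : Fin (2 ^ n), P :=
                Finset.prod_le_prod' (fun i _ => (hS₀P _ (lift (w i)).2).2.1)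
            _ = P ^ (2 ^ n) := by simp
        have h1 := tuples_le (2 ^ n) (∏ i, ((lift (w₀ i) : S₀) : ℕ)) S₀
          (fun p hp => (hS₀P p hp).1)
        refine le_trans ?_ h1
        refine Finset.card_le_card_of_injOn (fun w => fun i => lift (w i)) ?_ ?_
        · intro w hw
          simp only [coe_filter, mem_univ, true_and, Set.mem_ofPred_eq] at hw ⊢
          have h2 : ((∏ i, (w i : (ZMod A)ˣ) : (ZMod A)ˣ) : ZMod A) =
              ((∏ i, (w₀ i : (ZMod A)ˣ) : (ZMod A)ˣ) : ZMod A) := by rw [hw, hw₀]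
          rw [hprod, hprod, ZMod.natCast_eq_natCast_iff'] at h2
          rwa [Nat.mod_eq_of_lt (hlt w), Nat.mod_eq_of_lt (hlt w₀)] at h2
        · intro w _ v _ h
          funext i
          exact hliftinj (congrFun h i)
    rw [Finset.card_filter, Fintype.sum_prod_type_right]
    have hcs : ∑ w' : Fin (2 ^ n) → S, (2 ^ n).factorial = (2 ^ n).factorial * S.card ^ (2 ^ n) := by
      rw [Finset.sum_const, smul_eq_mul, Finset.card_univ, mul_comm]
      simp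
    rw [← hcs]
    refine Finset.sum_le_sum (fun w' _ => ?_)
    rw [← Finset.card_filter]
    exact hfib w'
  have h1 := sym_bound (D.image (res A)) S n _ hSym hK
  rw [hDbar, hScard] at h1
  have hDpos : 0 < D.card := hDne.card_pos
  rcases Nat.eq_zero_or_pos S₀.card with h0 | h0
  · rw [h0]
    rw [zero_pow (by positivity)]
    exact Nat.zero_le _
  -- cancel
  have h2 : S₀.card ^ (2 ^ n) * (D.card * S₀.card ^ (2 ^ n)) ≤
      ((4 ^ (2 ^ n) * (2 ^ n).factorial) * D.card) * (D.card * S₀.card ^ (2 ^ n)) := by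
    calc S₀.card ^ (2 ^ n) * (D.card * S₀.card ^ (2 ^ n))
        = D.card * S₀.card ^ (2 * 2 ^ n) := by rw [two_mul, pow_add]; ring
      _ ≤ 4 ^ (2 ^ n) * ((2 ^ n).factorial * S₀.card ^ (2 ^ n)) * D.card ^ 2 := h1
      _ = _ := by ring
  have h3 := Nat.le_of_mul_le_mul_right h2 (by positivity)
  calc S₀.card ^ (2 ^ n) ≤ (4 ^ (2 ^ n) * (2 ^ n).factorial) * D.card := h3
    _ ≤ (4 ^ (2 ^ n) * (2 ^ n) ^ (2 ^ n)) * 2 ^ g := by
        gcongr
        exact Nat.factorial_le_pow _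
    _ = (4 * 2 ^ n) ^ (2 ^ n) * 2 ^ g := by rw [mul_pow]

/-- the number of primes of `Pr` dividing `A` -/
theorem card_not_coprime_le {A : ℕ} (hA : A ≠ 0) (Pr : Finset ℕ) (hPr : ∀ p ∈ Pr, p.Prime)
    (k : ℕ) (hk : A ≤ 2 ^ k) : (Pr.filter (fun p => ¬ Nat.Coprime p A)).card ≤ k := by
  have h1 : Pr.filter (fun p => ¬ Nat.Coprime p A) ⊆ A.primeFactors := by
    intro p hp
    obtain ⟨h1, h2⟩ := mem_filter.1 hp
    rw [(hPr p h1).coprime_iff_not_dvd, not_not] at h2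
    exact Nat.mem_primeFactors.2 ⟨hPr p h1, h2, hA⟩
  refine (Finset.card_le_card h1).trans ?_
  have h2 : 2 ^ A.primeFactors.card ≤ A := by
    calc 2 ^ A.primeFactors.card ≤ ∏ p ∈ A.primeFactors, p :=
          Finset.pow_card_le_prod _ _ _ (fun p hp => (Nat.prime_of_mem_primeFactors hp).two_le)
      _ ≤ A := Nat.le_of_dvd (Nat.pos_of_ne_zero hA) (Nat.prod_primeFactors_dvd A)
  exact (Nat.pow_le_pow_iff_right (by norm_num)).1 (h2.trans hk)

theorem two_mul_sq_bound (L : ℕ) (hL : 10 ≤ L) : 32 * L ≤ 2 ^ L ∧ L * 2 ^ L ≤ 2 ^ (2 * L) := by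
  have h : ∀ n : ℕ, 10 ≤ n → 32 * n ≤ 2 ^ n := by
    intro n hn
    induction n, hn using Nat.le_induction with
    | base => norm_num
    | succ n hn ih => rw [pow_succ]; omega
  refine ⟨h L hL, ?_⟩
  have h1 := h L hL
  rw [two_mul, pow_add]
  exact Nat.mul_le_mul_right _ (by omega)

/-- the progress predicate -/
def GP (g A j : ℕ) (D : Finset ℕ) : Prop :=
  GV A D ∧ D.Nonempty ∧ 2 ^ (2 * g) ≤ D.card ^ 2 * 2 ^ j

theorem gstep_nonempty {A : ℕ} {D : Finset ℕ} (hne : D.Nonempty) (p : ℕ) :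
    (gstep A D p).Nonempty :=
  Finset.card_pos.1 (hne.card_pos.trans_le (gstep_card_mono (A := A) (D := D) p))

theorem few_bad_num (L n g A : ℕ) (hn1 : 16 * L * 2 ^ n ≤ 2 ^ L)
    (hgn : g ≤ 4 * L * 2 ^ n) (hL : 10 ≤ L) (D : Finset ℕ) (hv : GV A D) (hne : D.Nonempty)
    (Pr : Finset ℕ) (hPr1 : ∀ p ∈ Pr, p.Prime ∧ p ≤ 2 ^ (16 * L))
    (hA1 : 2 ^ (2 ^ (L + 1)) ≤ A) (hbig : D.card < 2 ^ g) :
    (Pr.filter (fun p => Nat.Coprime p A ∧ (gstep A D p).card ^ 2 < 2 * D.card ^ 2)).card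
      ≤ 2 ^ (5 * L) := by
  have hA3 : 1 < A := by
    have h : 2 ^ 1 ≤ 2 ^ (2 ^ (L + 1)) := Nat.pow_le_pow_right (by norm_num) Nat.one_le_two_pow
    exact lt_of_lt_of_le (by norm_num) (h.trans hA1)
  have hPA : (2 ^ (16 * L)) ^ (2 ^ n) < A := by
    rw [← pow_mul]
    refine lt_of_lt_of_le ?_ hA1
    apply Nat.pow_lt_pow_right (by norm_num)
    calc 16 * L * 2 ^ n ≤ 2 ^ L := hn1
      _ < 2 ^ (L + 1) := Nat.pow_lt_pow_right (by norm_num) (by omega)
  have h1 := few_bad A (2 ^ (16 * L)) n g D hv hne Pr hPr1 hA3 hPA hbig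
  generalize (Pr.filter (fun p => Nat.Coprime p A ∧
    (gstep A D p).card ^ 2 < 2 * D.card ^ 2)).card = s at h1 ⊢
  have h2 : s ≤ 4 * 2 ^ n * 2 ^ (4 * L) := by
    have h3 : s ^ (2 ^ n) ≤ (4 * 2 ^ n * 2 ^ (4 * L)) ^ (2 ^ n) := by
      have e1 : (4 * 2 ^ n * 2 ^ (4 * L)) ^ (2 ^ n) = (4 * 2 ^ n) ^ (2 ^ n) * 2 ^ (4 * L * 2 ^ n) := by
        rw [mul_pow (4 * 2 ^ n) (2 ^ (4 * L)), ← pow_mul 2 (4 * L)]
      rw [e1]
      refine h1.trans (Nat.mul_le_mul_left _ ?_)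
      exact Nat.pow_le_pow_right (by norm_num) hgn
    exact (Nat.pow_le_pow_iff_left (by positivity)).1 h3
  refine h2.trans ?_
  have h4 : 4 * 2 ^ n ≤ 2 ^ L := by nlinarith [Nat.zero_le (2 ^ n)]
  calc 4 * 2 ^ n * 2 ^ (4 * L) ≤ 2 ^ L * 2 ^ (4 * L) := Nat.mul_le_mul_right _ h4
    _ = 2 ^ (5 * L) := by rw [← pow_add]; congr 1; ring

open Classical in
theorem grow_fail_card (L n g A j : ℕ) (hn1 : 16 * L * 2 ^ n ≤ 2 ^ L)
    (hgn : g ≤ 4 * L * 2 ^ n) (hL : 10 ≤ L) (D : Finset ℕ)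
    (Pr : Finset ℕ) (hPr1 : ∀ p ∈ Pr, p.Prime ∧ p ≤ 2 ^ (16 * L))
    (hA1 : 2 ^ (2 ^ (L + 1)) ≤ A) (hA2 : A ≤ 2 ^ (L * 2 ^ L)) (hD : GP g A (j + 1) D) :
    (Pr.filter (fun p => ¬ GP g A j (gstep A D p))).card ≤ 2 ^ (6 * L) := by
  obtain ⟨hv, hne, hc⟩ := hD
  by_cases hbig : 2 ^ g ≤ D.card
  · have h0 : (Pr.filter (fun p => ¬ GP g A j (gstep A D p))) = ∅ := by
      apply Finset.filter_eq_empty_iff.2
      intro p _
      rw [not_not]
      refine ⟨gstep_valid hv _, gstep_nonempty hne _, ?_⟩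
      have h1 := gstep_card_mono (A := A) (D := D) (p : ℕ)
      have h2 : (2 ^ g) ^ 2 ≤ (gstep A D p).card ^ 2 := Nat.pow_le_pow_left (hbig.trans h1) 2
      have h3 : 2 ^ (2 * g) = (2 ^ g) ^ 2 := by rw [← pow_mul, mul_comm]
      rw [h3]
      exact h2.trans (Nat.le_mul_of_pos_right _ Nat.one_le_two_pow)
    rw [h0]
    simp
  · push Not at hbig
    have h3 := few_bad_num L n g A hn1 hgn hL D hv hne Pr hPr1 hA1 hbig
    have hA0 : A ≠ 0 := by
      have h : 1 ≤ 2 ^ (2 ^ (L + 1)) := Nat.one_le_two_pow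
      omega
    have h4 := card_not_coprime_le (A := A) hA0 Pr (fun p hp => (hPr1 p hp).1) _ hA2
    have h5 : (Pr.filter (fun p => ¬ GP g A j (gstep A D p))).card ≤
        (Pr.filter (fun p => Nat.Coprime p A ∧ (gstep A D p).card ^ 2 < 2 * D.card ^ 2)).card +
          (Pr.filter (fun p => ¬ Nat.Coprime p A)).card := by
      refine le_trans ?_ (Finset.card_union_le _ _)
      refine Finset.card_le_card ?_
      intro p hp
      obtain ⟨hp1, hp2⟩ := mem_filter.1 hp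
      by_cases hcop : Nat.Coprime (p : ℕ) A
      · refine mem_union_left _ (mem_filter.2 ⟨hp1, hcop, ?_⟩)
        by_contra hcon
        push Not at hcon
        apply hp2
        refine ⟨gstep_valid hv _, gstep_nonempty hne _, ?_⟩
        have e1 : D.card ^ 2 * 2 ^ (j + 1) = 2 * D.card ^ 2 * 2 ^ j := by rw [pow_succ]; ring
        rw [e1] at hc
        exact hc.trans (Nat.mul_le_mul_right _ hcon)
      · exact mem_union_right _ (mem_filter.2 ⟨hp1, hcop⟩)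
    refine h5.trans ((Nat.add_le_add h3 h4).trans ?_)
    have e1 : L * 2 ^ L ≤ 2 ^ (5 * L) :=
      (two_mul_sq_bound L hL).2.trans (Nat.pow_le_pow_right (by norm_num) (by omega))
    have e2 : 2 ^ (5 * L) + 2 ^ (5 * L) ≤ 2 ^ (6 * L) := by
      rw [← two_mul, ← pow_succ']
      exact Nat.pow_le_pow_right (by norm_num) (by omega)
    exact (Nat.add_le_add_left e1 _).trans e2

theorem grow_num (L g q l K : ℕ) (hL : 10 ≤ L) (hgq : 8 * g = q) (hl : l = 2 * g)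
    (hK : K ≤ 2 ^ (L * q)) :
    (K : ℝ) * (2 ^ q * ((1 / 2 : ℝ) ^ (9 * L)) ^ (q + 1 - l)) < 1 := by
  have h3 : L * q + q < 9 * L * (q + 1 - l) := by
    have e1 : q + 1 - l = 6 * g + 1 := by omega
    rw [e1, ← hgq]
    nlinarith [Nat.zero_le (L * g), Nat.zero_le g]
  have h1 : (K : ℝ) ≤ 2 ^ (L * q) := by exact_mod_cast hK
  have h4 : (0 : ℝ) ≤ 2 ^ q * ((1 / 2 : ℝ) ^ (9 * L)) ^ (q + 1 - l) := by positivity
  calc (K : ℝ) * (2 ^ q * ((1 / 2 : ℝ) ^ (9 * L)) ^ (q + 1 - l))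
      ≤ 2 ^ (L * q) * (2 ^ q * ((1 / 2 : ℝ) ^ (9 * L)) ^ (q + 1 - l)) :=
        mul_le_mul_of_nonneg_right h1 h4
    _ = (2 : ℝ) ^ (L * q + q) * (1 / 2 : ℝ) ^ (9 * L * (q + 1 - l)) := by
        rw [← pow_mul, pow_add]; ring
    _ < (2 : ℝ) ^ (9 * L * (q + 1 - l)) * (1 / 2 : ℝ) ^ (9 * L * (q + 1 - l)) := by
        apply mul_lt_mul_of_pos_right _ (by positivity)
        exact pow_lt_pow_right₀ (by norm_num) h3
    _ = 1 := by rw [← mul_pow]; norm_num

theorem filter_subtype_card (Pr : Finset ℕ) (p : ℕ → Prop) [DecidablePred p]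
    [DecidablePred fun x : Pr => p x] :
    (univ.filter (fun x : Pr => p x)).card = (Pr.filter p).card := by
  refine Finset.card_bij (fun x _ => (x : ℕ)) ?_ ?_ ?_
  · intro x hx
    exact mem_filter.2 ⟨x.2, (mem_filter.1 hx).2⟩
  · intro a _ b _ h
    exact Subtype.ext h
  · intro b hb
    obtain ⟨h1, h2⟩ := mem_filter.1 hb
    exact ⟨⟨b, h1⟩, mem_filter.2 ⟨mem_univ _, h2⟩, rfl⟩

/-- the abstract growth statement -/
theorem grow_core (L n g q : ℕ) (hL : 10 ≤ L) (hn1 : 16 * L * 2 ^ n ≤ 2 ^ L)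
    (hgn : g ≤ 4 * L * 2 ^ n) (hgq : 8 * g = q) (hq : q = 2 ^ L)
    (Pr : Finset ℕ) (hPr1 : ∀ p ∈ Pr, p.Prime ∧ p ≤ 2 ^ (16 * L))
    (hPrcard : 2 ^ (15 * L) ≤ Pr.card) :
    ∃ w : Fin q → Pr, ∀ A ∈ Finset.Icc (2 ^ (2 ^ (L + 1))) (2 ^ (L * 2 ^ L)),
      Reach (fun D (p : Pr) => gstep A D p) (fun D => GV A D ∧ 2 ^ g ≤ D.card) q w {1} := by
  classical
  have hcardΩ : Fintype.card Pr = Pr.card := Fintype.card_coe Pr
  have hε0 : (0 : ℝ) ≤ (1 / 2 : ℝ) ^ (9 * L) := by positivity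
  have hε1 : (1 / 2 : ℝ) ^ (9 * L) ≤ 1 := pow_le_one₀ (by norm_num) (by norm_num)
  have hεcard : ((2 : ℝ) ^ (6 * L)) ≤ (1 / 2 : ℝ) ^ (9 * L) * Fintype.card Pr := by
    rw [hcardΩ]
    have h1 : ((2 : ℝ) ^ (15 * L)) ≤ (Pr.card : ℝ) := by exact_mod_cast hPrcard
    calc ((2 : ℝ) ^ (6 * L)) = (1 / 2 : ℝ) ^ (9 * L) * (2 : ℝ) ^ (15 * L) := by
          rw [show 15 * L = 9 * L + 6 * L by ring, pow_add, ← mul_assoc, ← mul_pow]
          norm_num
      _ ≤ _ := by gcongr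
  have hPG : ∀ A D, GP g A 0 D → GV A D ∧ 2 ^ g ≤ D.card := by
    rintro A D ⟨h1, h2, h3⟩
    refine ⟨h1, ?_⟩
    by_contra hcon
    push Not at hcon
    have : D.card ^ 2 < (2 ^ g) ^ 2 := Nat.pow_lt_pow_left hcon (by norm_num)
    rw [← pow_mul, mul_comm g 2] at this
    simp only [pow_zero, mul_one] at h3
    omega
  have hfail : ∀ A ∈ Finset.Icc (2 ^ (2 ^ (L + 1))) (2 ^ (L * 2 ^ L)),
      ∀ (_ : DecidablePred fun w : Fin q → Pr =>
        ¬ Reach (fun D (p : Pr) => gstep A D p) (fun D => GV A D ∧ 2 ^ g ≤ D.card) q w {1}),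
      ((univ.filter (fun w : Fin q → Pr =>
        ¬ Reach (fun D (p : Pr) => gstep A D p) (fun D => GV A D ∧ 2 ^ g ≤ D.card)
          q w {1})).card : ℝ) ≤
        (2 ^ q * ((1 / 2 : ℝ) ^ (9 * L)) ^ (q + 1 - 2 * g)) * (Fintype.card Pr : ℝ) ^ q := by
    intro A hA _
    obtain ⟨hA1, hA2⟩ := mem_Icc.1 hA
    have h0 : GP g A (2 * g) {1} := by
      refine ⟨⟨?_, ?_⟩, singleton_nonempty _, ?_⟩
      · intro u hu; rw [mem_singleton.1 hu]; exact Nat.coprime_one_left A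
      · intro u hu u' hu' _; rw [mem_singleton.1 hu, mem_singleton.1 hu']
      · rw [card_singleton, one_pow, one_mul]
    have hstep : ∀ j D, GP g A (j + 1) D →
        ((univ.filter (fun p : Pr => ¬ GP g A j (gstep A D p))).card : ℝ) ≤
          (1 / 2 : ℝ) ^ (9 * L) * Fintype.card Pr := by
      intro j D hD
      have h1 := grow_fail_card L n g A j hn1 hgn hL D Pr hPr1 hA1 hA2 hD
      rw [← filter_subtype_card Pr (fun p => ¬ GP g A j (gstep A D p))] at h1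
      refine le_trans ?_ hεcard
      exact_mod_cast h1
    have := trials (fun D (p : Pr) => gstep A D p) (fun D => GV A D ∧ 2 ^ g ≤ D.card)
      (GP g A) ((1 / 2 : ℝ) ^ (9 * L)) hε0 hε1 (hPG A) hstep q (2 * g) {1} h0
    convert this
  have hΩ : 0 < Fintype.card Pr := by
    rw [hcardΩ]; exact lt_of_lt_of_le (by positivity) hPrcard
  refine exists_word (Finset.Icc (2 ^ (2 ^ (L + 1))) (2 ^ (L * 2 ^ L))) q
    (fun A w => Reach (fun D (p : Pr) => gstep A D p) (fun D => GV A D ∧ 2 ^ g ≤ D.card) q w {1})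
    (2 ^ q * ((1 / 2 : ℝ) ^ (9 * L)) ^ (q + 1 - 2 * g)) hfail ?_ hΩ
  refine grow_num L g q (2 * g) _ hL hgq rfl ?_
  rw [Nat.card_Icc, hq]
  have h1 : 1 ≤ 2 ^ (2 ^ (L + 1)) := Nat.one_le_two_pow
  generalize 2 ^ (2 ^ (L + 1)) = y at h1 ⊢
  generalize 2 ^ (L * 2 ^ L) = z
  omega

theorem grow_param (L : ℕ) (hL : 10 ≤ L) : ∃ n : ℕ, 16 * L * 2 ^ n ≤ 2 ^ L ∧
    2 ^ (L - 3) ≤ 4 * L * 2 ^ n := by
  obtain ⟨hL32, hLsq⟩ := two_mul_sq_bound L hL
  refine ⟨Nat.log 2 (2 ^ L / (16 * L)), ?_, ?_⟩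
  · have hdivpos : 0 < 2 ^ L / (16 * L) := Nat.div_pos (by omega) (by omega)
    have h1 : 2 ^ (Nat.log 2 (2 ^ L / (16 * L))) ≤ 2 ^ L / (16 * L) :=
      Nat.pow_log_le_self 2 (by omega)
    calc 16 * L * 2 ^ (Nat.log 2 (2 ^ L / (16 * L))) ≤ 16 * L * (2 ^ L / (16 * L)) :=
          Nat.mul_le_mul_left _ h1
      _ ≤ 2 ^ L := Nat.mul_div_le _ _
  · have h1 : 2 ^ L / (16 * L) < 2 ^ (Nat.log 2 (2 ^ L / (16 * L)) + 1) :=
      Nat.lt_pow_succ_log_self (by norm_num) _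
    generalize Nat.log 2 (2 ^ L / (16 * L)) = n at h1 ⊢
    have h2 : 2 ^ L < 2 ^ (n + 1) * (16 * L) := (Nat.div_lt_iff_lt_mul (by omega)).1 h1
    rw [pow_succ] at h2
    have h3 : 8 * 2 ^ (L - 3) = 2 ^ L := by
      rw [show (8 : ℕ) = 2 ^ 3 by norm_num, ← pow_add]
      congr 1; omega
    nlinarith

theorem grow : ∃ L₀ : ℕ, ∀ L ≥ L₀, ∃ M₁ : ℕ, 0 < M₁ ∧ M₁ ≤ 2 ^ (16 * L * 2 ^ L) ∧
    ∀ A : ℕ, 2 ^ (2 ^ (L + 1)) ≤ A → A ≤ 2 ^ (L * 2 ^ L) →
      ∃ D : Finset ℕ, (∀ u ∈ D, u ∣ M₁) ∧ 2 ^ (2 ^ (L - 3)) ≤ D.card ∧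
        (∀ u ∈ D, ∀ u' ∈ D, u ≡ u' [MOD A] → u = u') := by
  classical
  obtain ⟨k₀, hk₀⟩ := primes_lower
  refine ⟨k₀ + 10, fun L hL => ?_⟩
  have hL10 : 10 ≤ L := by omega
  obtain ⟨hL32, hLsq⟩ := two_mul_sq_bound L hL10
  obtain ⟨Pr, hPrdef⟩ : ∃ Pr : Finset ℕ, Pr = (Finset.range (2 ^ (16 * L) + 1)).filter Nat.Prime :=
    ⟨_, rfl⟩
  have hPr1 : ∀ p ∈ Pr, p.Prime ∧ p ≤ 2 ^ (16 * L) := by
    intro p hp
    rw [hPrdef] at hp
    obtain ⟨h1, h2⟩ := mem_filter.1 hp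
    exact ⟨h2, Nat.lt_succ_iff.1 (mem_range.1 h1)⟩
  have hPrcard : 2 ^ (15 * L) ≤ Pr.card := by
    have h1 := hk₀ (16 * L) (by omega)
    have h2 : Nat.primeCounting (2 ^ (16 * L)) = Pr.card := by
      rw [Nat.primeCounting, Nat.primeCounting', Nat.count_eq_card_filter_range, hPrdef]
    rw [h2] at h1
    have h3 : 2 * (16 * L) ≤ 2 ^ L := by omega
    have h4 : 2 ^ L * 2 ^ (15 * L) ≤ 2 ^ L * Pr.card := by
      calc 2 ^ L * 2 ^ (15 * L) = 2 ^ (16 * L) := by rw [← pow_add]; congr 1; ring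
        _ ≤ 2 * (16 * L) * Pr.card := h1
        _ ≤ 2 ^ L * Pr.card := Nat.mul_le_mul_right _ h3
    exact Nat.le_of_mul_le_mul_left h4 (by positivity)
  obtain ⟨n, hn1, hgn⟩ := grow_param L hL10
  have hgL : 8 * 2 ^ (L - 3) = 2 ^ L := by
    rw [show (8 : ℕ) = 2 ^ 3 by norm_num, ← pow_add]
    congr 1; omega
  obtain ⟨w, hw⟩ := grow_core L n (2 ^ (L - 3)) (2 ^ L) hL10 hn1 hgn hgL rfl Pr hPr1 hPrcard
  refine ⟨∏ i, (w i : ℕ), ?_, ?_, ?_⟩
  · exact Finset.prod_pos (fun i _ => (hPr1 _ (w i).2).1.pos)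
  · calc ∏ i, (w i : ℕ) ≤ ∏ _i : Fin (2 ^ L), 2 ^ (16 * L) :=
          Finset.prod_le_prod' (fun i _ => (hPr1 _ (w i).2).2)
      _ = 2 ^ (16 * L * 2 ^ L) := by
          rw [Finset.prod_const, Finset.card_univ, Fintype.card_fin, ← pow_mul]
  · intro A hA1 hA2
    obtain ⟨D', ⟨hD1, hD2⟩, hD3⟩ := reach_divides (2 ^ L) w {1} 1
      (by intro u hu; rw [mem_singleton.1 hu]) (hw A (mem_Icc.2 ⟨hA1, hA2⟩))
    refine ⟨D', fun u hu => ?_, hD2, fun u hu u' hu' h => hD1.2 u hu u' hu' h⟩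
    have := hD3 u hu
    rwa [one_mul] at this

end Vale.Agent.P012
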