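import Vale.Agent.P012.Defs2

namespace Vale.Agent.P012
open Finset

theorem dn_le (z : ℝ) (k : ℤ) : dn z ≤ |z - k| := round_le z k

/-- at most one multiplier spoils a relation -/
theorem one_prime {z θ : ℝ} {N N₂ b b' : ℕ} (hN : 1 ≤ N) (hb : N < b) (hb2 : b ≤ N₂)
    (hb'2 : b' ≤ N₂) (hcop : Nat.Coprime b b') (hθ : 0 < θ) (hθ2 : 2 * N₂ * θ < 1)
    (h : dn (b * z) < θ) (h' : dn (b' * z) < θ) : dn z < θ / N := by
  set a := round (b * z) with ha
  set a' := round (b' * z) with ha'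
  unfold dn at h h'
  rw [← ha] at h
  rw [← ha'] at h'
  have hbpos : (0 : ℝ) < b := by exact_mod_cast (by omega : 0 < b)
  have hNpos : (0 : ℝ) < N := by exact_mod_cast (by omega : 0 < N)
  have hbN : (N : ℝ) < b := by exact_mod_cast hb
  have hb2' : (b : ℝ) ≤ N₂ := by exact_mod_cast hb2
  have hb'2' : (b' : ℝ) ≤ N₂ := by exact_mod_cast hb'2
  have hb'0 : (0 : ℝ) ≤ b' := by positivity
  rw [abs_lt] at h h'
  have key : |((b' * a - b * a' : ℤ) : ℝ)| < 1 := by
    push_cast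
    rw [abs_lt]
    have e1 : (b' : ℝ) * a - b * a' = b * (b' * z - a') - b' * (b * z - a) := by ring
    rw [e1]
    have i1 : (b : ℝ) * (b' * z - a') ≤ b * θ := by nlinarith
    have i2 : -(b * θ) ≤ (b : ℝ) * (b' * z - a') := by nlinarith
    have i3 : (b' : ℝ) * (b * z - a) ≤ b' * θ := by nlinarith
    have i4 : -(b' * θ) ≤ (b' : ℝ) * (b * z - a) := by nlinarith
    have i5 : (b : ℝ) * θ ≤ N₂ * θ := by nlinarith
    have i6 : (b' : ℝ) * θ ≤ N₂ * θ := by nlinarith
    constructor <;> linarith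
  have key2 : (b' * a - b * a' : ℤ) = 0 := by
    have : |(b' * a - b * a' : ℤ)| < 1 := by exact_mod_cast key
    exact Int.abs_lt_one_iff.1 this
  have hdvd : (b : ℤ) ∣ a := by
    have h1 : (b : ℤ) ∣ b' * a := ⟨a', by linarith⟩
    exact (Int.isCoprime_iff_gcd_eq_one.2 (by simpa using hcop)).dvd_of_dvd_mul_left h1
  obtain ⟨k, hk⟩ := hdvd
  refine lt_of_le_of_lt (dn_le z k) ?_
  rw [hk] at h
  push_cast at h
  have hlt : |z - k| < θ / b := by
    rw [lt_div_iff₀ hbpos]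
    have : |z - k| * b = |b * z - b * k| := by
      rw [← mul_sub, abs_mul, abs_of_pos hbpos, mul_comm]
    rw [this, abs_lt]
    exact h
  refine hlt.trans_le ?_
  exact div_le_div_of_nonneg_left hθ.le hNpos hbN.le

open Classical in
/-- a pair without small relation is spoiled by few multipliers -/
theorem few_spoil (y y' θ : ℝ) (R N N₂ : ℕ)
    (B : Finset ℕ) (hB : ∀ b ∈ B, N < b ∧ b ≤ N₂)
    (hcop : ∀ b ∈ B, ∀ b' ∈ B, b ≠ b' → Nat.Coprime b b')
    (hN : 1 ≤ N) (hR : 1 ≤ R) (hθ : 0 < θ) (hθ2 : 2 * N₂ * θ < 1)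
    (hy : ¬ Rel R (θ / N) y y') :
    (B.filter (fun b : ℕ => Rel R θ (b * y) (b * y'))).card ≤ 9 * R ^ 2 := by
  classical
  let H : Finset (ℤ × ℤ) := Finset.Icc (-(R : ℤ)) R ×ˢ Finset.Icc (-(R : ℤ)) R
  have hH : H.card ≤ 9 * R ^ 2 := by
    simp only [H, Finset.card_product, Int.card_Icc]
    have : ((R : ℤ) + 1 - -(R : ℤ)).toNat = 2 * R + 1 := by omega
    rw [this]
    nlinarith
  refine le_trans ?_ hH
  have hch : ∀ b : ℕ, ∃ p : ℤ × ℤ, Rel R θ (b * y) (b * y') →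
      (p.1 ≠ 0 ∨ p.2 ≠ 0) ∧ |p.1| ≤ R ∧ |p.2| ≤ R ∧ dn (p.1 * (b * y) + p.2 * (b * y')) < θ := by
    intro b
    by_cases hb : Rel R θ (b * y) (b * y')
    · obtain ⟨h, h', h1⟩ := hb
      exact ⟨(h, h'), fun _ => h1⟩
    · exact ⟨(0, 0), fun h => absurd h hb⟩
  choose f hf using hch
  refine Finset.card_le_card_of_injOn f ?_ ?_
  · intro b hb
    have hb' := (Finset.mem_filter.1 (Finset.mem_coe.1 hb)).2
    obtain ⟨_, h1, h2, _⟩ := hf b hb'
    rw [abs_le] at h1 h2
    simp only [H, Finset.coe_product, Finset.coe_Icc, Set.mem_prod, Set.mem_Icc]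
    exact ⟨h1, h2⟩
  · intro b hb b' hb' hbb
    obtain ⟨hb1, hb2⟩ := Finset.mem_filter.1 (Finset.mem_coe.1 hb)
    obtain ⟨hb1', hb2'⟩ := Finset.mem_filter.1 (Finset.mem_coe.1 hb')
    by_contra hne
    apply hy
    obtain ⟨h1, h2, h3, h4⟩ := hf b hb2
    obtain ⟨_, _, _, h4'⟩ := hf b' hb2'
    rw [← hbb] at h4'
    refine ⟨(f b).1, (f b).2, h1, h2, h3, ?_⟩
    refine one_prime hN (hB b hb1).1 (hB b hb1).2 (hB b' hb1').2 (hcop b hb1 b' hb1' hne) hθ hθ2
      ?_ ?_
    · convert h4 using 2; ring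
    · convert h4' using 2; ring

open Classical in
/-- one level step: all but few `b ∈ B` preserve the number of bad pairs up to `δ |E|²`,
improving the threshold from `θ / N` to `θ`. -/
theorem level_step {ι : Type*} (E : Finset ι) (x : ι → ℝ) (R N N₂ : ℕ) (θ δ : ℝ)
    (B : Finset ℕ) (hB : ∀ b ∈ B, N < b ∧ b ≤ N₂)
    (hcop : ∀ b ∈ B, ∀ b' ∈ B, b ≠ b' → Nat.Coprime b b')
    (hN : 1 ≤ N) (hR : 1 ≤ R) (hθ : 0 < θ) (hθ2 : 2 * N₂ * θ < 1) (hδ : 0 < δ) :
    ((B.filter (fun b : ℕ => ¬ ((badPairs E (fun i => b * x i) R θ : ℝ) ≤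
      badPairs E x R (θ / N) + δ * (E.card : ℝ) ^ 2))).card : ℝ) ≤ 9 * (R : ℝ) ^ 2 / δ := by
  classical
  set Bad := B.filter (fun b : ℕ => ¬ ((badPairs E (fun i => b * x i) R θ : ℝ) ≤
      badPairs E x R (θ / N) + δ * (E.card : ℝ) ^ 2)) with hBad
  rcases E.eq_empty_or_nonempty with hE | hE
  · have : Bad = ∅ := by
      rw [hBad, Finset.filter_eq_empty_iff]
      intro b _
      simp [badPairs, hE]
    rw [this]
    simp only [Finset.card_empty, Nat.cast_zero]
    positivity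
  · let P : ℕ → ι × ι → Prop := fun b p =>
      Rel R θ (b * x p.1) (b * x p.2) ∧ ¬ Rel R (θ / N) (x p.1) (x p.2)
    have c1 : ∀ p : ι × ι, (Bad.filter (fun b => P b p)).card ≤ 9 * R ^ 2 := by
      intro p
      by_cases hp : Rel R (θ / N) (x p.1) (x p.2)
      · have : Bad.filter (fun b => P b p) = ∅ := by
          rw [Finset.filter_eq_empty_iff]
          intro b _ hb
          exact hb.2 hp
        rw [this]; simp
      · refine le_trans (Finset.card_le_card ?_)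
          (few_spoil (x p.1) (x p.2) θ R N N₂ B hB hcop hN hR hθ hθ2 hp)
        intro b hb
        rw [Finset.mem_filter] at hb ⊢
        exact ⟨(Finset.mem_filter.1 hb.1).1, hb.2.1⟩
    have c2 : ∀ b ∈ Bad, δ * (E.card : ℝ) ^ 2 ≤ (((E ×ˢ E).filter (fun p => P b p)).card : ℝ) := by
      intro b hb
      have hb' := (Finset.mem_filter.1 hb).2
      rw [not_le] at hb'
      have h1 : badPairs E (fun i => b * x i) R θ ≤
          badPairs E x R (θ / N) + ((E ×ˢ E).filter (fun p => P b p)).card := by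
        unfold badPairs
        rw [← Finset.card_union_add_card_inter]
        refine le_trans (Finset.card_le_card ?_) (Nat.le_add_right _ _)
        intro p hp
        rw [Finset.mem_union, Finset.mem_filter, Finset.mem_filter]
        rw [Finset.mem_filter] at hp
        by_cases hq : Rel R (θ / N) (x p.1) (x p.2)
        · exact Or.inl ⟨hp.1, hq⟩
        · exact Or.inr ⟨hp.1, hp.2, hq⟩
      have h2 : ((badPairs E (fun i => b * x i) R θ : ℕ) : ℝ) ≤
          badPairs E x R (θ / N) + ((E ×ˢ E).filter (fun p => P b p)).card := by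
        exact_mod_cast h1
      linarith
    have c3 : ∑ b ∈ Bad, ((E ×ˢ E).filter (fun p => P b p)).card =
        ∑ p ∈ E ×ˢ E, (Bad.filter (fun b => P b p)).card := by
      simp only [Finset.card_filter]
      exact Finset.sum_comm
    have c4 : (Bad.card : ℝ) * (δ * (E.card : ℝ) ^ 2) ≤ 9 * (R : ℝ) ^ 2 * (E.card : ℝ) ^ 2 := by
      calc (Bad.card : ℝ) * (δ * (E.card : ℝ) ^ 2) = ∑ b ∈ Bad, δ * (E.card : ℝ) ^ 2 := by
            rw [Finset.sum_const, nsmul_eq_mul]
        _ ≤ ∑ b ∈ Bad, (((E ×ˢ E).filter (fun p => P b p)).card : ℝ) := Finset.sum_le_sum c2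
        _ = ((∑ p ∈ E ×ˢ E, (Bad.filter (fun b => P b p)).card : ℕ) : ℝ) := by
            rw [← c3]; push_cast; rfl
        _ ≤ ((∑ p ∈ E ×ˢ E, 9 * R ^ 2 : ℕ) : ℝ) := by
            exact_mod_cast Finset.sum_le_sum fun p _ => c1 p
        _ = 9 * (R : ℝ) ^ 2 * (E.card : ℝ) ^ 2 := by
            rw [Finset.sum_const, Finset.card_product]
            push_cast [smul_eq_mul]
            ring
    have hEpos : (0 : ℝ) < (E.card : ℝ) ^ 2 := by
      have : 0 < E.card := hE.card_pos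
      positivity
    rw [le_div_iff₀ hδ]
    have : ((Bad.card : ℝ) * δ) * (E.card : ℝ) ^ 2 ≤ (9 * (R : ℝ) ^ 2) * (E.card : ℝ) ^ 2 := by
      linarith
    exact le_of_mul_le_mul_right this hEpos

end Vale.Agent.P012
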