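import Vale.Agent.P012.Descent
import Vale.Agent.P012.Greedy
import Vale.Agent.P012.Modulus

namespace Vale.Agent.P012
open Finset

/-- (E2) the mod-`Q` phase -/
lemma modQ {Q T M k B : ℕ} (hQ : 0 < Q) (hT : 0 < T) (hM : 0 < M) (hTB : 4 * T ≤ B)
    (hd : ∀ r : ℕ, ∃ d1 d2 d3 d4 : ℕ, d1 ∣ T ∧ d2 ∣ T ∧ d3 ∣ T ∧ d4 ∣ T ∧
      d1 + d2 + d3 + d4 ≡ r [MOD Q])
    (hM3 : ∀ n c : ℕ, 0 < c → n ≤ B → SumUF ((n : ℚ) / ((c * M : ℕ) : ℚ)) k) :
    ∀ m n c : ℕ, 0 < c → n < 4 * T * Q ^ m →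
      SumUF ((n : ℚ) / ((c * (Q ^ m * T * M) : ℕ) : ℚ)) (4 * m + k) := by
  intro m
  induction m with
  | zero =>
    intro n c hc hn
    have h1 := hM3 n (c * T) (Nat.mul_pos hc hT) (by simp at hn; omega)
    have e : c * (Q ^ 0 * T * M) = c * T * M := by ring
    rw [e]
    exact h1.mono (by omega)
  | succ m ih =>
    intro n c hc hn
    by_cases hnT : n < 4 * T
    · have h1 := hM3 n (c * (Q ^ (m + 1) * T)) (Nat.mul_pos hc (Nat.mul_pos (by positivity) hT))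
        (by omega)
      have e : c * (Q ^ (m + 1) * T * M) = c * (Q ^ (m + 1) * T) * M := by ring
      rw [e]
      exact h1.mono (by omega)
    push Not at hnT
    obtain ⟨d1, d2, d3, d4, h1, h2, h3, h4, hmod⟩ := hd n
    have g1 := Nat.le_of_dvd hT h1
    have g2 := Nat.le_of_dvd hT h2
    have g3 := Nat.le_of_dvd hT h3
    have g4 := Nat.le_of_dvd hT h4
    have hle : d1 + d2 + d3 + d4 ≤ n := by omega
    obtain ⟨n', hn'⟩ := (Nat.modEq_iff_dvd' hle).1 hmod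
    have hn2 : n = d1 + d2 + d3 + d4 + Q * n' := by omega
    have hlt : n' < 4 * T * Q ^ m := by
      have : Q * n' < Q * (4 * T * Q ^ m) := by
        calc Q * n' ≤ n := by omega
          _ < 4 * T * Q ^ (m + 1) := hn
          _ = Q * (4 * T * Q ^ m) := by ring
      exact lt_of_mul_lt_mul_left this (Nat.zero_le _)
    have hih := ih n' c hc hlt
    have hpos : 0 < c * (Q ^ (m + 1) * T * M) := by positivity
    have hdv : ∀ d, d ∣ T → d ∣ c * (Q ^ (m + 1) * T * M) := fun d hd =>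
      hd.trans ⟨c * (Q ^ (m + 1) * M), by ring⟩
    have s1 := SumUF.div hpos (hdv d1 h1)
    have s2 := SumUF.div hpos (hdv d2 h2)
    have s3 := SumUF.div hpos (hdv d3 h3)
    have s4 := SumUF.div hpos (hdv d4 h4)
    have s := (((s1.add s2).add s3).add s4).add hih
    have e : (d1 : ℚ) / ((c * (Q ^ (m + 1) * T * M) : ℕ) : ℚ) +
        (d2 : ℚ) / ((c * (Q ^ (m + 1) * T * M) : ℕ) : ℚ) +
        (d3 : ℚ) / ((c * (Q ^ (m + 1) * T * M) : ℕ) : ℚ) +
        (d4 : ℚ) / ((c * (Q ^ (m + 1) * T * M) : ℕ) : ℚ) +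
        (n' : ℚ) / ((c * (Q ^ m * T * M) : ℕ) : ℚ) =
        (n : ℚ) / ((c * (Q ^ (m + 1) * T * M) : ℕ) : ℚ) := by
      have a1 : (c : ℚ) ≠ 0 := by positivity
      have a2 : (Q : ℚ) ≠ 0 := by positivity
      have a3 : (T : ℚ) ≠ 0 := by positivity
      have a4 : (M : ℚ) ≠ 0 := by positivity
      have hnq : (n : ℚ) = d1 + d2 + d3 + d4 + Q * n' := by exact_mod_cast hn2
      rw [hnq]
      push_cast
      field_simp
      ring
    rw [e] at s
    exact s.mono (by omega)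

lemma pow_ge_lin (L : ℕ) (hL : 11 ≤ L) : 132 * L ≤ 2 ^ L := by
  induction L, hL using Nat.le_induction with
  | base => norm_num
  | succ n hn ih => rw [pow_succ]; omega

/-- (E3) -/
theorem main_of_KeyD (hD : KeyD) : ∃ C : ℕ, ∃ L₀ : ℕ, ∀ L ≥ L₀, ∀ a b : ℕ, 1 ≤ a → a < b →
    b ≤ 2 ^ (2 ^ L) → SumUF ((a : ℚ) / b) (C * L) := by
  obtain ⟨L₁, C₁, h₁⟩ := exists_M3 hD
  obtain ⟨L₂, h₂⟩ := exists_modulus
  refine ⟨5 + 2 * (4 * 4224 + C₁), max 11 (max L₁ L₂), fun L hL a b ha hab hb => ?_⟩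
  have hL11 : 11 ≤ L := (le_max_left _ _).trans hL
  obtain ⟨M, hM0, hMle, hM⟩ := h₁ L (((le_max_left _ _).trans (le_max_right _ _)).trans hL)
  obtain ⟨Q, T, hQ, hT0, hTle, hd⟩ := h₂ L (((le_max_right _ _).trans (le_max_right _ _)).trans hL)
  have hQ0 : 0 < Q := lt_of_lt_of_le (by positivity) hQ
  set H := 2 ^ (132 * L * 2 ^ L) with hH
  have hb' : b ≤ H := by
    refine hb.trans (Nat.pow_le_pow_right (by norm_num) ?_)
    exact Nat.le_mul_of_pos_left _ (by omega)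
  have hbTM : b * (T * M) ≤ H := by
    have hT' : T ≤ 2 ^ (L * 2 ^ L) := by omega
    calc b * (T * M) ≤ 2 ^ 2 ^ L * (2 ^ (L * 2 ^ L) * 2 ^ (130 * L * 2 ^ L)) :=
          Nat.mul_le_mul hb (Nat.mul_le_mul hT' hMle)
      _ = 2 ^ (2 ^ L + (L * 2 ^ L + 130 * L * 2 ^ L)) := by rw [← pow_add, ← pow_add]
      _ ≤ H := by
          apply Nat.pow_le_pow_right (by norm_num)
          have : 2 ^ L ≤ L * 2 ^ L := Nat.le_mul_of_pos_left _ (by omega)
          calc 2 ^ L + (L * 2 ^ L + 130 * L * 2 ^ L) ≤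
                L * 2 ^ L + (L * 2 ^ L + 130 * L * 2 ^ L) := by omega
            _ = 132 * L * 2 ^ L := by ring
  have hQm : H ^ 2 ≤ Q ^ (4224 * L) := by
    have h16 : 16 * 2 ^ (L - 4) = 2 ^ L := by
      rw [show (16 : ℕ) = 2 ^ 4 by norm_num, ← pow_add]; congr 1; omega
    calc H ^ 2 = (2 ^ 2 ^ (L - 4)) ^ (4224 * L) := by
          rw [hH, ← pow_mul, ← pow_mul]
          congr 1
          rw [← h16]; ring
      _ ≤ Q ^ (4224 * L) := Nat.pow_le_pow_left hQ _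
  have hlog : Nat.log 2 (Nat.log 2 H) ≤ 2 * L := by
    rw [hH, Nat.log_pow (by norm_num)]
    have h1 : 132 * L * 2 ^ L ≤ 2 ^ (2 * L) := by
      have : 2 ^ (2 * L) = 2 ^ L * 2 ^ L := by rw [← pow_add]; congr 1; ring
      rw [this]
      exact Nat.mul_le_mul_right _ (pow_ge_lin L hL11)
    calc Nat.log 2 (132 * L * 2 ^ L) ≤ Nat.log 2 (2 ^ (2 * L)) := Nat.log_mono_right h1
      _ = 2 * L := Nat.log_pow (by norm_num) _
  obtain ⟨k, a', B, hk, hB1, hS, hcase⟩ := greedy a b H ha hab hb'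
  have hmodQ := modQ hQ0 hT0 hM0 hTle hd hM (4224 * L)
  rcases hcase with h0 | ⟨ha'b, hHB, hBH⟩
  · rw [h0] at hS
    simp only [Nat.cast_zero, zero_div, sub_zero] at hS
    refine hS.mono ?_
    nlinarith
  · set N := Q ^ (4224 * L) * T * M with hN
    have hN0 : 0 < N := by positivity
    have hH0 : 0 < H := by positivity
    have hT4 : ∀ y, y ≤ Q ^ (4224 * L) → y < 4 * T * Q ^ (4224 * L) := by
      intro y hy
      have h1 : 0 < Q ^ (4224 * L) := by positivity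
      have h2 : 4 * Q ^ (4224 * L) ≤ 4 * T * Q ^ (4224 * L) :=
        Nat.mul_le_mul_right _ (by omega)
      omega
    -- division
    have hr : (a' * N) % B ≤ Q ^ (4224 * L) :=
      ((Nat.mod_lt _ (by omega)).le.trans hBH).trans hQm
    have hq : (a' * N) / B ≤ Q ^ (4224 * L) := by
      apply Nat.div_le_of_le_mul
      calc a' * N ≤ b * N := Nat.mul_le_mul_right _ ha'b.le
        _ = (b * (T * M)) * Q ^ (4224 * L) := by rw [hN]; ring
        _ ≤ H * Q ^ (4224 * L) := Nat.mul_le_mul_right _ hbTM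
        _ ≤ B * Q ^ (4224 * L) := Nat.mul_le_mul_right _ hHB
    have s1 := hmodQ _ 1 one_pos (hT4 _ hq)
    have s2 := hmodQ _ B (by omega) (hT4 _ hr)
    rw [one_mul] at s1
    have s := (s1.add s2).add hS
    have e : (((a' * N) / B : ℕ) : ℚ) / ((N : ℕ) : ℚ) +
        (((a' * N) % B : ℕ) : ℚ) / ((B * N : ℕ) : ℚ) + ((a : ℚ) / b - (a' : ℚ) / B) =
        (a : ℚ) / b := by
      have hdm := Nat.div_add_mod (a' * N) B
      have hq : (a' : ℚ) * N = B * (((a' * N) / B : ℕ) : ℚ) + (((a' * N) % B : ℕ) : ℚ) := by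
        exact_mod_cast hdm.symm
      have a1 : (B : ℚ) ≠ 0 := by positivity
      have a2 : (N : ℚ) ≠ 0 := by positivity
      have : (a' : ℚ) / B = (((a' * N) / B : ℕ) : ℚ) / ((N : ℕ) : ℚ) +
        (((a' * N) % B : ℕ) : ℚ) / ((B * N : ℕ) : ℚ) := by
        push_cast
        field_simp
        linarith
      rw [this]; ring
    rw [e] at s
    refine s.mono ?_
    nlinarith

end Vale.Agent.P012
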