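import Vale.Agent.P012.Assembly
import Vale.Agent.P012.Distinct

namespace Vale.Agent.P012
open Finset

theorem log_bound (L : ℕ) (hL : 1 ≤ L) :
    Nat.log 2 (Nat.log 2 (2 ^ (132 * L * 2 ^ L))) ≤ 2 * L + 8 := by
  rw [Nat.log_pow (by norm_num)]
  have h1 : 132 * L * 2 ^ L ≤ 2 ^ (2 * L + 8) := by
    have h2 : L ≤ 2 ^ L := Nat.lt_two_pow_self.le
    calc 132 * L * 2 ^ L ≤ 256 * 2 ^ L * 2 ^ L := by
          gcongr
          norm_num
      _ = 2 ^ (2 * L + 8) := by rw [pow_add, two_mul, pow_add]; norm_num; ring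
  calc Nat.log 2 (132 * L * 2 ^ L) ≤ Nat.log 2 (2 ^ (2 * L + 8)) := Nat.log_mono_right h1
    _ = 2 * L + 8 := Nat.log_pow (by norm_num) _

theorem final_identity {a' B q r M : ℕ} (hB : 0 < B) (hM : 0 < M) (h : a' * M = q * B + r) :
    (a' : ℚ) / B = (q : ℚ) / M + (r : ℚ) / ((B : ℚ) * M) := by
  have h1 : (a' : ℚ) * M = q * B + r := by exact_mod_cast h
  have hB' : (B : ℚ) ≠ 0 := by positivity
  have hM' : (M : ℚ) ≠ 0 := by positivity
  field_simp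
  linear_combination h1

theorem main_core {L b a' B Q T W H k m : ℕ} (hQ : 0 < Q) (hT : 0 < T) (hW : 0 < W)
    (hTX : 4 * T ≤ 2 ^ (L * 2 ^ L))
    (hQT : ∀ r : ℕ, ∃ d1 d2 d3 d4 : ℕ, d1 ∣ T ∧ d2 ∣ T ∧ d3 ∣ T ∧ d4 ∣ T ∧
      d1 + d2 + d3 + d4 ≡ r [MOD Q]) (hcov : Cov W (L * 2 ^ L) k)
    (hQm : H ^ 2 ≤ Q ^ m) (ha' : a' < b) (hbTW : b * (T * W) ≤ H) (hHB : H ≤ B)
    (hBH : B ≤ H ^ 2) (hB : 1 ≤ B) :
    SumUF ((a' : ℚ) / B) (4 * m + k + (4 * m + k)) := by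
  have hMpos : 0 < Q ^ m * T * W := by positivity
  obtain ⟨q, r, hqr, hr⟩ : ∃ q r, a' * (Q ^ m * T * W) = q * B + r ∧ r < B :=
    ⟨a' * (Q ^ m * T * W) / B, a' * (Q ^ m * T * W) % B,
      by rw [mul_comm _ B]; exact (Nat.div_add_mod _ _).symm, Nat.mod_lt _ hB⟩
  have hq : q ≤ Q ^ m := by
    have h1 : q * B ≤ Q ^ m * B := by
      calc q * B ≤ a' * (Q ^ m * T * W) := by omega
        _ ≤ b * (Q ^ m * T * W) := Nat.mul_le_mul_right _ ha'.le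
        _ = Q ^ m * (b * (T * W)) := by ring
        _ ≤ Q ^ m * B := Nat.mul_le_mul_left _ (hbTW.trans hHB)
    exact Nat.le_of_mul_le_mul_right h1 hB
  have hr' : r ≤ Q ^ m := hr.le.trans (hBH.trans hQm)
  have s1 := phase_one hQ hT hW hTX hQT hcov m q 1 one_pos hq
  have s2 := phase_one hQ hT hW hTX hQT hcov m r B hB hr'
  rw [final_identity hB hMpos hqr]
  have e1 : (q : ℚ) / ((1 : ℕ) * ((Q : ℚ) ^ m * T * W)) = (q : ℚ) / ((Q ^ m * T * W : ℕ) : ℚ) := by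
    push_cast
    rw [one_mul]
  have e2 : (r : ℚ) / ((B : ℚ) * ((Q : ℚ) ^ m * T * W)) =
      (r : ℚ) / ((B : ℚ) * ((Q ^ m * T * W : ℕ) : ℚ)) := by
    push_cast
    rfl
  rw [e1] at s1
  rw [e2] at s2
  exact s1.add s2

theorem main : ∃ C : ℕ, ∃ L₀ : ℕ, ∀ L ≥ L₀, ∀ a b : ℕ, 1 ≤ a → a < b → b ≤ 2 ^ (2 ^ L) →
    SumUF ((a : ℚ) / b) (C * L) := by
  obtain ⟨L₁, K, h₁⟩ := exists_cov
  obtain ⟨L₂, h₂⟩ := exists_modulus
  refine ⟨2 * K + 40000, L₁ + L₂ + 4, fun L hL a b ha hab hb => ?_⟩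
  obtain ⟨W, hW, hWb, hcov⟩ := h₁ L (by omega)
  obtain ⟨Q, T, hQ, hT, hTX, hQT⟩ := h₂ L (by omega)
  have hQ0 : 0 < Q := lt_of_lt_of_le (by positivity) hQ
  have hL1 : 1 ≤ L := by omega
  obtain ⟨H, hH⟩ : ∃ H : ℕ, H = 2 ^ (132 * L * 2 ^ L) := ⟨_, rfl⟩
  have hb1 : b ≤ 2 ^ (L * 2 ^ L) :=
    hb.trans (Nat.pow_le_pow_right (by norm_num) (Nat.le_mul_of_pos_left _ hL1))
  have hbTW : b * (T * W) ≤ H := by
    calc b * (T * W) ≤ 2 ^ (L * 2 ^ L) * (2 ^ (L * 2 ^ L) * 2 ^ (130 * L * 2 ^ L)) := by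
          gcongr
          omega
      _ = H := by rw [hH, ← pow_add, ← pow_add]; congr 1; ring
  have hbH : b ≤ H := (Nat.le_mul_of_pos_right _ (by positivity)).trans hbTW
  obtain ⟨k, a', B, hk, hB, hdiff, hcase⟩ := greedy a b H ha hab hbH
  have hk' : k ≤ 2 * L + 11 := by
    have := log_bound L hL1
    rw [← hH] at this
    omega
  rcases hcase with h0 | ⟨ha', hHB, hBH⟩
  · rw [h0, Nat.cast_zero, zero_div, sub_zero] at hdiff
    refine hdiff.mono (hk'.trans ?_)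
    calc 2 * L + 11 ≤ 40000 * L := by omega
      _ ≤ (2 * K + 40000) * L := Nat.mul_le_mul_right _ (by omega)
  · have hQm : H ^ 2 ≤ Q ^ (4224 * L) := by
      calc H ^ 2 = (2 ^ (2 ^ (L - 4))) ^ (4224 * L) := by
            rw [hH, ← pow_mul, ← pow_mul]
            congr 1
            have : 2 ^ L = 2 ^ 4 * 2 ^ (L - 4) := by rw [← pow_add]; congr 1; omega
            rw [this]; ring
        _ ≤ Q ^ (4224 * L) := Nat.pow_le_pow_left hQ _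
    have s := main_core hQ0 hT hW hTX hQT hcov hQm ha' hbTW hHB hBH hB
    have hsum := hdiff.add s
    rw [sub_add_cancel] at hsum
    refine hsum.mono ?_
    calc k + (4 * (4224 * L) + (K + 768 * L) + (4 * (4224 * L) + (K + 768 * L)))
        ≤ 2 * K + 36000 * L := by omega
      _ ≤ (2 * K + 40000) * L := by nlinarith [Nat.mul_le_mul_left (2 * K) hL1]

end Vale.Agent.P012
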