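import Mathlib

namespace Vale.Agent.P012

/-- `S` is a finite set of integers `≥ 2` whose reciprocals sum to `a / b`. -/
def IsExpansion (a b : ℕ) (S : Finset ℕ) : Prop :=
  (∀ n ∈ S, 2 ≤ n) ∧ ∑ n ∈ S, (1 : ℚ) / (n : ℚ) = (a : ℚ) / (b : ℚ)

/-- `N(a, b)`: the least number of distinct unit fractions with sum `a / b`. -/
noncomputable def minLength (a b : ℕ) : ℕ :=
  sInf {k : ℕ | ∃ S : Finset ℕ, IsExpansion a b S ∧ S.card = k}

/-- `N(b) = max_{1 ≤ a < b} N(a, b)`. -/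
noncomputable def maxLength (b : ℕ) : ℕ :=
  (Finset.Ico 1 b).sup (fun a => minLength a b)

end Vale.Agent.P012
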