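import Vale.Agent.P012.MainThm
import Vale.Agent.P012.UDefs

namespace Vale.Agent.P012
open Finset Filter

theorem loglog_lower (L : ℕ) (hL : 4 ≤ L) (b : ℕ) (hb : 2 ^ (2 ^ (L - 1)) ≤ b) :
    (L : ℝ) ≤ 4 * Real.log (Real.log b) := by
  have hlog2 : (1 / 2 : ℝ) ≤ Real.log 2 := by
    have := Real.log_two_gt_d9
    linarith
  have hb' : ((2 : ℝ) ^ (2 ^ (L - 1))) ≤ b := by exact_mod_cast hb
  have h1 : (2 : ℝ) ^ (L - 2) ≤ Real.log b := by
    calc (2 : ℝ) ^ (L - 2) = (2 : ℝ) ^ (L - 1) * (1 / 2) := by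
          have : L - 1 = L - 2 + 1 := by omega
          rw [this, pow_succ]; ring
      _ ≤ (2 : ℝ) ^ (L - 1) * Real.log 2 := by gcongr
      _ = Real.log ((2 : ℝ) ^ (2 ^ (L - 1))) := by rw [Real.log_pow]; push_cast; ring
      _ ≤ Real.log b := Real.log_le_log (by positivity) hb'
  have h2 : ((L : ℝ) - 2) * Real.log 2 ≤ Real.log (Real.log b) := by
    calc ((L : ℝ) - 2) * Real.log 2 = Real.log ((2 : ℝ) ^ (L - 2)) := by
          rw [Real.log_pow, Nat.cast_sub (by omega)]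
          push_cast
          ring
      _ ≤ _ := Real.log_le_log (by positivity) h1
  have h3 : (4 : ℝ) ≤ L := by exact_mod_cast hL
  nlinarith

/-- short expansions exist -/
theorem exists_short : ∃ C : ℝ, 0 < C ∧ ∃ b₀ : ℕ, ∀ b ≥ b₀, ∀ a : ℕ, 1 ≤ a → a < b →
    ∃ S : Finset ℕ, IsExpansion a b S ∧ (S.card : ℝ) ≤ C * Real.log (Real.log b) := by
  obtain ⟨C, L₀, h⟩ := main
  refine ⟨4 * (C + 1), by positivity, 2 ^ (2 ^ (L₀ + 4)) + 1, fun b hb a ha hab => ?_⟩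
  set K := Nat.clog 2 b with hK
  set L := Nat.clog 2 K with hL
  have hbK : b ≤ 2 ^ K := Nat.le_pow_clog (by norm_num) b
  have hKL : K ≤ 2 ^ L := Nat.le_pow_clog (by norm_num) K
  have hbL : b ≤ 2 ^ (2 ^ L) := hbK.trans (Nat.pow_le_pow_right (by norm_num) hKL)
  have hLbig : L₀ + 4 < L := by
    by_contra hcon
    push Not at hcon
    have h1 : 2 ^ (2 ^ L) ≤ 2 ^ (2 ^ (L₀ + 4)) :=
      Nat.pow_le_pow_right (by norm_num) (Nat.pow_le_pow_right (by norm_num) hcon)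
    omega
  have hK1 : 1 < K := by
    by_contra hcon
    push Not at hcon
    have h1 : L = 0 := by rw [hL]; exact Nat.clog_of_right_le_one hcon 2
    omega
  have hb1 : 1 < b := by
    by_contra hcon
    push Not at hcon
    have h1 : K = 0 := by rw [hK]; exact Nat.clog_of_right_le_one hcon 2
    omega
  have h1 : 2 ^ (L - 1) < K := Nat.pow_pred_clog_lt_self (by norm_num) hK1
  have h2 : 2 ^ (K - 1) < b := Nat.pow_pred_clog_lt_self (by norm_num) hb1
  have h3 : 2 ^ (2 ^ (L - 1)) ≤ b :=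
    (Nat.pow_le_pow_right (by norm_num) (by omega)).trans h2.le
  have h4 := loglog_lower L (by omega) b h3
  obtain ⟨S, hS1, hS2, hS3⟩ := exists_distinct (x := (a : ℚ) / b) (k := C * L)
    (by positivity) (by rw [div_lt_one (by positivity)]; exact_mod_cast hab)
    (h L (by omega) a b ha hab hbL)
  refine ⟨S, ⟨hS1, hS3⟩, ?_⟩
  have h5 : (S.card : ℝ) ≤ (C : ℝ) * L := by exact_mod_cast hS2
  have h6 : (0 : ℝ) ≤ L := Nat.cast_nonneg L
  have h7 : (0 : ℝ) ≤ C := Nat.cast_nonneg C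
  calc (S.card : ℝ) ≤ (C : ℝ) * L := h5
    _ ≤ (C : ℝ) * (4 * Real.log (Real.log b)) := by gcongr
    _ ≤ 4 * (C + 1) * Real.log (Real.log b) := by nlinarith

theorem minLength_le {a b : ℕ} {S : Finset ℕ} (h : IsExpansion a b S) :
    minLength a b ≤ S.card :=
  Nat.sInf_le ⟨S, h, rfl⟩

theorem minLength_spec {a b : ℕ} (h : ∃ S : Finset ℕ, IsExpansion a b S) :
    ∃ S : Finset ℕ, IsExpansion a b S ∧ S.card = minLength a b := by
  obtain ⟨S, hS⟩ := h
  exact Nat.sInf_mem (s := {k : ℕ | ∃ S : Finset ℕ, IsExpansion a b S ∧ S.card = k})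
    ⟨S.card, S, hS, rfl⟩

/-- every fraction in `(0, 1)` has an expansion -/
theorem exists_expansion {a b : ℕ} (ha : 1 ≤ a) (hab : a < b) :
    ∃ S : Finset ℕ, IsExpansion a b S := by
  have hb : 0 < b := by omega
  obtain ⟨S, hS1, _, hS3⟩ := exists_distinct (x := (a : ℚ) / b) (k := a)
    (by positivity) (by rw [div_lt_one (by positivity)]; exact_mod_cast hab)
    (SumUF.copies a b hb)
  exact ⟨S, hS1, hS3⟩

theorem maxLength_upper : ∃ C : ℝ, 0 < C ∧ ∀ᶠ b : ℕ in atTop,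
    (maxLength b : ℝ) ≤ C * Real.log (Real.log b) := by
  obtain ⟨C, hC, b₀, h⟩ := exists_short
  refine ⟨C, hC, eventually_atTop.2 ⟨b₀ + 16, fun b hb => ?_⟩⟩
  have hb16 : 16 ≤ b := by omega
  have hne : (Ico 1 b).Nonempty := ⟨1, mem_Ico.2 ⟨le_rfl, by omega⟩⟩
  obtain ⟨a, ha, hmax⟩ := exists_mem_eq_sup (Ico 1 b) hne (fun a => minLength a b)
  obtain ⟨ha1, ha2⟩ := mem_Ico.1 ha
  obtain ⟨S, hS1, hS2⟩ := h b (by omega) a ha1 ha2
  have h1 : (maxLength b : ℝ) ≤ S.card := by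
    unfold maxLength
    rw [hmax]
    exact_mod_cast minLength_le hS1
  exact h1.trans hS2

end Vale.Agent.P012
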